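import Vale.Agent.P283R.Tq.All
import Vale.Agent.P283R.Sl.Tq2

/-!
# P283R, block TQ: the short words
-/

open Set CategoryTheory AlgebraicGeometry

noncomputable section

namespace Vale.Agent.P283R.Tq

open Vale.Agent.P283R.To (mon lau mon_add mon_ne)

theorem ring_of {K : Type} [Field K] [Algebra ℂ K] {r : ℕ} {y : Fin r → K}
    (hy : AlgebraicIndependent ℂ y) {A : Set K} (h0 : ∀ a ∈ Submodule.span ℂ A, a ∈ A)
    (h : Sl.GradedOver Fin.elim0 y A) (fr : ∀ a : K, ∃ b ∈ A, b ≠ 0 ∧ b * a ∈ A) :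
    Sl.ToricRing y A := by
  have y0 := hy.ne_zero
  have e : A = Submodule.span ℂ (mon y '' {m | mon y m ∈ A}) := by
    refine Subset.antisymm (fun a ha => Submodule.span_le.2 ?_ (h a ha))
      fun a ha => h0 a (Submodule.span_mono (by rintro _ ⟨m, hm, rfl⟩; exact hm) ha)
    rintro b ⟨hb, φ, hφ, m, rfl⟩
    rw [Set.range_eq_empty, IntermediateField.adjoin_empty, IntermediateField.mem_bot] at hφ
    obtain ⟨c, rfl⟩ := hφ
    rw [← Algebra.smul_def] at hb ⊢
    rcases eq_or_ne c 0 with rfl | c0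
    · rw [zero_smul]
      exact zero_mem _
    · refine Submodule.smul_mem _ _ (Submodule.subset_span ⟨m, h0 _ ?_, rfl⟩)
      rw [← inv_smul_smul₀ c0 (mon y m)]
      exact Submodule.smul_mem _ _ (Submodule.subset_span hb)
  refine ⟨{m | mon y m ∈ A}, eq_top_iff.2 fun v _ => ?_, e⟩
  obtain ⟨b, hb, b0, hv⟩ := fr (mon y v)
  obtain ⟨g, g1, rfl⟩ := (Finsupp.mem_span_image_iff_linearCombination ℂ).1 (e.le hb)
  obtain ⟨k, k1, k2⟩ := (Finsupp.mem_span_image_iff_linearCombination ℂ).1 (e.le hv)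
  have w : Finsupp.linearCombination ℂ (mon y) (g.equivMapDomain (Equiv.addRight v)) =
      Finsupp.linearCombination ℂ (mon y) g * mon y v := by
    rw [Finsupp.linearCombination_equivMapDomain, Finsupp.linearCombination_apply,
      Finsupp.linearCombination_apply, Finsupp.sum_mul]
    exact Finsupp.sum_congr fun m _ => by
      rw [Function.comp_apply, Equiv.coe_addRight, mon_add y0, smul_mul_assoc]
  have ek : k = g.equivMapDomain (Equiv.addRight v) := by_contra fun n =>
    To.Tr.lau_ne hy (sub_ne_zero.2 n) (show Finsupp.linearCombination ℂ (mon y) _ = 0 by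
      rw [map_sub, k2, w, sub_self])
  obtain ⟨m, hm⟩ := Finsupp.support_nonempty_iff.2 fun z : g = 0 => b0 (by rw [z, map_zero])
  have : m + v ∈ k.support := by
    rw [ek, Finsupp.mem_support_iff, Finsupp.equivMapDomain_apply]
    simpa using hm
  rw [← add_sub_cancel_left m v]
  exact sub_mem (AddSubgroup.subset_closure (k1 this)) (AddSubgroup.subset_closure (g1 hm))

section

open Vale.Agent.P289 Vale.Agent.P289.H219 Vale.Agent.P270L Vale.Agent.P283M.Am Vale.Agent.P299.G
open Vale.Agent.P283M Vale.Agent.P283M.Br Vale.Agent.P283M.Stm.Var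

theorem exists_pe' {Z W : Stm.Var} (e : W.X ⟶ Z.X) (h : Surjective e) : ∃ ι, Et.Pe e ι := by
  let η := genericPoint W.X
  have g : e η = genericPoint Z.X := by
    have := (genericPoint_spec W.X).image e.continuous
    rw [image_univ, h.surj.range_eq, closure_univ] at this
    exact this.eq (genericPoint_spec Z.X)
  have fl : IsField (Z.X.presheaf.stalk (e η)) := by
    rw [g]
    exact Field.toIsField Z.X.functionField
  have inj : Function.Injective (e.stalkMap η).hom := (injective_iff_map_eq_zero _).2 fun a z =>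
    by_contra fun n => by
      obtain ⟨b, hb⟩ := fl.mul_inv_cancel n
      have := congrArg (e.stalkMap η).hom hb
      rw [map_mul, z, zero_mul, map_one] at this
      exact zero_ne_one this
  have inj' : Function.Injective ((toK η).comp (e.stalkMap η).hom) := (toK_injective η).comp inj
  refine ⟨IsFractionRing.lift inj', fun y a => ?_⟩
  have s : η ⤳ y := genericPoint_specializes y
  have h1 := toK_toStalk (s.map e.continuous) a
  have h2 := toK_toStalk s ((e.stalkMap y).hom a)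
  refine (congrArg _ h1.symm).trans ((IsFractionRing.lift_algebraMap inj' _).trans
    (Eq.trans (congrArg (toK η) ?_) h2))
  exact Scheme.Hom.stalkSpecializes_stalkMap_apply e η y s a

theorem ring_reg {X : Stm.Var} {r : ℕ} {y : Fin r → X.K} (hy : AlgebraicIndependent ℂ y)
    {U : X.X.Opens} (hU : IsAffineOpen U) {x : Pt X.X} (hx : x ∈ U)
    (h : Sl.GradedOver Fin.elim0 y {g | ∀ x ∈ U, RegAt g x}) :
    Sl.ToricRing y {g | ∀ x ∈ U, RegAt g x} := by
  refine ring_of hy (fun a ha => ?_) h fun a => ?_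
  · induction ha using Submodule.span_induction with
    | mem _ h => exact h
    | zero => exact fun x _ => zero_mem (S.loc x)
    | add _ _ _ _ a b => exact fun x c => add_mem (s := S.loc x) (a x c) (b x c)
    | smul c _ _ a => exact fun x e => Gl.reg_smul c (a x e)
  · obtain ⟨b, h1, h2, h3⟩ := frac hU ((genericPoint_specializes x).mem_open U.isOpen hx)
      (S.mem_loc_gen a)
    exact ⟨b, mem_reg.1 h1, h2.1, mem_reg.1 h3⟩

end

end Vale.Agent.P283R.Tq

namespace Vale.Agent.P283R.Sl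

open Var

variable {X Y Z : Var}

theorem FreeQuotient.fin {π : Y.X ⟶ X.X} (h : FreeQuotient π) : FiniteQuotient π := by
  obtain ⟨h1, h2, h3, ⟨G, h4, h5⟩, h6⟩ := h
  obtain ⟨ι, pe⟩ := Tq.exists_pe' (Z := X.o) (W := Y.o) π h2
  have rg : ∀ g, (∃ y a, g = toRat (comap π y a)) ↔ ∃ a, ι a = g := fun g =>
    ⟨fun ⟨y, a, e⟩ => ⟨_, (pe y a).trans e.symm⟩, fun ⟨a, e⟩ => by
      obtain ⟨y, hy⟩ := h2.surj (genericPoint X.X)
      obtain ⟨b, rfl⟩ : RegAt a (Pt.map π y) := by
        rw [show Pt.map π y = genericPoint X.X from hy]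
        exact P270L.S.mem_loc_gen a
      exact ⟨y, b, e.symm.trans (pe y b)⟩⟩
  refine ⟨h1, h2, h3, ι, G, pe, ⟨h4, fun g => ?_⟩, fun E => ?_⟩
  · exact ((IntermediateField.mem_fixedField_iff G g).symm.trans (Set.ext_iff.1 h5 g).symm).trans
      (rg g)
  · obtain ⟨F, e, w⟩ := h6 E
    have k : ∀ a, RegAt a F.1 → ord (ι a) E = ord a F := fun a ha => by
      obtain ⟨b, rfl⟩ : RegAt a (E.1.map π) := e ▸ ha
      exact (congrArg (ord · E) (pe E.1 b)).trans (w b)
    refine ⟨F, e, fun a => ?_⟩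
    rcases (Gl.pq (X := X.o) F).ring.mem_or_inv_mem a with c | c
    · exact k a ((Gl.pq_is (X := X.o) F a).1 c)
    · have w1 : ord (ι a)⁻¹ E = ord a⁻¹ F :=
        (congrArg (ord · E) (map_inv₀ ι a).symm).trans (k a⁻¹ ((Gl.pq_is (X := X.o) F _).1 c))
      have a1 : ord a⁻¹ F = -ord a F := (Gl.pq_ord (X := X.o) F _).trans
        ((P297Z.Pl.ord_inv _ _).trans (congrArg _ (Gl.pq_ord (X := X.o) F _).symm))
      have a2 : ord (ι a)⁻¹ E = -ord (ι a) E := (Gl.pq_ord (X := Y.o) E _).trans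
        ((P297Z.Pl.ord_inv _ _).trans (congrArg _ (Gl.pq_ord (X := Y.o) E _).symm))
      exact neg_inj.1 (a2.symm.trans (w1.trans a1))

theorem ToricCover.tq {f : X.X ⟶ Z.X} {z : Pt Z.X} {d : ℕ} (a : dimension X.str = d)
    (s : Contraction f) (h : ToricCover f z) : ToricQuotient f z d := by
  obtain ⟨Y, π, V, r, y, q, hV, zV, hy, ty, hv⟩ := h
  have q' := q.fin
  have ty' : ∀ x : Pt Y.X, x.In (pre (π ≫ f) V) → ∃ U ≤ pre (π ≫ f) V, IsAffineOpen U ∧ x.In U ∧
      ToricRing y (regOn U) := fun x hx =>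
    let ⟨U, b, c, e, g⟩ := ty x hx
    ⟨U, b, c, e, Tq.ring_reg (X := Y.o) hy c e g⟩
  obtain rfl : r = d := by
    obtain ⟨h1, h2, h3, p, G, pe, ⟨h4, h5⟩, h6⟩ := q'
    have hL := (Tq.quo10 X.o Y.o d π p G ⊤ (P283M.Br.ffd X.o _ a) h1 h2 h3 pe h4
      (fun g => ⟨fun e => (h5 g).1 e, fun e => (h5 g).2 e⟩) h6).2.1
    obtain ⟨x₁, e₁⟩ := s.2.2.1.surj z
    obtain ⟨x, rfl⟩ := h2.surj x₁
    have t : Gl.TorY (X := Y.o) (pre (π ≫ f) V) y := ⟨hy, fun x hx =>
      let ⟨U, a, b, c, S, e, l⟩ := ty' x hx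
      ⟨U, a, b, c, S, e, fun g => Set.ext_iff.1 l g⟩⟩
    have := (P287D.Bm.trdeg_eq (t.rat (x := x) (show f (π x) ∈ V from e₁ ▸ zV)).ff).symm.trans
      (P287D.Bm.trdeg_eq hL)
    exact_mod_cast this
  refine ⟨Y, π, V, y, q', hV, zV, hy, ty', fun m m0 c x e => ?_⟩
  have := hv m m0 c x e
  rwa [← Finset.prod_inv_distrib, Finset.prod_congr rfl fun i _ => (zpow_neg (y i) (m i)).symm]
    at this

/-- **quotients of toric varieties by finite groups, short words** -/
theorem on_tc : On fun _ _ _ f ω B z =>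
    FanoType f ω ∧ NefOver f (-logCan ω B) ∧ ToricCover f z := fun d hd ε hε R hR =>
  let ⟨n, hn, H⟩ := on_tq d hd ε hε R hR
  ⟨n, hn, fun X Z f ω B z a b c e s t u => H X Z f ω B z a b c e s t ⟨u.1, u.2.1, u.2.2.tq a s⟩⟩

end Vale.Agent.P283R.Sl
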