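import Vale.Agent.P283R.Tq.St

/-!
# P283R, block TQ: finite quotients
-/

open Set CategoryTheory AlgebraicGeometry

noncomputable section

namespace Vale.Agent.P283R.Tq

open Vale.Agent.P289 (Pt)
open Vale.Agent.P287D Vale.Agent.P283M Vale.Agent.P283M.Stm Vale.Agent.P283M.Stm.Var
open Vale.Agent.P283M.Br Vale.Agent.P283R.Br Vale.Agent.P297Z Vale.Agent.P283R.Gl
open Vale.Agent.P283R.Bc (Qp)

namespace Q10

variable {X Y : Var} {π : Y.X ⟶ X.X} {ι : X.K →+* Y.K} {J : ℕ}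

theorem mem_iff {K L : Type} [Field K] [Algebra ℂ K] [Field L] [Algebra ℂ L] {P : Pl K} {Q : Pl L}
    {a : K} {b : L} (z : a = 0 ↔ b = 0) (e : P.ord a = Q.ord b) : a ∈ P.ring ↔ b ∈ Q.ring := by
  rcases eq_or_ne a 0 with a0 | a0
  · rw [z.1 a0, a0]
    exact iff_of_true (zero_mem _) (zero_mem _)
  · rw [← Pl.ord_nonneg_iff _ a0, ← Pl.ord_nonneg_iff _ (mt z.2 a0), e]

theorem pd_eq {y y' : X.PrimeDiv} (h : y'.1 ⤳ y.1) : y' = y := by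
  have e : pq y = pq y' := Pl.ext' (congrArg _ (P297Z.Pl.eq_of_le' (v := (pq y).toPlace)
    (w := (pq y').toPlace) fun g hg => (pq_is y' g).2 (reg_gen h ((pq_is y g).1 hg))))
  exact Subtype.ext (Crv.dom_unique (dom_S (pq_is y').dom) (dom_S (e ▸ (pq_is y).dom)))

/-- a prime divisor lies over a prime divisor -/
theorem dn (h : Qp J π ι) (E : Y.PrimeDiv) : ∃ y : X.PrimeDiv, E.1.map π = y.1 ∧
    Lies ι (pq E) (pq y) ∧ ∀ a, (pq E).ord (ι a) = (pq y).ord a := by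
  obtain ⟨y, a, b⟩ := h.div E
  have o : ∀ a, (pq E).ord (ι a) = (pq y).ord a := fun a => by rw [← pq_ord, ← pq_ord, b]
  exact ⟨y, a, fun f => mem_iff (map_eq_zero ι).symm (o f).symm, o⟩

/-- a place over a prime divisor is a prime divisor -/
theorem ovr (h : Qp J π ι) {y : X.PrimeDiv} {P : Pl Y.K} (l : Lies ι P (pq y)) :
    ∃ E : Y.PrimeDiv, E.1.map π = y.1 ∧ pq E = P := by
  have := h.fin
  obtain ⟨x, hx, dm⟩ := h.up l (pq_is y).dom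
  obtain ⟨E, hE⟩ : ∃ E : Y.PrimeDiv, E.1 ⤳ x := by_contra fun k => by
    have a := (dm P.t⁻¹ (har Y _ x fun E c => (k ⟨E, c⟩).elim)).1
    have b := Pl.ord_nonneg_of_mem _ a
    rw [Pl.ord_inv, P.ord_t] at b
    omega
  obtain ⟨y', a, -⟩ := h.div E
  obtain rfl : y' = y := pd_eq (a ▸ hx ▸ hE.map π.continuous)
  have d := (π.isDiscrete_preimage_singleton y'.1).to_subtype
  have e : (⟨E.1, a⟩ : π ⁻¹' {y'.1}) = ⟨x, hx⟩ :=
    (Topology.IsInducing.subtypeVal.specializes_iff.1 hE).eq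
  obtain rfl : E.1 = x := congrArg Subtype.val e
  exact ⟨E, a, pl_eq (pq_is E) dm⟩

/-- the conjugate of a prime divisor -/
theorem cj (h : Qp J π ι) {σ : Y.K ≃ₐ[ℂ] Y.K} (fx : ∀ a, σ (ι a) = ι a) (E : Y.PrimeDiv)
    {P : Pl Y.K} (c : Cj σ (pq E) P) : ∃ E' : Y.PrimeDiv, E'.1.map π = E.1.map π ∧ pq E' = P := by
  obtain ⟨y, a, -, o⟩ := dn h E
  rw [a]
  exact ovr h fun f => mem_iff (map_eq_zero ι).symm (by rw [c, fx, o])

theorem ex_cj (σ : Y.K ≃ₐ[ℂ] Y.K) (P : Pl Y.K) : ∃ P', Cj σ P P' :=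
  ⟨(Semi.of_alg σ.symm).pl P, fun φ => by
    have := (Semi.of_alg σ.symm).ord_pl P (σ φ)
    simpa using this⟩

/-- the conjugate of a point -/
theorem pt (h : Qp J π ι) {σ : Y.K ≃ₐ[ℂ] Y.K} (fx : ∀ a, σ (ι a) = ι a) (x : Pt Y.X) :
    ∃ x' : Pt Y.X, x'.map π = x.map π ∧ ∀ g, RegAt g x' → RegAt (σ g) x := by
  have := h.fin
  obtain ⟨_, ⟨V, hV, rfl⟩, xV, -⟩ :=
    X.X.isBasis_affineOpens.exists_subset_of_mem_open (Set.mem_univ (π x)) isOpen_univ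
  have : Nonempty ↑(π ⁻¹ᵁ V) := ⟨⟨x, xV⟩⟩
  obtain ⟨O, hO⟩ := Crv.exists_dom (algebraMap (Y.X.presheaf.stalk x) Y.K)
  have dm : Dom O x := dom_B hO
  obtain ⟨x', hx', k⟩ := Am.exists_dom (f := π) hV (O.comap (σ : Y.K →+* Y.K)) fun a => by
    rw [← Am.pl_germ xV a]
    refine (congrArg (· ∈ O.comap (σ : Y.K →+* Y.K)) (h.pe x _)).mp ?_
    change σ (ι _) ∈ O
    rw [fx]
    exact (dm _ (h.pe.reg ⟨_, rfl⟩)).1
  have dm' := dom_B k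
  have dw : ∀ {O : ValuationSubring Y.K} {x : Pt Y.X}, Dom O x → Dom (O.comap ι) (x.map π) :=
    fun {O x} hx a ha => by
      have r := h.pe.reg ha
      refine ⟨(hx _ r).1, fun a0 k => ?_⟩
      have a1 := (map_ne_zero ι).2 a0
      exact ((h.pe.un ha).1 ⟨a1, r, (hx _ r).2 a1 (map_inv₀ ι a ▸ k)⟩).2.2
  have eO : (O.comap (σ : Y.K →+* Y.K)).comap ι = O.comap ι := ValuationSubring.ext _ _ fun a => by
    change σ (ι a) ∈ O ↔ ι a ∈ O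
    rw [fx]
  have tr : ∀ E : Y.PrimeDiv, ∃ E' : Y.PrimeDiv, E'.1.map π = E.1.map π ∧
      ∀ g, (pq E').ord g = (pq E).ord (σ g) := fun E => by
    obtain ⟨P, c⟩ := ex_cj σ (pq E)
    obtain ⟨E', a, rfl⟩ := cj h fx E c
    exact ⟨E', a, c⟩
  have st : ∀ b, (∀ p ∈ π ⁻¹ᵁ V, RegAt b p) → ∀ p ∈ π ⁻¹ᵁ V, RegAt (σ b) p := fun b hb p hp =>
    har Y _ p fun E c => by
      obtain ⟨E', a, o⟩ := tr E
      have m : E.1 ∈ π ⁻¹ᵁ V := c.mem_open (π ⁻¹ᵁ V).isOpen hp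
      rw [pq_ord, ← o]
      exact Pl.ord_nonneg_of_mem _ ((pq_is E' _).2 (hb _ (show Pt.map π E'.1 ∈ V from a ▸ m)))
  refine ⟨x', Crv.dom_unique (dom_S (dw dm')) (dom_S (eO ▸ dw dm)), fun g hg =>
    har Y _ x fun E c => ?_⟩
  obtain ⟨E', a, o⟩ := tr E
  have m : E.1 ∈ π ⁻¹ᵁ V := c.mem_open (π ⁻¹ᵁ V).isOpen xV
  have m' : E'.1 ∈ π ⁻¹ᵁ V := show Pt.map π E'.1 ∈ V from a ▸ m
  have sp : E'.1 ⤳ x' := Am.spec_of_un (hV.preimage π) hx' m' fun b hb u => by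
    have rb := Am.mem_reg.1 hb
    have r := st b rb x xV
    have b0 := (map_ne_zero σ).2 u.1
    have u' : UnAt (σ b) x := ⟨b0, r, (dm _ r).2 b0 (map_inv₀ σ b ▸ (dm' _ u.2.2).1)⟩
    have z := (pq_is E).dom.ord (UnAt.gen u' c)
    exact ⟨u.1, rb _ m', (pq_is E' _).1 ((Pl.ord_nonneg_iff _ (inv_ne_zero u.1)).1
      (by rw [Pl.ord_inv, o, z, neg_zero]))⟩
  rw [pq_ord, ← o]
  exact Pl.ord_nonneg_of_mem _ ((pq_is E' _).2 (reg_gen sp hg))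

end Q10

open Q10

/-- **QUO** -/
theorem quo10 : QUO := fun X Y d π ι G U hK a b c e fG fx dv => by
  let _ := ι.toAlgebra
  obtain ⟨J, w, hw⟩ := Module.Finite.exists_fin (R := FixedPoints.subfield G Y.K) (M := Y.K)
  have h : Qp J π ι := ⟨a, b, c, e, ⟨w, fun g => by
    obtain ⟨k, rfl⟩ := (Submodule.mem_span_range_iff_exists_fun _).1 (hw ▸ Submodule.mem_top (x := g))
    choose v hv using fun i => (fx (k i)).1 fun σ m => (k i).2 ⟨σ, m⟩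
    exact ⟨v, Finset.sum_congr rfl fun i _ => by rw [hv]; rfl⟩⟩, dv⟩
  have f0 : ∀ σ ∈ G, ∀ a, σ (ι a) = ι a := fun σ m a => (fx _).2 ⟨a, rfl⟩ σ m
  refine ⟨h.tower, h.ff hK, ⟨hK, fx, fun P => ⟨?_, ?_⟩, ?_⟩, ?_, fun σ m x => ?_⟩
  · rintro ⟨E, m, rfl⟩
    obtain ⟨y, y1, y2, -⟩ := dn h E
    exact ⟨_, ⟨y, show y.1 ∈ U from y1 ▸ m, rfl⟩, y2⟩
  · rintro ⟨_, ⟨y, m, rfl⟩, l⟩
    obtain ⟨E, e1, rfl⟩ := ovr h l
    exact ⟨E, show Pt.map π E.1 ∈ U from e1 ▸ m, rfl⟩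
  · rintro _ ⟨y, -, rfl⟩ P l
    obtain ⟨E, e1, rfl⟩ := ovr h l
    obtain ⟨y', y1, -, o⟩ := dn h E
    obtain rfl : y' = y := Subtype.ext (y1.symm.trans e1)
    exact (o _).trans (Pl.ord_t _)
  · rintro σ m _ ⟨E, k, rfl⟩ P' c'
    obtain ⟨E', e1, rfl⟩ := cj h (f0 σ m) E c'
    exact ⟨E', show Pt.map π E'.1 ∈ U from e1 ▸ k, rfl⟩
  · obtain ⟨x', x1, x2⟩ := pt h (f0 σ m) x
    exact ⟨x', x1, fun g => ⟨x2 g, fun u =>
      ⟨(map_ne_zero σ).2 u.1, x2 _ u.2.1, map_inv₀ σ g ▸ x2 _ u.2.2⟩⟩⟩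

end Vale.Agent.P283R.Tq
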