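import Vale.Agent.P283R.Tq.St
import Vale.Agent.P283R.To.Trs
import Vale.Agent.P283R.To.Gs3

/-!
# P283R, block TQ: spans of monomials
-/

open Set

noncomputable section

namespace Vale.Agent.P283R.Tq.T20

open Vale.Agent.P283R.To Vale.Agent.P283R.Cx
open Vale.Agent.P283R.Lx (Nz Ie)
open Vale.Agent.P283R.Lx.K33 (I2)

variable {K : Type} [Field K] [Algebra ℂ K] {d k N : ℕ} {y : Fin d → K} {ρ : Fin k → Fin d → ℤ}
  {e e' : Fin k → ℤ} {u u' : Fin d → ℤ} {n n' : ℤ} {φ ψ : K}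

/-- the divisor of a monomial -/
def dl (ρ : Fin k → Fin d → ℤ) (e : Fin k → ℤ) (u : Fin d → ℤ) (i : Fin k) : ℤ :=
  ∑ j, u j * ρ i j + e i

theorem dl_add (i : Fin k) : dl ρ (e + e') (u + u') i = dl ρ e u i + dl ρ e' u' i := by
  simp only [dl, Pi.add_apply, add_mul, Finset.sum_add_distrib]
  ring

theorem dl_neg (i : Fin k) : dl ρ (-e) (-u) i = -dl ρ e u i := by
  simp only [dl, Pi.neg_apply, neg_mul, Finset.sum_neg_distrib]
  ring

theorem dl_zero (i : Fin k) : dl ρ e 0 i = e i := by simp [dl]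

/-- the exponents -/
def Sn (ρ : Fin k → Fin d → ℤ) (n : ℤ) (e : Fin k → ℤ) : Set (Fin d → ℤ) :=
  {u | (∀ i, 0 ≤ dl ρ e u i) ∧ n ≤ ∑ i, dl ρ e u i}

/-- the filtration -/
def Mn (y : Fin d → K) (ρ : Fin k → Fin d → ℤ) (n : ℤ) (e : Fin k → ℤ) : Submodule ℂ K :=
  Submodule.span ℂ (mon y '' Sn ρ n e)

theorem sn_zero : Sn ρ 0 e = {u | ∀ i, 0 ≤ dl ρ e u i} :=
  Set.ext fun _ => and_iff_left_of_imp fun h => Finset.sum_nonneg fun i _ => h i

theorem mn_mon (h : u ∈ Sn ρ n e) : mon y u ∈ Mn y ρ n e := Submodule.subset_span ⟨u, h, rfl⟩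

theorem mn_le (h : n ≤ n') : Mn y ρ n' e ≤ Mn y ρ n e :=
  Submodule.span_mono (image_mono fun _ a => ⟨a.1, h.trans a.2⟩)

theorem mn_mul (y0 : ∀ j, y j ≠ 0) (h : φ ∈ Mn y ρ n e) (h' : ψ ∈ Mn y ρ n' e') :
    φ * ψ ∈ Mn y ρ (n + n') (e + e') := by
  have := Submodule.mul_mem_mul h h'
  rw [Mn, Mn, Submodule.span_mul_span] at this
  refine Submodule.span_mono ?_ this
  rintro _ ⟨_, ⟨u, a, rfl⟩, _, ⟨u', b, rfl⟩, rfl⟩
  refine ⟨u + u', ⟨fun i => ?_, ?_⟩, mon_add y0 _ _⟩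
  · rw [dl_add]
    exact add_nonneg (a.1 i) (b.1 i)
  · simp only [dl_add, Finset.sum_add_distrib]
    exact add_le_add a.2 b.2

omit [Algebra ℂ K] in
theorem mon_zero : mon y 0 = 1 := by simp [mon]

theorem co (hy : AlgebraicIndependent ℂ y) :
    ∃ Φ : K →ₗ[ℂ] (Fin d → ℤ) →₀ ℂ, ∀ u, Φ (mon y u) = .single u 1 := by
  have li : LinearIndependent ℂ (mon y) :=
    linearIndependent_iff.2 fun g h => by_contra fun g0 => Tr.lau_ne hy g0 h
  obtain ⟨Φ, h⟩ := li.repr.exists_extend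
  exact ⟨Φ, fun u => (LinearMap.congr_fun h ⟨_, Submodule.subset_span ⟨u, rfl⟩⟩).trans
    (li.repr_eq_single u _ rfl)⟩

theorem co_zero {Φ : K →ₗ[ℂ] (Fin d → ℤ) →₀ ℂ} (hΦ : ∀ u, Φ (mon y u) = .single u 1)
    (h : φ ∈ Mn y ρ n e) (hu : u ∉ Sn ρ n e) : Φ φ u = 0 := by
  refine (Submodule.span_le (p := LinearMap.ker (Finsupp.lapply u ∘ₗ Φ))).2 ?_ h
  rintro _ ⟨v, a, rfl⟩
  show Φ (mon y v) u = 0
  rw [hΦ, Finsupp.single_eq_of_ne (by rintro rfl; exact hu a)]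

theorem one_not (hy : AlgebraicIndependent ℂ y) : (1 : K) ∉ Mn y ρ 1 0 := fun h => by
  obtain ⟨Φ, hΦ⟩ := co hy
  have := co_zero (u := 0) hΦ h fun a => by simpa [dl] using a.2
  rw [← mon_zero (y := y), hΦ, Finsupp.single_eq_same] at this
  exact one_ne_zero this

/-- the units are the monomials -/
theorem unit (hy : AlgebraicIndependent ℂ y) (h : φ ∈ Mn y ρ n e) (h' : ψ ∈ Mn y ρ n' e')
    (h1 : φ * ψ = 1) : ∃ u ∈ Sn ρ n e, ∃ c : ℂ, φ = c • mon y u := by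
  classical
  obtain ⟨Φ, hΦ⟩ := co hy
  obtain ⟨g, a, rfl⟩ := Sch.lau_of h
  obtain ⟨g', -, rfl⟩ := Sch.lau_of h'
  have k : ∀ p ∈ g.support ×ˢ g'.support, UniqueAdd g.support g'.support p.1 p.2 →
      p.1 + p.2 = 0 := fun p hp uq => by
    obtain ⟨p1, p2⟩ := Finset.mem_product.1 hp
    have := congrArg (fun x => Φ x (p.1 + p.2)) h1
    simp only [lau, Finsupp.sum, Finset.sum_mul_sum, smul_mul_smul_comm, ← mon_add hy.ne_zero,
      map_sum, map_smul, hΦ, Finsupp.finsetSum_apply, Finsupp.smul_apply] at this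
    rw [Finset.sum_eq_single_of_mem _ p1 fun v hv c => Finset.sum_eq_zero fun v' hv' => by
        rw [Finsupp.single_eq_of_ne fun z => c (uq hv hv' z.symm).1, smul_zero],
      Finset.sum_eq_single_of_mem _ p2 fun v' hv' c => by
        rw [Finsupp.single_eq_of_ne fun z => c (uq p1 hv' z.symm).2, smul_zero],
      ← mon_zero (y := y), hΦ, Finsupp.single_eq_same, smul_eq_mul, mul_one] at this
    by_contra z
    rw [Finsupp.single_eq_of_ne z] at this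
    exact mul_ne_zero (Finsupp.mem_support_iff.1 p1) (Finsupp.mem_support_iff.1 p2) this
  have c : g.support.card * g'.support.card ≤ 1 := not_lt.1 fun c => by
    obtain ⟨p, hp, q, hq, ne, up, uq⟩ := TwoUniqueSums.uniqueAdd_of_one_lt_card c
    obtain ⟨q1, q2⟩ := Finset.mem_product.1 hq
    obtain ⟨b1, b2⟩ := up q1 q2 ((k q hq uq).trans (k p hp up).symm)
    exact ne (Prod.ext b1 b2).symm
  have g0 : g ≠ 0 := by rintro rfl; simp [lau] at h1
  have g0' : g' ≠ 0 := by rintro rfl; simp [lau] at h1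
  have c1 := Finset.card_pos.2 (Finsupp.support_nonempty_iff.2 g0)
  have c2 := Finset.card_pos.2 (Finsupp.support_nonempty_iff.2 g0')
  obtain ⟨u, hu⟩ := Finset.card_eq_one.1 (show g.support.card = 1 by nlinarith)
  refine ⟨u, a (by rw [hu]; exact Finset.mem_singleton_self u), g u, ?_⟩
  rw [lau, Finsupp.sum, hu, Finset.sum_singleton]

theorem sp_mon (y0 : ∀ j, y j ≠ 0) (c : Fin N → (Fin k → ℤ) × (Fin d → ℤ)) (m : Fin k → ℤ) :
    Sp (fun j => mon y (c j).2) (fun j => (c j).1) m =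
      Submodule.span ℂ (mon y '' {u | (m, u) ∈ AddSubmonoid.closure (range c)}) := by
  have key : ∀ n : Fin N → ℕ, ∑ j, n j • c j =
      (dg (fun j => (c j).1) n, fun i => ∑ j, (n j : ℤ) * (c j).2 i) := fun n => by
    ext i <;> simp [dg, Prod.fst_sum, Prod.snd_sum, Finset.sum_apply]
  refine congrArg (Submodule.span ℂ) (Set.ext fun x => ⟨?_, ?_⟩)
  · rintro ⟨n, hn, rfl⟩
    refine ⟨fun i => ∑ j, (n j : ℤ) * (c j).2 i, ?_, ?_⟩
    · show (m, _) ∈ AddSubmonoid.closure (range c)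
      rw [← show _ = m from hn, ← key]
      exact sum_mem fun j _ => nsmul_mem (AddSubmonoid.subset_closure (mem_range_self _)) _
    · rw [← mon_mon y0, mon_nat]
  · rintro ⟨u, hu, rfl⟩
    obtain ⟨n, hn⟩ := (AddSubmonoid.mem_closure_range_iff_of_fintype).1 hu
    rw [key] at hn
    obtain ⟨h1, h2⟩ := Prod.mk.inj hn
    refine ⟨n, h1.symm, ?_⟩
    rw [h2, ← mon_mon y0, mon_nat]

theorem fg0 {s : Fin N → K} {a : Fin N → Fin k → ℤ} {A : Subalgebra ℂ K}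
    (hz : ∀ x, x ∈ A ↔ x ∈ Sp s a 0) : A.FG := by
  classical
  let f : (Fin N → ℕ) →+ (Fin k → ℤ) :=
    { toFun := dg a
      map_zero' := by ext i; simp [dg]
      map_add' := fun b c => by ext i; simp [dg, add_mul, Finset.sum_add_distrib] }
  obtain ⟨S, hS⟩ := AddSubmonoid.fg_eqLocusM f 0
  refine ⟨S.image fun c => ∏ j, s j ^ c j, le_antisymm (Algebra.adjoin_le fun x hx => ?_)
    fun x hx => (Submodule.span_le (p := Subalgebra.toSubmodule (Algebra.adjoin ℂ _))).2 ?_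
      ((hz x).1 hx)⟩
  · obtain ⟨c, b, rfl⟩ := Finset.mem_image.1 hx
    exact (hz _).2 (Submodule.subset_span
      ⟨c, (hS.le (AddSubmonoid.subset_closure b) : f c = 0), rfl⟩)
  · rintro _ ⟨c, b, rfl⟩
    have b' : c ∈ AddSubmonoid.closure (S : Set (Fin N → ℕ)) := hS.ge (show f c = 0 from b)
    clear b
    show ∏ j, s j ^ c j ∈ Algebra.adjoin ℂ _
    induction b' using AddSubmonoid.closure_induction with
    | mem c b => exact Algebra.subset_adjoin (Finset.mem_image_of_mem _ b)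
    | zero => simp
    | add c c' _ _ p q =>
      simp only [Pi.add_apply, pow_add, Finset.prod_mul_distrib]
      exact mul_mem p q

/-- the ring of the base -/
def rA (y0 : ∀ j, y j ≠ 0) (ρ : Fin k → Fin d → ℤ) : Subalgebra ℂ K :=
  (Mn y ρ 0 0).toSubalgebra (mon_zero (y := y) ▸ mn_mon ⟨fun i => (dl_zero i).ge, by simp [dl]⟩)
    fun _ _ a b => by simpa using mn_mul y0 a b

/-- the ideal of the fixed point -/
def rm (y0 : ∀ j, y j ≠ 0) (ρ : Fin k → Fin d → ℤ) : Ideal (rA y0 ρ) where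
  carrier := {g | g.1 ∈ Mn y ρ 1 0}
  add_mem' a b := (Mn y ρ 1 0).add_mem a b
  zero_mem' := (Mn y ρ 1 0).zero_mem
  smul_mem' c x h := by simpa using mn_mul y0 c.2 h

theorem nz_iff (y0 : ∀ j, y j ≠ 0) :
    Nz (rA y0 ρ) (rm y0 ρ) φ ↔ φ ∈ Mn y ρ 0 0 ∧ φ ∉ Mn y ρ 1 0 :=
  ⟨fun ⟨a, b⟩ => ⟨a, b⟩, fun ⟨a, b⟩ => ⟨a, b⟩⟩

variable (pt : ∀ u, (∀ i, dl ρ 0 u i = 0) → u = 0)

include pt

theorem uq (h : ∀ i, dl ρ e u i = dl ρ e u' i) : u = u' := by
  refine add_neg_eq_zero.1 (pt _ fun i => ?_)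
  rw [← add_neg_cancel e, dl_add, dl_neg, h, add_neg_cancel]

theorem dec (h : φ ∈ Mn y ρ 0 e) : φ ∈ Mn y ρ 1 e ∨
    ∃ u, ∃ c : ℂ, c ≠ 0 ∧ (∀ i, dl ρ e u i = 0) ∧ φ - c • mon y u ∈ Mn y ρ 1 e := by
  have k : ∀ v ∈ Sn ρ 0 e, v ∉ Sn ρ 1 e → ∀ i, dl ρ e v i = 0 := fun v a b i =>
    (Finset.sum_eq_zero_iff_of_nonneg fun i _ => a.1 i).1
      (le_antisymm (Int.lt_add_one_iff.1 (not_le.1 fun c => b ⟨a.1, c⟩)) a.2) i (Finset.mem_univ _)
  by_cases c : ∃ u, ∀ i, dl ρ e u i = 0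
  · obtain ⟨u, hu⟩ := c
    obtain ⟨c, z, a, rfl⟩ := Submodule.mem_span_insert.1 (Submodule.span_mono
      (t := insert (mon y u) (mon y '' Sn ρ 1 e)) (by
        rintro _ ⟨v, a, rfl⟩
        by_cases b : v ∈ Sn ρ 1 e
        · exact .inr ⟨v, b, rfl⟩
        · exact .inl (congrArg _ (uq pt fun i => (k v a b i).trans (hu i).symm))) h)
    by_cases c0 : c = 0
    · exact .inl (by rwa [c0, zero_smul, zero_add])
    · exact .inr ⟨u, c, c0, hu, by rwa [add_sub_cancel_left]⟩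
  · exact .inl (Submodule.span_mono (image_mono fun v a => by_contra fun b => c ⟨v, k v a b⟩) h)

theorem dec0 (h : φ ∈ Mn y ρ 0 0) (h' : φ ∉ Mn y ρ 1 0) :
    ∃ c : ℂ, c ≠ 0 ∧ φ - algebraMap ℂ K c ∈ Mn y ρ 1 0 := by
  obtain ⟨u, c, c0, a, b⟩ := (dec pt h).resolve_left h'
  rw [pt u a, mon_zero, ← Algebra.algebraMap_eq_smul_one] at b
  exact ⟨c, c0, b⟩

theorem rm_max (hy : AlgebraicIndependent ℂ y) : (rm hy.ne_zero ρ).IsMaximal := by
  refine Ideal.isMaximal_iff.2 ⟨one_not (ρ := ρ) hy, fun J x le a b => ?_⟩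
  obtain ⟨c, c0, h⟩ := dec0 pt x.2 a
  have := sub_mem b (le (show x - algebraMap ℂ _ c ∈ rm hy.ne_zero ρ from h))
  rw [sub_sub_cancel] at this
  exact (Ideal.eq_top_iff_one J).1
    (J.eq_top_of_isUnit_mem this ((IsUnit.mk0 c c0).map (algebraMap ℂ _)))

variable (hy : AlgebraicIndependent ℂ y) {s : Fin N → K} {a : Fin N → Fin k → ℤ}
  (hs : ∀ e, Sp s a e = Mn y ρ 0 e)

include hs

theorem ie_iff : φ ∈ Ie (rA hy.ne_zero ρ) (rm hy.ne_zero ρ) s a e ↔ φ ∈ Mn y ρ 1 e := by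
  have y0 := hy.ne_zero
  refine ⟨fun ⟨h, h'⟩ => ?_, fun h => ⟨hs e ▸ mn_le zero_le_one h, fun ψ b c => ?_⟩⟩
  · rw [hs] at h h'
    refine (dec pt h).elim id fun ⟨u, c, c0, z, b⟩ => ?_
    have m : mon y (-u) ∈ Mn y ρ 0 (-e) := mn_mon (sn_zero.ge fun i => by rw [dl_neg, z, neg_zero])
    refine (h' _ m ((nz_iff y0).2
      ⟨by simpa using mn_mul y0 h m, fun w => one_not (ρ := ρ) hy ?_⟩)).elim
    have v := mn_mul y0 b m
    rw [add_zero, add_neg_cancel, sub_mul, smul_mul_assoc, ← mon_add y0, add_neg_cancel,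
      mon_zero] at v
    have := Submodule.smul_mem _ c⁻¹ (sub_mem w v)
    rwa [sub_sub_cancel, inv_smul_smul₀ c0] at this
  · rw [hs] at b
    exact ((nz_iff y0).1 c).2 (by simpa using mn_mul y0 h b)

theorem i2_le : I2 (rA hy.ne_zero ρ) (rm hy.ne_zero ρ) s a e ≤ Mn y ρ 2 e := by
  refine Submodule.span_le.2 ?_
  rintro _ ⟨e1, x, a, z, b, rfl⟩
  have := mn_mul hy.ne_zero ((ie_iff pt hy hs).1 a) ((ie_iff pt hy hs).1 b)
  rwa [add_sub_cancel] at this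

end Vale.Agent.P283R.Tq.T20
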