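import Vale.Agent.P283R.Tq.St

/-!
# P283R, block TQ: the monomials generate after a localisation
-/

open Set

noncomputable section

namespace Vale.Agent.P283R.Tq

open Vale.Agent.P287D Vale.Agent.P283M Vale.Agent.P283R.Cx
open Vale.Agent.P283R.Lx (Nz Ie)
open Vale.Agent.P283R.Lx.K33 (I2 IeS krn)
open Vale.Agent.P283R.Lx.O15

namespace N99

variable {L : Type} [Field L] [Algebra ℂ L] {k c r : ℕ} {T : Set (Pl L)} {D : Pl L → Fin k → ℤ}
  {τ : Fin c → L} {z : Fin r → L} {w : Fin r → Fin k → ℤ} {e e' : Fin k → ℤ} {x y : L}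

omit [Algebra ℂ L] in
theorem cv_add (u v : Fin r → ℤ) : cv w (u + v) = cv w u + cv w v := by
  simp only [cv, Pi.add_apply, add_smul, Finset.sum_add_distrib]

theorem pr_mul (h : Pr T D e x) (h' : Pr T D e' y) : Pr T D (e + e') (x * y) :=
  ⟨mul_ne_zero h.1 h'.1, fun P p => by
    have a := h.2 P p
    have b := h'.2 P p
    rw [P297Z.Pl.ord_mul _ h.1 h'.1, add_dotProduct]
    omega⟩

theorem pr_one : Pr T D 0 1 := ⟨one_ne_zero, fun P _ => by simp⟩

theorem mo_mul (hx : x ∈ Mo T D τ z w e) (hy : y ∈ Mo T D τ z w e') :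
    x * y ∈ Mo T D τ z w (e + e') := by
  refine Lx.K33.span_mul ?_ hx
  rintro _ ⟨α, β, θ, p, rfl⟩
  rw [mul_comm]
  refine Lx.K33.span_mul ?_ hy
  rintro _ ⟨α', β', θ', p', rfl⟩
  refine Submodule.subset_span ⟨α + α', β + β', θ * θ', ?_, ?_⟩
  · have := pr_mul p p'
    rwa [sub_add_sub_comm, ← cv_add, show ((fun j => (β j : ℤ)) + fun j => (β' j : ℤ)) =
      fun j => (((β + β') j : ℕ) : ℤ) from funext fun j => by simp] at this
  · simp only [Pi.add_apply, pow_add, Finset.prod_mul_distrib]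
    ring

theorem mo_pr (h : Pr T D e x) : x ∈ Mo T D τ z w e :=
  Submodule.subset_span ⟨0, 0, x, by simpa [cv] using h, by simp⟩

theorem mo_tau (i : Fin c) : τ i ∈ Mo T D τ z w 0 :=
  Submodule.subset_span ⟨Pi.single i 1, 0, 1, by simpa [cv] using pr_one, by
    simp [Pi.single_apply, pow_ite]⟩

theorem mo_z (i : Fin r) : z i ∈ Mo T D τ z w (w i) :=
  Submodule.subset_span ⟨0, Pi.single i 1, 1, by
    simpa [cv, Pi.single_apply] using pr_one, by simp [Pi.single_apply, pow_ite]⟩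

theorem mo_adj (h : x ∈ Algebra.adjoin ℂ (range τ)) : x ∈ Mo T D τ z w 0 := by
  induction h using Algebra.adjoin_induction with
  | mem _ a => obtain ⟨i, rfl⟩ := a; exact mo_tau i
  | algebraMap a =>
    rw [Algebra.algebraMap_eq_smul_one]
    exact Submodule.smul_mem _ a (mo_pr pr_one)
  | add _ _ _ _ a b => exact add_mem a b
  | mul _ _ _ _ a b => simpa using mo_mul a b

theorem mo_pow (h : x ∈ Mo T D τ z w e) (n : ℕ) : x ^ n ∈ Mo T D τ z w (n • e) := by
  induction n with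
  | zero => simpa using mo_pr pr_one
  | succ n ih => rw [pow_succ, succ_nsmul]; exact mo_mul ih h

theorem mo_prod {ι : Type} (S : Finset ι) {f : ι → L} {g : ι → Fin k → ℤ}
    (h : ∀ i, f i ∈ Mo T D τ z w (g i)) : ∏ i ∈ S, f i ∈ Mo T D τ z w (∑ i ∈ S, g i) := by
  classical
  induction S using Finset.induction_on with
  | empty => simpa using mo_pr pr_one
  | insert i S hi ih => rw [Finset.prod_insert hi, Finset.sum_insert hi]; exact mo_mul (h i) ih

end N99

open N99

/-- **NAKR** -/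
theorem nakr99 : NAKR := by
  intro spn d l L _ _ k N T D s a A m J h c r τ z b hb hz sz hτ fin ⟨n, hn⟩
  classical
  obtain ⟨F, _, _, _, _, t, ht⟩ := Cx.ext L d k h.ff
  have kr := krn Lx.fim40 (⟨ht, h.zero, h.fg, h.max⟩ : Lx.Bs d t s a A m) hτ fin hn
    (M := Mo T D (fun i => (τ i : L)) (z ∘ b) (a ∘ b)) mo_mul mo_tau
    (fun e φ p => ((spn d l L k N T D s a A m J h).2 e φ p).elim
      (fun q => ⟨0, zero_mem _, by rwa [sub_zero]⟩)
      fun ⟨θ, γ, q, q'⟩ => ⟨_, Submodule.smul_mem _ γ (mo_pr q), q'⟩)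
    fun e φ p => by
      obtain ⟨I, θ, γ, i1, i2, i3⟩ := sz e φ p
      refine ⟨_, sum_mem fun j hj => Submodule.smul_mem _ _ ?_,
        (IeS h.zero m e).sum_mem fun j hj => Submodule.smul_mem _ _ ?_, Submodule.mem_sup_left i3⟩
      · obtain ⟨i, rfl⟩ := hb j (i1 hj)
        simpa using mo_mul (mo_z (τ := fun i => (τ i : L)) (z := z ∘ b) (w := a ∘ b) i)
          (mo_pr (i2 _ hj))
      · obtain ⟨i, rfl⟩ := hb j (i1 hj)
        have := ie_mul (hz i) ((h.cox.sec _ _ (i2 _ hj).1).2 fun P p => ((i2 _ hj).2 P p).ge)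
        rwa [add_sub_cancel] at this
  choose g g1 g2 g3 using kr
  have ad : ∏ j, g (a j) ∈ Algebra.adjoin ℂ (range fun i => (τ i : L)) :=
    prod_mem fun j _ => g1 _
  refine ⟨_, ad, Finset.prod_induction _ _ (fun _ _ => nz_mul h.max.isPrime)
    (nz_one h.max.ne_top) fun j _ => g2 _, fun e φ p => ?_⟩
  have up : ∀ {x : L} {u v : ℕ}, u ≤ v →
      (∏ j, g (a j)) ^ u * x ∈ Mo T D (fun i => (τ i : L)) (z ∘ b) (a ∘ b) e →
      (∏ j, g (a j)) ^ v * x ∈ Mo T D (fun i => (τ i : L)) (z ∘ b) (a ∘ b) e := fun {x u v} le q => by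
    obtain ⟨v, rfl⟩ := Nat.exists_eq_add_of_le' le
    simpa [pow_add, mul_assoc] using mo_mul (mo_adj (pow_mem ad v)) q
  induction p using Submodule.span_induction with
  | mem _ q =>
    obtain ⟨u, rfl, rfl⟩ := q
    have k1 : ∀ j, (∏ j, g (a j)) * s j ∈ Mo T D (fun i => (τ i : L)) (z ∘ b) (a ∘ b) (a j) :=
      fun j => by
        rw [← Finset.mul_prod_erase _ _ (Finset.mem_univ j), mul_right_comm, mul_comm]
        simpa using mo_mul (mo_adj (prod_mem fun i (_ : i ∈ Finset.univ.erase j) => g1 (a i)))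
          (g3 _ _ (Lx.G3.gen_sp s a j))
    have k2 := mo_prod Finset.univ fun j => mo_pow (k1 j) (u j)
    refine ⟨∑ j, u j, ?_⟩
    rwa [show ∑ j, u j • a j = dg a u from funext fun i => by simp [dg],
      Finset.prod_congr rfl fun j _ => mul_pow _ _ _, Finset.prod_mul_distrib,
      Finset.prod_pow_eq_pow_sum] at k2
  | zero => exact ⟨0, by simp⟩
  | add x y _ _ p q =>
    obtain ⟨u, p⟩ := p
    obtain ⟨v, q⟩ := q
    exact ⟨u + v, by rw [mul_add]; exact add_mem (up (by omega) p) (up (by omega) q)⟩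
  | smul x y _ p =>
    obtain ⟨u, p⟩ := p
    exact ⟨u, by rw [mul_smul_comm]; exact Submodule.smul_mem _ _ p⟩

end Vale.Agent.P283R.Tq
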