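import Vale.Agent.P283R.Tq.St

/-!
# P283R, block TQ: the generators modulo the ideal of the orbit, the degrees of the units
-/

open Set

noncomputable section

namespace Vale.Agent.P283R.Tq

open Vale.Agent.P287D Vale.Agent.P297Z Vale.Agent.P283M Vale.Agent.P283R.Cx
open Vale.Agent.P283R.Lx (Nz Ie)
open Vale.Agent.P283R.Lx.K33 (I2 IeS)
open Vale.Agent.P283R.Lx.O15

namespace S35

variable {L : Type} [Field L] [Algebra ℂ L] {d l k N : ℕ} {T : Set (Pl L)}
  {D : Pl L → Fin k → ℤ} {s : Fin N → L} {a : Fin N → Fin k → ℤ} {A : Subalgebra ℂ L}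
  {m : Ideal A} {J : Finset (Fin N)} {e e' : Fin k → ℤ} {θ θ' φ : L}

theorem pr_one : Pr T D 0 1 := ⟨one_ne_zero, fun P _ => by simp⟩

theorem pr_mul (h : Pr T D e θ) (h' : Pr T D e' θ') : Pr T D (e + e') (θ * θ') :=
  ⟨mul_ne_zero h.1 h'.1, fun P p => by
    have := h.2 P p
    have := h'.2 P p
    rw [Pl.ord_mul _ h.1 h'.1, add_dotProduct]
    omega⟩

theorem pr_inv (h : Pr T D e θ) : Pr T D (-e) θ⁻¹ :=
  ⟨inv_ne_zero h.1, fun P p => by
    have := h.2 P p
    rw [Pl.ord_inv, neg_dotProduct]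
    omega⟩

theorem pr_pow (h : Pr T D e θ) (n : ℕ) : Pr T D ((n : ℤ) • e) (θ ^ n) := by
  induction n with
  | zero => simpa using pr_one
  | succ n ih => simpa [add_smul, pow_succ] using pr_mul ih h

theorem pr_prod {ι : Type} (I : Finset ι) {w : ι → Fin k → ℤ} {x : ι → L}
    (h : ∀ i ∈ I, Pr T D (w i) (x i)) : Pr T D (∑ i ∈ I, w i) (∏ i ∈ I, x i) := by
  classical
  induction I using Finset.induction_on with
  | empty => simpa using pr_one
  | insert i I hi ih =>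
    rw [Finset.sum_insert hi, Finset.prod_insert hi]
    exact pr_mul (h i (Finset.mem_insert_self _ _))
      (ih fun j hj => h j (Finset.mem_insert_of_mem hj))

theorem dg_eq (a : Fin N → Fin k → ℤ) (c : Fin N → ℕ) : dg a c = ∑ j, (c j : ℤ) • a j := by
  funext i
  simp [dg]

theorem dg_mem (M : Submodule ℤ (Fin k → ℤ)) (c : Fin N → ℕ) (h : ∀ j, c j ≠ 0 → a j ∈ M) :
    dg a c ∈ M := by
  rw [dg_eq]
  refine Submodule.sum_mem _ fun j _ => ?_
  by_cases z : c j = 0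
  · simp [z]
  · exact M.smul_mem _ (h j z)

theorem ex_mon (h : φ ∈ Sp s a e) (h0 : φ ≠ 0) : ∃ c, dg a c = e := by
  by_contra n
  have : {c | dg a c = e} = ∅ := eq_empty_of_forall_notMem fun c hc => n ⟨c, hc⟩
  rw [Sp, this, image_empty, Submodule.span_empty] at h
  exact h0 h

/-- one factor is split off -/
theorem split {c : Fin N → ℕ} {j : Fin N} (h : c j ≠ 0) :
    ∃ y ∈ Sp s a (dg a c - a j), ∏ i, s i ^ c i = s j * y := by
  obtain ⟨c', rfl⟩ : ∃ c' : Fin N → ℕ, c = Pi.single j 1 + c' :=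
    ⟨c - Pi.single j 1, funext fun i => by
      by_cases z : i = j
      · subst z
        simp only [Pi.add_apply, Pi.sub_apply, Pi.single_eq_same]
        omega
      · simp [z]⟩
  refine ⟨∏ i, s i ^ c' i, ?_, ?_⟩
  · rw [dg_add, dg_single, add_sub_cancel_left]
    exact mon_mem s a c'
  · simp only [Pi.add_apply, pow_add, Finset.prod_mul_distrib]
    rw [Finset.prod_eq_single j (fun i _ n => by simp [n]) (by simp)]
    simp

open Classical in
/-- a unit of the degree `e`, or zero -/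
def ch (T : Set (Pl L)) (D : Pl L → Fin k → ℤ) (e : Fin k → ℤ) : L :=
  if h : ∃ θ, Pr T D e θ then h.choose else 0

theorem ch_pr (h : ∃ θ, Pr T D e θ) : Pr T D e (ch T D e) := by
  rw [ch, dif_pos h]
  exact h.choose_spec

variable (X : Pd d l T D s a A m J)

include X

theorem pr_sp (h : Pr T D e θ) : θ ∈ Sp s a e :=
  (X.cox.sec e θ h.1).2 fun P p => (h.2 P p).ge

theorem pr_not (h : Pr T D e θ) : θ ∉ Ie A m s a e := fun n =>
  n.2 _ (pr_sp X (pr_inv h)) (by rw [mul_inv_cancel₀ h.1]; exact nz_one X.max.ne_top)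

theorem pr_uniq (h : Pr T D e θ) (h' : Pr T D e θ') : ∃ c : ℂ, θ' = c • θ := by
  have := pr_mul h' (pr_inv h)
  rw [add_neg_cancel] at this
  obtain ⟨c, hc⟩ := X.cst _ this
  exact ⟨c, by rw [Algebra.smul_def, hc, inv_mul_cancel_right₀ h.1]⟩

theorem mon_pr {c : Fin N → ℕ} (h : ∀ j ∈ J, c j = 0) : Pr T D (dg a c) (∏ i, s i ^ c i) := by
  rw [dg_eq]
  refine pr_prod _ fun j _ => ?_
  by_cases z : j ∈ J
  · simpa [h j z] using pr_one
  · exact pr_pow (X.un j z) _

theorem mon_ie {c : Fin N → ℕ} {j : Fin N} (hj : j ∈ J) (h : c j ≠ 0) :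
    ∏ i, s i ^ c i ∈ Ie A m s a (dg a c) := by
  obtain ⟨y, hy, e⟩ := split (s := s) (a := a) h
  have := ie_mul (X.ie j hj) hy
  rwa [add_sub_cancel, ← e] at this

theorem i2_le : I2 A m s a e ≤ IeS X.zero m e := Submodule.span_le.2 (by
  rintro _ ⟨e1, x, hx, y, hy, rfl⟩
  have := ie_mul hx hy.1
  rwa [add_sub_cancel] at this)

/-- modulo the ideal of the orbit -/
theorem one (h : φ ∈ Sp s a e) : ∃ γ : ℂ, φ - γ • ch T D e ∈ Ie A m s a e := by
  have : Sp s a e ≤ Submodule.span ℂ {ch T D e} ⊔ IeS X.zero m e := Submodule.span_le.2 (by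
    rintro _ ⟨c, rfl, rfl⟩
    by_cases z : ∀ j ∈ J, c j = 0
    · obtain ⟨γ, hγ⟩ := pr_uniq X (ch_pr ⟨_, mon_pr X z⟩) (mon_pr X z)
      exact Submodule.mem_sup_left (Submodule.mem_span_singleton.2 ⟨γ, hγ.symm⟩)
    · push Not at z
      obtain ⟨j, hj, n⟩ := z
      exact Submodule.mem_sup_right (mon_ie X hj n))
  obtain ⟨_, hu, w, hw, rfl⟩ := Submodule.mem_sup.1 (this h)
  obtain ⟨γ, rfl⟩ := Submodule.mem_span_singleton.1 hu
  exact ⟨γ, by rwa [add_sub_cancel_left]⟩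

theorem two (h : φ ∈ Sp s a e) :
    φ ∈ Ie A m s a e ∨ ∃ θ, ∃ γ : ℂ, Pr T D e θ ∧ φ - γ • θ ∈ Ie A m s a e := by
  obtain ⟨γ, hγ⟩ := one X h
  by_cases z : ∃ θ, Pr T D e θ
  · exact .inr ⟨_, γ, ch_pr z, hγ⟩
  · rw [ch, dif_neg z, smul_zero, sub_zero] at hγ
    exact .inl hγ

theorem spn : Spn T D s a A m J s := fun e φ h => by
  classical
  let I := J.filter fun j => ∃ θ, Pr T D (e - a j) θ
  let W := Submodule.span ℂ ((fun j => s j * ch T D (e - a j)) '' I) ⊔ I2 A m s a e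
  have le : Sp s a e ≤ Submodule.span ℂ {ch T D e} ⊔ W := Submodule.span_le.2 (by
    rintro _ ⟨c, hc, rfl⟩
    have hc : dg a c = e := hc
    by_cases z : ∀ j ∈ J, c j = 0
    · have p := mon_pr X z
      rw [hc] at p
      obtain ⟨γ, hγ⟩ := pr_uniq X (ch_pr ⟨_, p⟩) p
      exact Submodule.mem_sup_left (Submodule.mem_span_singleton.2 ⟨γ, hγ.symm⟩)
    · push Not at z
      obtain ⟨j, hj, n⟩ := z
      obtain ⟨y, hy, ey⟩ := split (s := s) (a := a) n
      rw [hc] at hy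
      refine Submodule.mem_sup_right ?_
      change ∏ i, s i ^ c i ∈ W
      rw [ey]
      obtain ⟨γ, hγ⟩ := one X hy
      have i2 : s j * (y - γ • ch T D (e - a j)) ∈ I2 A m s a e :=
        Submodule.subset_span ⟨a j, _, X.ie j hj, _, hγ, rfl⟩
      by_cases u : ∃ θ, Pr T D (e - a j) θ
      · rw [show s j * y = γ • (s j * ch T D (e - a j)) + s j * (y - γ • ch T D (e - a j)) by
          rw [mul_sub, mul_smul_comm, add_sub_cancel]]
        exact Submodule.add_mem_sup (Submodule.smul_mem _ _ (Submodule.subset_span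
          ⟨j, Finset.mem_coe.2 (Finset.mem_filter.2 ⟨hj, u⟩), rfl⟩)) i2
      · rw [ch, dif_neg u, smul_zero, sub_zero] at i2
        exact Submodule.mem_sup_right i2)
  have wl : W ≤ IeS X.zero m e := sup_le (Submodule.span_le.2 (by
    rintro _ ⟨j, hj, rfl⟩
    obtain ⟨hj, u⟩ := Finset.mem_filter.1 (Finset.mem_coe.1 hj)
    have := ie_mul (X.ie j hj) (pr_sp X (ch_pr u))
    rwa [add_sub_cancel] at this)) (i2_le X)
  obtain ⟨_, hu, w, hw, rfl⟩ := Submodule.mem_sup.1 (le h.1)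
  obtain ⟨γ, rfl⟩ := Submodule.mem_span_singleton.1 hu
  have z : γ • ch T D e = 0 := by
    by_contra n
    have g0 : γ ≠ 0 := fun z => n (by rw [z, zero_smul])
    have u : ∃ θ, Pr T D e θ := by
      by_contra u
      exact n (by rw [ch, dif_neg u, smul_zero])
    have m1 : γ • ch T D e ∈ IeS X.zero m e := by
      have := (IeS X.zero m e).sub_mem h (wl hw)
      rwa [add_sub_cancel_right] at this
    exact pr_not X (ch_pr u) (((IeS X.zero m e).smul_mem_iff g0).1 m1)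
  obtain ⟨_, hv, w2, h2, rfl⟩ := Submodule.mem_sup.1 hw
  obtain ⟨g, rfl⟩ := (Submodule.mem_span_image_finset_iff_exists_fun' ℂ).1 hv
  refine ⟨I, fun j => ch T D (e - a j), g, Finset.filter_subset _ _,
    fun j hj => ch_pr (Finset.mem_filter.1 hj).2, ?_⟩
  rwa [z, zero_add, add_sub_cancel_left]

/-- a degree with a unit is the degree of a monomial in the units -/
theorem unit_mon (h : Pr T D e θ) : ∃ c, dg a c = e ∧ ∀ j ∈ J, c j = 0 := by
  by_contra n
  have : Sp s a e ≤ IeS X.zero m e := Submodule.span_le.2 (by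
    rintro _ ⟨c, rfl, rfl⟩
    by_cases z : ∀ j ∈ J, c j = 0
    · exact absurd ⟨c, rfl, z⟩ n
    · push Not at z
      obtain ⟨j, hj, n⟩ := z
      exact mon_ie X hj n)
  exact pr_not X h (this (pr_sp X h))

end S35

open S35

theorem spn35 : SPN := fun _ _ _ _ _ _ _ _ _ _ _ _ _ _ X => ⟨spn X, fun _ _ h => two X h⟩

theorem lam35 : LAM := fun _ _ _ _ _ _ _ _ _ _ _ _ _ _ X => by
  refine ⟨fun e θ h => ?_, eq_top_iff.2 fun e _ => ?_⟩
  · obtain ⟨c, rfl, z⟩ := unit_mon X h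
    exact dg_mem _ c fun j n => Submodule.subset_span ⟨j, fun hj => n (z j hj), rfl⟩
  · obtain ⟨e', b, hb, c, hc, b0, c0⟩ := X.cox.fr1 e
    obtain ⟨u, hu⟩ := ex_mon hb b0
    obtain ⟨v, hv⟩ := ex_mon hc c0
    rw [← add_sub_cancel_right e e', ← hu, ← hv]
    exact sub_mem (dg_mem _ u fun j _ => Submodule.subset_span ⟨j, rfl⟩)
      (dg_mem _ v fun j _ => Submodule.subset_span ⟨j, rfl⟩)

end Vale.Agent.P283R.Tq
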