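import Vale.Agent.P283R.Tq.Spn35

/-!
# P283R, block TQ: minimal generators are separated by the relations of their degrees
-/

open Set

noncomputable section

namespace Vale.Agent.P283R.Tq

open Vale.Agent.P287D Vale.Agent.P297Z Vale.Agent.P283M Vale.Agent.P283R.Cx
open Vale.Agent.P283R.Lx (Nz Ie)
open Vale.Agent.P283R.Lx.K33 (I2 IeS)
open Vale.Agent.P283R.Lx.O15

namespace S84

variable {L : Type} [Field L] [Algebra ℂ L] {k N : ℕ} {T : Set (Pl L)}
  {D : Pl L → Fin k → ℤ} {s : Fin N → L} {a : Fin N → Fin k → ℤ} {A : Subalgebra ℂ L}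
  {m : Ideal A} {J : Finset (Fin N)} {e e' : Fin k → ℤ} {x φ : L} {P Q : Pl L}

/-- the order of a section -/
def co (D : Pl L → Fin k → ℤ) (P : Pl L) (φ : L) (e : Fin k → ℤ) : ℤ := P.ord φ + e ⬝ᵥ D P

theorem cd_mul (h : φ ≠ 0) (h' : x ≠ 0) : co D P (φ * x) (e + e') = co D P φ e + co D P x e' := by
  rw [co, co, co, Pl.ord_mul _ h h', add_dotProduct]; ring

theorem cd_div (h : φ ≠ 0) (h' : x ≠ 0) : co D P (φ / x) (e - e') = co D P φ e - co D P x e' := by
  rw [co, co, co, Pl.ord_div _ h h', sub_dotProduct]; ring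

/-- the divisor of the section `x` of the degree `e` is `P` -/
structure One (T : Set (Pl L)) (D : Pl L → Fin k → ℤ) (P : Pl L) (x : L) (e : Fin k → ℤ) :
    Prop where
  mem : P ∈ T
  ne : x ≠ 0
  one : co D P x e = 1
  zero : ∀ Q ∈ T, Q ≠ P → co D Q x e = 0

theorem One.dv (cox : Cox T D s a) (h : One T D P x e') (h1 : φ ∈ Sp s a e) (h0 : φ ≠ 0)
    (c : 0 < co D P φ e) : φ / x ∈ Sp s a (e - e') :=
  (cox.sec _ _ (div_ne_zero h0 h.ne)).2 fun Q t => by
    have k : 0 ≤ co D Q φ e := (cox.sec _ _ h0).1 h1 Q t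
    change 0 ≤ co D Q _ _
    rw [cd_div h0 h.ne]
    by_cases z : Q = P
    · rw [z, h.one]; omega
    · rw [h.zero Q t z]; omega

theorem One.sp (cox : Cox T D s a) (h : One T D P x e) : x ∈ Sp s a e :=
  (cox.sec _ _ h.ne).2 fun Q t => by
    change 0 ≤ co D Q _ _
    by_cases z : Q = P
    · rw [z, h.one]; omega
    · rw [h.zero Q t z]

theorem ex_one (full : ∀ Z : Pl L → ℤ, {P | P ∈ T ∧ Z P ≠ 0}.Finite →
    ∃ (θ : L) (e : Fin k → ℤ), θ ≠ 0 ∧ ∀ P ∈ T, Z P = P.ord θ + e ⬝ᵥ D P) (t : P ∈ T) :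
    ∃ x e, One T D P x e := by
  classical
  obtain ⟨x, e, x0, h⟩ := full (fun Q => if Q = P then 1 else 0)
    ((finite_singleton P).subset fun Q c => by_contra fun z => c.2 (if_neg z))
  exact ⟨x, e, t, x0, (h P t).symm.trans (if_pos rfl), fun Q u z => (h Q u).symm.trans (if_neg z)⟩

/-- a section which vanishes on the orbit has a prime factor which vanishes on the orbit -/
theorem ex_ie (cox : Cox T D s a) (hm : m.IsPrime) (full : ∀ P ∈ T, ∃ x e, One T D P x e)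
    (S : Finset (Pl L)) (hS : ∀ P ∈ S, P ∈ T) (n : ℕ) : ∀ e φ, φ ≠ 0 → φ ∈ Ie A m s a e →
      (∀ P ∈ T, P ∉ S → co D P φ e = 0) → ∑ P ∈ S, (co D P φ e).toNat < n →
      ∃ P x e', One T D P x e' ∧ x ∈ Ie A m s a e' ∧ 0 < co D P φ e := by
  induction n with
  | zero => exact fun _ _ _ _ _ h => (Nat.not_lt_zero _ h).elim
  | succ n ih =>
    intro e φ h0 h z l
    obtain ⟨P, t, c⟩ : ∃ P ∈ T, co D P φ e ≠ 0 := by_contra fun c => by
      have p : Pr T D e φ := ⟨h0, fun P t => by_contra fun u => c ⟨P, t, u⟩⟩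
      refine h.2 φ⁻¹ ((cox.sec _ _ (inv_ne_zero h0)).2 fun P t => ((S35.pr_inv p).2 P t).ge) ?_
      rw [mul_inv_cancel₀ h0]
      exact nz_one hm.ne_top
    have c' : 0 < co D P φ e := lt_of_le_of_ne ((cox.sec _ _ h0).1 h.1 P t) c.symm
    obtain ⟨x, e', o⟩ := full P t
    by_cases i : x ∈ Ie A m s a e'
    · exact ⟨P, x, e', o, i, c'⟩
    obtain ⟨χ, c1, c2⟩ := (not_ie (o.sp cox)).1 i
    have le : ∀ Q ∈ T, co D Q (φ / x) (e - e') ≤ co D Q φ e := fun Q u => by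
      have : 0 ≤ co D Q x e' := (cox.sec _ _ o.ne).1 (o.sp cox) Q u
      rw [cd_div h0 o.ne]
      omega
    have PS : P ∈ S := by_contra fun u => c (z P t u)
    obtain ⟨Q, y, e'', o', i', c''⟩ := ih (e - e') (φ / x) (div_ne_zero h0 o.ne)
      ⟨o.dv cox h.1 h0 c', fun ψ p q => h.2 (ψ * χ) (by
        have := sp_mul p c1
        rwa [show -(e - e') + -e' = -e by ring] at this) (by
          have := nz_mul hm q c2
          rwa [show φ / x * ψ * (x * χ) = φ * (ψ * χ) by field_simp [o.ne]] at this)⟩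
      (fun Q u v => by
        rw [cd_div h0 o.ne, z Q u v, o.zero Q u fun w => v (w ▸ PS), sub_zero])
      (lt_of_lt_of_le (Finset.sum_lt_sum (fun Q u => Int.toNat_le_toNat (le Q (hS Q u)))
        ⟨P, PS, by rw [cd_div h0 o.ne, o.one]; omega⟩) (Nat.lt_succ_iff.1 l))
    exact ⟨Q, y, e'', o', i', c''.trans_le (le Q o'.mem)⟩

theorem ex_pr (hz : ∀ x, x ∈ A ↔ x ∈ Sp s a 0) (un : ∀ j ∉ J, Pr T D (a j) (s j))
    (ie : ∀ j ∈ J, s j ∈ Ie A m s a (a j)) (h : φ ∈ Sp s a e) (h' : φ ∉ Ie A m s a e) :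
    ∃ θ, Pr T D e θ := by_contra fun n => by
  have : Sp s a e ≤ IeS hz m e := Submodule.span_le.2 (by
    rintro _ ⟨c, rfl, rfl⟩
    by_cases z : ∀ j ∈ J, c j = 0
    · refine (n ⟨∏ i, s i ^ c i, ?_⟩).elim
      rw [S35.dg_eq]
      refine S35.pr_prod _ fun j _ => ?_
      by_cases u : j ∈ J
      · simpa [z j u] using S35.pr_one
      · exact S35.pr_pow (un j u) _
    · obtain ⟨j, u⟩ := not_forall.1 z
      obtain ⟨u, v⟩ := Classical.not_imp.1 u
      obtain ⟨y, hy, e⟩ := S35.split (s := s) (a := a) v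
      have := ie_mul (ie j u) hy
      rwa [add_sub_cancel, ← e] at this)
  exact h' (this h)

/-- a section outside of the square is prime near the orbit -/
theorem prm (cox : Cox T D s a) (hz : ∀ x, x ∈ A ↔ x ∈ Sp s a 0) (hm : m.IsPrime)
    (hu : ∀ e, ∀ φ ∈ Sp s a e, φ ∉ Ie A m s a e → ∃ θ, Pr T D e θ)
    (full : ∀ P ∈ T, ∃ x e, One T D P x e) (h : φ ∈ Ie A m s a e) (h' : φ ∉ I2 A m s a e) :
    ∃ P x, One T D P x e ∧ x ∈ Ie A m s a e ∧ Nz A m (φ / x) := by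
  have h0 : φ ≠ 0 := fun c => h' (c ▸ zero_mem _)
  obtain ⟨P, x, e', o, i, c⟩ := ex_ie cox hm full (cox.fin φ e).toFinset
    (fun P u => ((cox.fin φ e).mem_toFinset.1 u).1) _ e φ h0 h
    (fun P t u => by_contra fun v => u ((cox.fin φ e).mem_toFinset.2 ⟨t, v⟩)) (Nat.lt_succ_self _)
  have d := o.dv cox h.1 h0 c
  have n : φ / x ∉ Ie A m s a (e - e') := fun u =>
    h' (Submodule.subset_span ⟨e', x, i, _, u, (mul_div_cancel₀ φ o.ne).symm⟩)
  obtain ⟨θ, p⟩ := hu _ _ d n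
  obtain ⟨χ, c1, c2⟩ := (not_ie d).1 n
  have sp : ∀ {e θ}, Pr T D e θ → θ ∈ Sp s a e := fun p =>
    (cox.sec _ _ p.1).2 fun P t => (p.2 P t).ge
  have k : ∀ Q ∈ T, co D Q (x * θ) e = co D Q x e' := fun Q t => by
    have := cd_mul (D := D) (P := Q) (e := e') (e' := e - e') o.ne p.1
    rw [add_sub_cancel] at this
    rw [this, show co D Q θ (e - e') = 0 from p.2 Q t, add_zero]
  refine ⟨P, x * θ, ⟨o.mem, mul_ne_zero o.ne p.1, (k P o.mem).trans o.one,
    fun Q t z => (k Q t).trans (o.zero Q t z)⟩, ?_, ?_⟩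
  · have := ie_mul i (sp p)
    rwa [add_sub_cancel] at this
  · have a1 := mem0 hz d (sp (S35.pr_inv p))
    have a2 := mem0 hz (sp p) c1
    have e1 : φ / (x * θ) = φ / x * θ⁻¹ := by rw [← div_div, div_eq_mul_inv (φ / x)]
    rw [e1]
    refine ⟨a1, fun u => (not_nz c2.1).2 ?_ c2⟩
    have e2 : (⟨_, c2.1⟩ : A) = ⟨_, a1⟩ * ⟨_, a2⟩ := Subtype.ext (by
      change φ / x * χ = φ / x * θ⁻¹ * (θ * χ)
      field_simp [p.1])
    rw [e2]
    exact m.mul_mem_right _ u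

/-- a function which does not vanish at the point is a unit along the primes through the orbit -/
theorem ord_nz (cox : Cox T D s a) (hz : ∀ x, x ∈ A ↔ x ∈ Sp s a 0) (o : One T D P x e)
    (i : x ∈ Ie A m s a e) {g : L} (h : Nz A m g) : P.ord g = 0 := by
  have g0 : g ≠ 0 := fun c => h.2 (by
    have : (⟨g, h.1⟩ : A) = 0 := Subtype.ext c
    rw [this]; exact m.zero_mem)
  have k : 0 ≤ co D P g 0 := (cox.sec _ _ g0).1 ((hz g).1 h.1) P o.mem
  have e0 : co D P g 0 = P.ord g := by rw [co, zero_dotProduct, add_zero]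
  by_contra c
  have d := o.dv cox ((hz g).1 h.1) g0 (by omega)
  rw [zero_sub] at d
  exact i.2 _ d (by rwa [mul_div_cancel₀ g o.ne])

theorem pos (cox : Cox T D s a) (t : P ∈ T) {i : Fin N} (c : 0 < co D P (s i) (a i))
    (h : ∀ n, dg a n = e → n i ≠ 0) (h1 : φ ∈ Sp s a e) (h0 : φ ≠ 0) : 0 < co D P φ e := by
  have k : ∀ φ ∈ Sp s a e, φ / s i ∈ Sp s a (e - a i) := fun φ h1 => by
    induction h1 using Submodule.span_induction with
    | mem x hx =>
      obtain ⟨n, rfl, rfl⟩ := hx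
      obtain ⟨y, hy, e⟩ := S35.split (s := s) (a := a) (h n rfl)
      rwa [show (∏ j, s j ^ n j) / s i = y by rw [e, mul_div_cancel_left₀ _ (cox.ne i)]]
    | zero => rw [zero_div]; exact zero_mem _
    | add x y _ _ u v => rw [add_div]; exact add_mem u v
    | smul c x _ u => rw [smul_div_assoc]; exact Submodule.smul_mem _ c u
  have l : 0 ≤ co D P (φ / s i) (e - a i) :=
    (cox.sec _ _ (div_ne_zero h0 (cox.ne i))).1 (k φ h1) P t
  rw [cd_div h0 (cox.ne i)] at l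
  omega

/-- the difference of the orders depends on the degree only -/
theorem dif (cox : Cox T D s a) {i j : Fin N} (ij : i ≠ j) {y : L} (o : One T D P x (a i))
    (o' : One T D Q y (a j)) (ne : P ≠ Q) (c : 0 < co D P (s i) (a i))
    (c' : 0 < co D Q (s j) (a j)) (h : ∀ v : Fin N → ℤ, ∑ l, v l • a l = 0 → v i = v j) (r : ℕ) :
    ∀ e φ, φ ≠ 0 → φ ∈ Sp s a e → co D P φ e + co D Q φ e < r → ∀ n, dg a n = e →
      co D P φ e - co D Q φ e = n i - n j := by
  have w : ∀ n n' : Fin N → ℕ, dg a n = dg a n' → (n i : ℤ) - n j = n' i - n' j := fun n n' u => by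
    have := h (fun l => n l - n' l) (by
      simp only [sub_smul, Finset.sum_sub_distrib, ← S35.dg_eq, u, sub_self])
    omega
  induction r with
  | zero =>
    intro e φ h0 h1 l
    have : 0 ≤ co D P φ e := (cox.sec _ _ h0).1 h1 P o.mem
    have : 0 ≤ co D Q φ e := (cox.sec _ _ h0).1 h1 Q o'.mem
    omega
  | succ r ih =>
    intro e φ h0 h1 l n hn
    have p1 : 0 ≤ co D P φ e := (cox.sec _ _ h0).1 h1 P o.mem
    have p2 : 0 ≤ co D Q φ e := (cox.sec _ _ h0).1 h1 Q o'.mem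
    by_cases u : 0 < co D P φ e
    · have d := o.dv cox h1 h0 u
      obtain ⟨n', e'⟩ := S35.ex_mon d (div_ne_zero h0 o.ne)
      have k := ih _ _ (div_ne_zero h0 o.ne) d
      rw [cd_div h0 o.ne, cd_div h0 o.ne, o.one, o.zero Q o'.mem ne.symm] at k
      have k1 := k (by omega) n' e'
      have k2 := w n (n' + Pi.single i 1) (by rw [dg_add, dg_single, e', hn, sub_add_cancel])
      simp only [Pi.add_apply, Pi.single_eq_same, Pi.single_eq_of_ne ij.symm] at k2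
      omega
    by_cases v : 0 < co D Q φ e
    · have d := o'.dv cox h1 h0 v
      obtain ⟨n', e'⟩ := S35.ex_mon d (div_ne_zero h0 o'.ne)
      have k := ih _ _ (div_ne_zero h0 o'.ne) d
      rw [cd_div h0 o'.ne, cd_div h0 o'.ne, o'.one, o'.zero P o.mem ne] at k
      have k1 := k (by omega) n' e'
      have k2 := w n (n' + Pi.single j 1) (by rw [dg_add, dg_single, e', hn, sub_add_cancel])
      simp only [Pi.add_apply, Pi.single_eq_same, Pi.single_eq_of_ne ij] at k2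
      omega
    have q1 : ¬ n j < n i := fun z => u (pos cox o.mem c (fun n' e' => by
      have := w n n' (hn.trans e'.symm)
      omega) h1 h0)
    have q2 : ¬ n i < n j := fun z => v (pos cox o'.mem c' (fun n' e' => by
      have := w n n' (hn.trans e'.symm)
      omega) h1 h0)
    omega

end S84

open S84 in
/-- minimal generators are separated -/
theorem sepU {L : Type} [Field L] [Algebra ℂ L] {k N : ℕ} {T : Set (Pl L)}
    {D : Pl L → Fin k → ℤ} {s : Fin N → L} {a : Fin N → Fin k → ℤ} {A : Subalgebra ℂ L}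
    {m : Ideal A} {J : Finset (Fin N)} (cox : Cox T D s a) (hz : ∀ x, x ∈ A ↔ x ∈ Sp s a 0)
    (hm : m.IsMaximal) (uni : ∀ e, ∀ φ ∈ Sp s a e, φ ∈ Ie A m s a e ∨
      ∃ θ, ∃ γ : ℂ, Pr T D e θ ∧ φ - γ • θ ∈ Ie A m s a e)
    (ie : ∀ j ∈ J, s j ∈ Ie A m s a (a j))
    (full : ∀ Z : Pl L → ℤ, {P | P ∈ T ∧ Z P ≠ 0}.Finite →
      ∃ (θ : L) (e : Fin k → ℤ), θ ≠ 0 ∧ ∀ P ∈ T, Z P = P.ord θ + e ⬝ᵥ D P)
    (min : ∀ (e : Fin k → ℤ) (I : Finset (Fin N)) (θ : Fin N → L) (γ : Fin N → ℂ), I ⊆ J →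
      (∀ j ∈ I, Pr T D (e - a j) (θ j)) → ∑ j ∈ I, γ j • (s j * θ j) ∈ I2 A m s a e →
      ∀ j ∈ I, γ j = 0) :
    ∀ i ∈ J, ∀ j ∈ J, i ≠ j → ∃ v : Fin N → ℤ, ∑ x, v x • a x = 0 ∧ v i ≠ v j := by
  classical
  intro i hi j hj ij
  by_contra n
  have h : ∀ v : Fin N → ℤ, ∑ l, v l • a l = 0 → v i = v j := fun v u =>
    by_contra fun z => n ⟨v, u, z⟩
  have key : ∀ j ∈ J, ∃ P x, One T D P x (a j) ∧ x ∈ Ie A m s a (a j) ∧ Nz A m (s j / x) ∧
      0 < co D P (s j) (a j) := fun j hj => by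
    obtain ⟨P, x, o, u, v⟩ := prm cox hz hm.isPrime (fun e φ u v =>
      ((uni e φ u).resolve_left v).imp fun _ w => w.choose_spec.1) (fun P t => ex_one full t)
      (ie j hj)
      fun c => one_ne_zero (min (a j) {j} (fun _ => 1) (fun _ => 1)
        (Finset.singleton_subset_iff.2 hj) (fun l hl => by
          rw [Finset.mem_singleton.1 hl, sub_self]; exact S35.pr_one) (by simpa using c) j
            (Finset.mem_singleton_self j))
    refine ⟨P, x, o, u, v, ?_⟩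
    have k := cd_div (D := D) (P := P) (e := a j) (e' := a j) (cox.ne j) o.ne
    rw [o.one, co, ord_nz cox hz o u v, sub_self, zero_dotProduct] at k
    omega
  obtain ⟨P, x, o, u, v, c⟩ := key i hi
  obtain ⟨Q, y, o', u', v', c'⟩ := key j hj
  obtain rfl : P = Q := by_contra fun ne => ne (by
    have e : ∀ φ : L, φ ≠ 0 → P.ord φ = Q.ord φ := fun φ h0 => by
      obtain ⟨e, b, hb, g, hg, g0, rfl⟩ := cox.fr0 φ
      have b0 : b ≠ 0 := fun z => h0 (by rw [z, zero_div])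
      obtain ⟨l, hl⟩ := S35.ex_mon hg g0
      have k1 := dif cox ij o o' ne c c' h _ e b b0 hb (by omega : co D P b e + co D Q b e <
        ((co D P b e + co D Q b e).toNat + 1 : ℕ)) l hl
      have k2 := dif cox ij o o' ne c c' h _ e g g0 hg (by omega : co D P g e + co D Q g e <
        ((co D P g e + co D Q g e).toNat + 1 : ℕ)) l hl
      rw [Pl.ord_div _ b0 g0, Pl.ord_div _ b0 g0]
      simp only [co] at k1 k2
      omega
    refine Pl.ext' (SetLike.ext fun φ => ?_)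
    by_cases h0 : φ = 0
    · rw [h0]; exact ⟨fun _ => zero_mem _, fun _ => zero_mem _⟩
    · rw [← Pl.ord_nonneg_iff _ h0, ← Pl.ord_nonneg_iff _ h0, e φ h0])
  have vl : ∀ g, Nz A m g → ∃ θ, ∃ γ : ℂ, Pr T D 0 θ ∧ g - γ • θ ∈ Ie A m s a 0 ∧ γ ≠ 0 := by
    intro g hg
    have z : g ∉ Ie A m s a 0 := fun c => c.2 1 (by rw [neg_zero]; exact one_sp s a)
      (by rwa [mul_one])
    obtain ⟨θ, γ, a1, a2⟩ := (uni 0 g ((hz g).1 hg.1)).resolve_left z
    exact ⟨θ, γ, a1, a2, fun c => z (by rwa [c, zero_smul, sub_zero] at a2)⟩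
  obtain ⟨θ, α, a1, hα, -⟩ := vl _ v
  obtain ⟨η, β, b1, hβ, b0⟩ := vl _ v'
  have p : Pr T D (a i - a j) (x / y) := ⟨div_ne_zero o.ne o'.ne, fun R t => by
    change co D R _ _ = 0
    rw [cd_div o.ne o'.ne]
    by_cases z : R = P
    · rw [z, o.one, o'.one, sub_self]
    · rw [o.zero R t z, o'.zero R t z, sub_self]⟩
  have q : s j * (x / y) ∈ Ie A m s a (a i) := by
    have := ie_mul (ie j hj) ((cox.sec _ _ p.1).2 fun R t => (p.2 R t).ge)
    rwa [add_sub_cancel] at this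
  have k := min (a i) {i, j} (fun l => if l = i then η else x / y * θ)
    (fun l => if l = i then β else -α) (Finset.insert_subset hi (Finset.singleton_subset_iff.2 hj))
    (fun l hl => by
      by_cases z : l = i
      · rw [if_pos z, z, sub_self]; exact b1
      · rw [if_neg z, Finset.mem_singleton.1 ((Finset.mem_insert.1 hl).resolve_left z)]
        simpa only [add_zero] using S35.pr_mul p a1) (by
      rw [Finset.sum_pair ij, if_pos rfl, if_pos rfl, if_neg ij.symm, if_neg ij.symm]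
      have e : β • (s i * η) + -α • (s j * (x / y * θ)) = (s i / x - α • θ) *
          (s j * (x / y)) - (s j / y - β • η) * s i := by
        simp only [Algebra.smul_def, map_neg]
        field_simp [o.ne, o'.ne]
        ring
      rw [e]
      exact sub_mem (Submodule.subset_span ⟨0, _, hα, _, by rwa [sub_zero], rfl⟩)
        (Submodule.subset_span ⟨0, _, hβ, _, by rw [sub_zero]; exact ie i hi, rfl⟩))
    i (Finset.mem_insert_self _ _)
  exact b0 ((if_pos rfl).symm.trans k)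

/-- **the field `sep` of pointed data follows from the other fields** -/
theorem sep84 {L : Type} [Field L] [Algebra ℂ L] {k N : ℕ} {T : Set (Pl L)}
    {D : Pl L → Fin k → ℤ} {s : Fin N → L} {a : Fin N → Fin k → ℤ} {A : Subalgebra ℂ L}
    {m : Ideal A} {J : Finset (Fin N)} (cox : Cox T D s a) (hz : ∀ x, x ∈ A ↔ x ∈ Sp s a 0)
    (fg : A.FG) (hm : m.IsMaximal) (un : ∀ j ∉ J, Pr T D (a j) (s j))
    (ie : ∀ j ∈ J, s j ∈ Ie A m s a (a j))
    (full : ∀ Z : Pl L → ℤ, {P | P ∈ T ∧ Z P ≠ 0}.Finite →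
      ∃ (θ : L) (e : Fin k → ℤ), θ ≠ 0 ∧ ∀ P ∈ T, Z P = P.ord θ + e ⬝ᵥ D P)
    (min : ∀ (e : Fin k → ℤ) (I : Finset (Fin N)) (θ : Fin N → L) (γ : Fin N → ℂ), I ⊆ J →
      (∀ j ∈ I, Pr T D (e - a j) (θ j)) → ∑ j ∈ I, γ j • (s j * θ j) ∈ I2 A m s a e →
      ∀ j ∈ I, γ j = 0) :
    ∀ i ∈ J, ∀ j ∈ J, i ≠ j → ∃ v : Fin N → ℤ, ∑ x, v x • a x = 0 ∧ v i ≠ v j := by
  refine sepU cox hz hm (fun e φ u => or_iff_not_imp_left.2 fun v => ?_) ie full min
  have : Algebra.FiniteType ℂ A := (Subalgebra.fg_iff_finiteType A).1 fg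
  obtain ⟨θ, p⟩ := S84.ex_pr hz un ie u v
  have sp : ∀ {e θ}, Pr T D e θ → θ ∈ Sp s a e := fun p =>
    (cox.sec _ _ p.1).2 fun P t => (p.2 P t).ge
  obtain ⟨γ, hγ⟩ := val m ⟨_, mem0 hz u (sp (S35.pr_inv p))⟩
  refine ⟨θ, γ, p, ?_⟩
  have k := ie_mul (ie_base hz hγ) (sp p)
  rw [zero_add] at k
  refine (congrArg (· ∈ Ie A m s a e) ?_).mp k
  change (φ * θ⁻¹ - algebraMap ℂ L γ) * θ = _
  rw [sub_mul, inv_mul_cancel_right₀ p.1, Algebra.smul_def]

end Vale.Agent.P283R.Tq
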