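import Vale.Agent.P283R.Tq.Ta20
import Vale.Agent.P283R.Sg.Top20

/-!
# P283R, block TQ: toric varieties give pointed data
-/

open Set CategoryTheory AlgebraicGeometry

noncomputable section

namespace Vale.Agent.P283R.Tq

namespace T20

open Vale.Agent.P287D Vale.Agent.P283R.To Vale.Agent.P283R.Cx Vale.Agent.P297Z
open Vale.Agent.P283R.Mt (cg mem_cg)

section

variable {K : Type} [Field K] [Algebra ℂ K] {d k : ℕ} {y : Fin d → K} {ρ : Fin k → Fin d → ℤ}
  {T : Set (Pl K)} {D : Pl K → Fin k → ℤ} {O : Fin k → Pl K}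

/-- the toric data -/
structure Td (y : Fin d → K) (ρ : Fin k → Fin d → ℤ) (T : Set (Pl K)) (D : Pl K → Fin k → ℤ)
    (O : Fin k → Pl K) : Prop where
  ff : FF K d
  ind : AlgebraicIndependent ℂ y
  pt : ∀ u, (∀ i, dl ρ 0 u i = 0) → u = 0
  inj : Function.Injective O
  mem : ∀ i, O i ∈ T
  ray : ∀ i j, (O i).ord (y j) = ρ i j
  dO : ∀ e i, e ⬝ᵥ D (O i) = e i
  dn : ∀ P ∈ T, (∃ i, O i = P) ∨ (∀ j, P.ord (y j) = 0) ∧ ∀ e, e ⬝ᵥ D P = 0
  sec : ∀ e φ, φ ≠ 0 → (φ ∈ Mn y ρ 0 e ↔ ∀ P ∈ T, 0 ≤ P.ord φ + e ⬝ᵥ D P)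
  fin : ∀ (φ : K) e, {P | P ∈ T ∧ P.ord φ + e ⬝ᵥ D P ≠ 0}.Finite
  full : ∀ Z : Pl K → ℤ, {P | P ∈ T ∧ Z P ≠ 0}.Finite →
    ∃ (θ : K) (e : Fin k → ℤ), θ ≠ 0 ∧ ∀ P ∈ T, Z P = P.ord θ + e ⬝ᵥ D P

variable (h : Td y ρ T D O) {e : Fin k → ℤ} {u : Fin d → ℤ} {θ : K}

include h

theorem Td.om (e : Fin k → ℤ) (u : Fin d → ℤ) (i : Fin k) :
    (O i).ord (mon y u) + e ⬝ᵥ D (O i) = dl ρ e u i := by
  simp only [ord_mon _ h.ind.ne_zero, h.dO, h.ray, dl]

theorem Td.pr_mon (z : ∀ i, dl ρ e u i = 0) : Pr T D e (mon y u) :=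
  ⟨mon_ne h.ind.ne_zero u, fun P a => (h.dn P a).elim (by rintro ⟨i, rfl⟩; rw [h.om, z])
    fun b => by simp only [ord_mon _ h.ind.ne_zero, b.1, b.2, mul_zero, Finset.sum_const_zero,
      add_zero]⟩

theorem Td.pr_of (p : Pr T D e θ) :
    ∃ u, ∃ c : ℂ, c ≠ 0 ∧ (∀ i, dl ρ e u i = 0) ∧ θ = c • mon y u := by
  obtain ⟨u, -, c, rfl⟩ := unit h.ind ((h.sec e θ p.1).2 fun P a => (p.2 P a).ge)
    ((h.sec (-e) θ⁻¹ (inv_ne_zero p.1)).2 fun P a => by
      rw [Pl.ord_inv, neg_dotProduct, ← neg_add, p.2 P a, neg_zero]) (mul_inv_cancel₀ p.1)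
  have c0 : c ≠ 0 := by rintro rfl; exact p.1 (zero_smul _ _)
  exact ⟨u, c, c0, fun i => by rw [← h.om, ← Pl.ord_smul _ c0, p.2 _ (h.mem i)], rfl⟩

theorem Td.fr0 (φ : K) : ∃ e, ∃ b ∈ Mn y ρ 0 e, ∃ c ∈ Mn y ρ 0 e, c ≠ 0 ∧ φ = b / c := by
  obtain ⟨θ, e, θ0, z⟩ := h.full (fun P => max 0 (-P.ord φ)) ((h.fin φ 0).subset fun P a =>
    ⟨a.1, fun b => a.2 (by rw [zero_dotProduct, add_zero] at b; simp [b])⟩)
  refine ⟨e, φ * θ, ?_, θ, (h.sec e θ θ0).2 fun P a => z P a ▸ le_max_left _ _, θ0,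
    (mul_div_cancel_right₀ φ θ0).symm⟩
  rcases eq_or_ne φ 0 with rfl | φ0
  · rw [zero_mul]
    exact zero_mem _
  refine (h.sec e _ (mul_ne_zero φ0 θ0)).2 fun P a => ?_
  rw [Pl.ord_mul _ φ0 θ0, add_assoc, ← z P a]
  omega

theorem Td.sep {i j : Fin k} (r : ρ i = ρ j) : i = j := by
  classical
  have k : ∀ i j, ρ i = ρ j → ∀ e, ∀ b ∈ Mn y ρ 0 e, b ≠ 0 → (O i).ord b ≤ (O j).ord b :=
    fun i j r e b hb b0 => by
      have a : b ∈ Mn y ρ 0 fun l => -(O l).ord b := (h.sec _ b b0).2 fun P a =>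
        (h.dn P a).elim (by rintro ⟨l, rfl⟩; rw [h.dO, add_neg_cancel]) fun c => by
          have := (h.sec e b b0).1 hb P a
          rwa [c.2] at this ⊢
      have a' : b ∈ Mn y ρ 0 (Function.update (fun l => -(O l).ord b) j (-(O i).ord b)) := by
        refine Submodule.span_mono (image_mono fun u c => sn_zero.ge fun l => ?_) a
        rcases eq_or_ne l j with rfl | z
        · simpa only [dl, Function.update_self, r] using c.1 i
        · simpa only [dl, Function.update_of_ne z] using c.1 l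
      have := (h.sec _ b b0).1 a' _ (h.mem j)
      rw [h.dO, Function.update_self] at this
      omega
  refine h.inj (Pl.ext' (ValuationSubring.ext _ _ fun φ => ?_))
  rcases eq_or_ne φ 0 with rfl | φ0
  · exact iff_of_true (zero_mem _) (zero_mem _)
  obtain ⟨e, b, hb, c, hc, c0, rfl⟩ := h.fr0 φ
  have b0 : b ≠ 0 := by rintro rfl; exact φ0 (zero_div _)
  rw [← Pl.ord_nonneg_iff _ φ0, ← Pl.ord_nonneg_iff _ φ0, Pl.ord_div _ b0 c0, Pl.ord_div _ b0 c0,
    le_antisymm (k i j r e b hb b0) (k j i r.symm e b hb b0),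
    le_antisymm (k i j r e c hc c0) (k j i r.symm e c hc c0)]

theorem Td.pd : ∃ (N : ℕ) (s : Fin N → K) (a : Fin N → Fin k → ℤ) (J : Finset (Fin N)),
    Pd d (d + 1) T D s a (rA h.ind.ne_zero ρ) (rm h.ind.ne_zero ρ) J := by
  classical
  have y0 := h.ind.ne_zero
  let b := Fintype.equivFin (Fin k ⊕ Option (Fin d))
  have hs : ∀ e, Sp (fun j => mon y (cg ρ (b.symm j)).2) (fun j => (cg ρ (b.symm j)).1) e =
      Mn y ρ 0 e := fun e => by
    rw [sp_mon y0 fun j => cg ρ (b.symm j), Mn, sn_zero,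
      show range (fun j => cg ρ (b.symm j)) = _ from b.symm.surjective.range_comp (cg ρ)]
    simp only [mem_cg, dl]
  have hJ : ∀ j, j ∈ Finset.univ.image (fun i => b (.inl i)) ↔ ∃ i, b (.inl i) = j := by simp
  have o : ∀ e : Fin k → ℤ, (∀ i, 0 ≤ e i) → (1 : K) ∈ Mn y ρ 0 e := fun e a =>
    mon_zero (y := y) ▸ mn_mon (sn_zero.ge fun i => (a i).trans_eq (dl_zero i).symm)
  refine ⟨_, fun j => mon y (cg ρ (b.symm j)).2, fun j => (cg ρ (b.symm j)).1,
    Finset.univ.image fun i => b (.inl i), h.ff, by simp, ⟨fun j => mon_ne y0 _,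
      fun e φ => hs e ▸ h.sec e φ, h.fin, fun φ => by simpa only [hs] using h.fr0 φ, fun e => ?_⟩,
    fun x => by rw [hs]; rfl, fg0 fun x => by rw [hs]; rfl, rm_max h.pt h.ind, fun j a => ?_,
    fun j a => ?_, fun θ p => ?_, h.full, fun e I θ γ le p z j hj => ?_, fun i a j a' ne => ?_⟩
  · refine ⟨fun i => |e i|, 1, hs _ ▸ o _ fun i => ?_, 1, hs _ ▸ o _ fun i => abs_nonneg _,
      one_ne_zero, one_ne_zero⟩
    have := neg_abs_le (e i)
    rw [Pi.add_apply]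
    omega
  · obtain ⟨i | _ | i, rfl⟩ := b.surjective j
    · exact (a ((hJ _).2 ⟨i, rfl⟩)).elim
    · exact h.pr_mon fun l => by simp [cg, dl]
    · exact h.pr_mon fun l => by simp [cg, dl, Pi.single_apply]
  · obtain ⟨i, rfl⟩ := (hJ j).1 a
    refine (ie_iff h.pt h.ind hs).2 (mn_mon ⟨fun l => ?_, ?_⟩)
    · simp only [Equiv.symm_apply_apply, cg, dl_zero, Pi.single_apply]
      split_ifs <;> simp
    · simp [cg, dl_zero, Pi.single_apply]
  · obtain ⟨u, c, -, z, rfl⟩ := h.pr_of p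
    exact ⟨c, by rw [h.pt u z, mon_zero, Algebra.algebraMap_eq_smul_one]⟩
  · obtain ⟨Φ, hΦ⟩ := co h.ind
    choose! u c c0 z' eθ using fun j a => h.pr_of (p j a)
    have t : ∀ j ∈ I, ∃ i, b (.inl i) = j ∧ (cg ρ (b.symm j)).2 = 0 ∧
        ∀ l, dl ρ e (u j) l = (Pi.single i 1 : Fin k → ℤ) l := fun j a => by
      obtain ⟨i, rfl⟩ := (hJ j).1 (le a)
      refine ⟨i, rfl, by simp [cg], fun l => ?_⟩
      have := z' _ a l
      simp only [Equiv.symm_apply_apply, cg, dl, Pi.sub_apply] at this ⊢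
      omega
    obtain ⟨i, ei, e0, di⟩ := t j hj
    have := co_zero (u := u j) hΦ (i2_le h.pt h.ind hs z) fun a => by simpa [di] using a.2
    rw [map_sum, Finsupp.finsetSum_apply, Finset.sum_eq_single_of_mem j hj fun j' a ne => by
        obtain ⟨i', ei', e0', di'⟩ := t j' a
        rw [e0', mon_zero, one_mul, eθ j' a, map_smul, map_smul, hΦ, Finsupp.smul_apply,
          Finsupp.smul_apply, Finsupp.single_eq_of_ne, smul_zero, smul_zero]
        intro w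
        have := (di i).symm.trans (w ▸ di' i)
        rw [Pi.single_eq_same, Pi.single_eq_of_ne
          (by rintro rfl; exact ne (ei'.symm.trans ei))] at this
        exact one_ne_zero this,
      e0, mon_zero, one_mul, eθ j hj, map_smul, map_smul, hΦ, Finsupp.smul_apply,
      Finsupp.smul_apply, Finsupp.single_eq_same, smul_eq_mul, smul_eq_mul, mul_one] at this
    exact (mul_eq_zero.1 this).resolve_right (c0 j hj)
  · obtain ⟨i, rfl⟩ := (hJ i).1 a
    obtain ⟨j, rfl⟩ := (hJ j).1 a'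
    obtain ⟨l, hl⟩ := Function.ne_iff.1 fun r => ne (congrArg _ (congrArg _ (h.sep r)))
    refine ⟨fun x => Sum.elim (fun i => ρ i l) (fun o => if o = some l then 1 else 0) (b.symm x),
      ?_, by simpa using hl⟩
    rw [b.symm.sum_comp fun x => Sum.elim (fun i => ρ i l)
      (fun o => if o = some l then (1 : ℤ) else 0) x • (cg ρ x).1]
    ext i
    simp [cg, Fintype.sum_sum_type, Finset.sum_apply, Pi.single_apply]

end

open Vale.Agent.P289 (Pt)
open Vale.Agent.P283M.Stm Vale.Agent.P283M.Stm.Var Vale.Agent.P283M Vale.Agent.P283M.Br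
open Vale.Agent.P283R.Gl Vale.Agent.P283R.Sg.T20

variable {X : Var}

/-- the functions which vanish at `x` -/
def nu (x : Pt X.X) : Submodule ℂ X.K where
  carrier := {g | ∃ a : X.X.presheaf.stalk x, ¬ IsUnit a ∧ algebraMap _ X.K a = g}
  add_mem' := by
    rintro _ _ ⟨a, p, rfl⟩ ⟨b, q, rfl⟩
    exact ⟨a + b, IsLocalRing.nonunits_add p q, map_add _ _ _⟩
  zero_mem' := ⟨0, not_isUnit_zero, map_zero _⟩
  smul_mem' := by
    rintro c _ ⟨a, p, rfl⟩
    obtain ⟨b, e⟩ := reg_iff.1 (reg_const c x)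
    exact ⟨b * a, fun q => p (isUnit_of_mul_isUnit_right q), by
      rw [map_mul, e, Algebra.smul_def]⟩

theorem nu_iff {x : Pt X.X} {g : X.K} : g ∈ nu x ↔ RegAt g x ∧ ¬ UnAt g x :=
  ⟨fun ⟨a, p, e⟩ => ⟨⟨a, e⟩, fun q => p (P270L.S.un_toK.1 (e ▸ q :))⟩,
    fun ⟨⟨a, e⟩, p⟩ => ⟨a, fun q => p (by subst e; exact P270L.S.un_toK.2 q), e⟩⟩

end T20

open Vale.Agent.P287D Vale.Agent.P283R.To Vale.Agent.P297Z
open Vale.Agent.P283M.Stm Vale.Agent.P283M.Stm.Var Vale.Agent.P283M Vale.Agent.P283M.Br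
open Vale.Agent.P283R.Gl Vale.Agent.P283R.Sg.T20 T20

/-- **TORF** -/
theorem torf20 : TORF := by
  classical
  intro Y d W y S hK h ⟨x₀, hx₀⟩ SW hv
  obtain ⟨k, r, hr, er⟩ := Mt.rays W y
  have y0 := h.1.ne_zero
  have sc := Mt.sec h (SW _ hx₀) hr er
  have sc' : ∀ e φ, φ ∈ Mn y (fun i j => (pq (r i)).ord (y j)) 0 e ↔ φ ≠ 0 →
      ∀ E : Y.PrimeDiv, E.1 ∈ W → 0 ≤ ord φ E + ∑ j, e j * Finsupp.single (r j) (1 : ℤ) E :=
    fun e φ => by rw [Mn, sn_zero]; exact (sc e φ).symm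
  have rg : ∀ g, g ∈ Mn y (fun i j => (pq (r i)).ord (y j)) 0 0 ↔ ∀ x ∈ W, RegAt g x := fun g => by
    rw [sc']
    simp only [Pi.zero_apply, zero_mul, Finset.sum_const_zero, add_zero]
    refine ⟨fun a x hx => ?_, fun a _ E b => ?_⟩
    · rcases eq_or_ne g 0 with rfl | g0
      · exact (lr x).zero_mem
      · exact har Y g x fun E b => a g0 E (b.mem_open W.isOpen hx)
    · rw [pq_ord]
      exact Pl.ord_nonneg_of_mem _ ((pq_is E g).2 (a _ b))
  have td : Td y (fun i j => (pq (r i)).ord (y j)) (Pw W) (dvs fun i => .single (r i) 1)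
      fun i => pq (r i) := by
    refine ⟨hK, h.1, fun u z => by_contra fun u0 => hv u u0 ((rg _).1 (mn_mon (sn_zero.ge fun i =>
      (z i).ge))) x₀ hx₀ ((rg _).1 (mn_mon (sn_zero.ge fun i => ?_)) _ (SW _ hx₀)),
      pq_inj.comp hr, fun i => ⟨_, ((er _).1 ⟨i, rfl⟩).1, rfl⟩, fun _ _ => rfl,
      fun e i => (dot _ _ _).trans (Mt.sum_single hr e i), ?_, fun e φ φ0 => ?_,
      fun φ e => fn ((fin Y φ).union (finite_range r)) fun E a => by_contra fun b => a ?_,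
      fun Z f => ?_⟩
    · have := dl_neg (ρ := fun i j => (pq (r i)).ord (y j)) (e := 0) (u := u) i
      rw [neg_zero, z, neg_zero] at this
      exact this.ge
    · rintro _ ⟨E, a, rfl⟩
      by_cases c : ∃ i, r i = E
      · exact .inl (c.imp fun i => congrArg _)
      · exact .inr ⟨not_not.1 fun b => c ((er E).2 ⟨a, b⟩),
          fun e => (dot _ _ _).trans (Mt.sum_zero e c)⟩
    · exact (sc' e φ).trans (((sec _ e φ).symm).trans (forall_prop_of_true φ0))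
    · rw [mem_union, not_or] at b
      rw [dot, Mt.sum_zero e b.2, ← pq_ord, not_not.1 b.1, add_zero]
    · obtain ⟨m, φ, φ0, e⟩ := Mt.span h (SW _ hx₀) hr er (fun E => if E.1 ∈ W then Z (pq E) else 0)
        ((f.preimage pq_inj.injOn).subset fun E a => by
          by_cases c : E.1 ∈ W
          · exact ⟨⟨E, c, rfl⟩, by simpa [c] using a⟩
          · simp [c] at a)
      refine ⟨φ, m, φ0, ?_⟩
      rintro _ ⟨E, a, rfl⟩
      rw [dot, ← pq_ord, ← e E a]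
      exact (if_pos a).symm
  obtain ⟨N, s, a, J, pd⟩ := td.pd
  refine ⟨k, N, _, s, a, _, _, J, pd, rg, fun x hx g => (nz_iff y0).trans
    (and_congr_right fun b => ?_)⟩
  have le : Mn y (fun i j => (pq (r i)).ord (y j)) 1 0 ≤ nu x := Submodule.span_le.2 (by
    rintro _ ⟨u, c, rfl⟩
    have p := (rg _).1 (mn_le zero_le_one (mn_mon c))
    refine nu_iff.2 ⟨p x (SW x hx), fun q => hv u ?_ p x hx ?_⟩
    · rintro rfl
      simpa [dl] using c.2
    · rw [eq_inv_of_mul_eq_one_right (a := mon y u) (b := mon y (-u))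
        (by rw [← mon_add y0, add_neg_cancel, mon_zero])]
      exact q.2.2)
  refine ⟨fun c => by_contra fun q => ?_, fun q c => (nu_iff.1 (le c)).2 q⟩
  obtain ⟨c, c0, z⟩ := dec0 td.pt b c
  have := sub_mem (nu_iff.2 ⟨(rg g).1 b x (SW x hx), q⟩) (le z)
  rw [sub_sub_cancel] at this
  exact (nu_iff.1 this).2 ⟨(map_ne_zero _).2 c0, reg_const c x, map_inv₀ (algebraMap ℂ Y.K) c ▸
    reg_const c⁻¹ x⟩

end Vale.Agent.P283R.Tq
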