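import Vale.Agent.P283R.Bh.Fib
import Vale.Agent.P283R.Bc.Nrm
import Vale.Agent.P283R.Cf.Dsc

/-!
# P283R, block TQ: the data on a finite cover, the norm of the sections
-/

set_option linter.unusedSectionVars false

open Set

noncomputable section

namespace Vale.Agent.P283R.Tq

open Vale.Agent.P287D Vale.Agent.P283M Vale.Agent.P297Z Cx Cy Cy.Tpb Cx.Tpy

variable {K K' : Type} [Field K] [Algebra ℂ K] [Field K'] [Algebra ℂ K'] [Algebra K K']
  [IsScalarTower ℂ K K'] {d k N k' N' q m J : ℕ} {ε : ℝ} {T : Set (Pl K)} {T' : Set (Pl K')}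
  {D : Pl K → Fin k → ℤ} {D' : Pl K' → Fin k' → ℤ} {s : Fin N → K} {s' : Fin N' → K'}
  {a : Fin N → Fin k → ℤ} {a' : Fin N' → Fin k' → ℤ} {ι : (Fin k → ℤ) →+ (Fin k' → ℤ)}
  {y : Fin d → K} {h g h₀ : K} {δ b e₀ : Fin k → ℤ}

/-- a finite cover which is not ramified along the prime divisors -/
structure Cov (d : ℕ) (T : Set (Pl K)) (T' : Set (Pl K')) (D : Pl K → Fin k → ℤ)
    (D' : Pl K' → Fin k' → ℤ) (ι : (Fin k → ℤ) →+ (Fin k' → ℤ)) : Prop where
  ff : FF K d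
  ff' : FF K' d
  up : ∀ Q P, Lies (algebraMap K K') Q P → P ∈ T → Q ∈ T'
  dn : ∀ Q ∈ T', ∃ P ∈ T, Lies (algebraMap K K') Q P ∧ Q.ord (algebraMap K K' P.t) = 1 ∧
    ∀ e, ι e ⬝ᵥ D' Q = e ⬝ᵥ D P

namespace F55

theorem int [FiniteDimensional K K'] {P : Pl K} {x : K'}
    (h : ∀ Q, Lies (algebraMap K K') Q P → x ∈ Q.ring) (i : ℕ) :
    (minpoly K x).coeff i ∈ P.ring := by
  have := P.dvr
  have hx : IsIntegral P.ring x := by
    by_contra c
    obtain ⟨V, le, hV⟩ := Subring.exists_le_valuationSubring_of_isIntegrallyClosedIn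
      (R := (integralClosure P.ring K').toSubring) (x := x) c
    have l : P.ring ≤ V.comap (algebraMap K K') := fun f hf =>
      le (isIntegral_algebraMap (R := P.ring) (A := K') (x := ⟨f, hf⟩))
    rcases ValuationSubring.eq_self_or_eq_top_of_le l with e | e
    · obtain ⟨Q, hQ⟩ := (Pb.fund0 (K' := K') P).2.1 ⟨V, e.symm⟩
      have : Q.1.ring = V := congrArg (·.1) hQ
      exact hV (this ▸ h Q.1 Q.2)
    · obtain ⟨p, hp, hpx⟩ : IsIntegral K x := Algebra.IsIntegral.isIntegral x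
      have hint : IsIntegral V x :=
        ⟨p.map ((algebraMap K K').codRestrict _ fun f => e.ge (ValuationSubring.mem_top f)),
          hp.map _, by rw [Polynomial.eval₂_map]; exact hpx⟩
      obtain ⟨y, hy⟩ := IsIntegrallyClosed.isIntegral_iff.1 hint
      exact hV (hy ▸ y.2)
  rw [minpoly.isIntegrallyClosed_eq_field_fractions' K hx, Polynomial.coeff_map]
  exact Subtype.prop _

theorem lies_eq {Q : Pl K'} {P P' : Pl K} (l : Lies (algebraMap K K') Q P)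
    (l' : Lies (algebraMap K K') Q P') : P = P' :=
  Pb.pl_ext (ValuationSubring.ext _ _ fun f => (l f).trans (l' f).symm)

theorem ord (c : Cov d T T' D D' ι) {Q : Pl K'} {P : Pl K} (l : Lies (algebraMap K K') Q P)
    (p : P ∈ T) : Q.ord (algebraMap K K' P.t) = 1 ∧ ∀ e, ι e ⬝ᵥ D' Q = e ⬝ᵥ D P := by
  obtain ⟨P', -, l', k⟩ := c.dn Q (c.up Q P l p)
  exact lies_eq l l' ▸ k

theorem sec (c : Cov d T T' D D' ι) (x : Cox T D s a) (x' : Cox T' D' s' a') {e : Fin k → ℤ}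
    {φ : K} (hφ : φ ∈ Sp s a e) (φ0 : φ ≠ 0) : algebraMap K K' φ ∈ Sp s' a' (ι e) :=
  (x'.sec _ _ ((map_ne_zero _).2 φ0)).2 fun Q hQ => by
    obtain ⟨P, p, l, e1, k⟩ := c.dn Q hQ
    rw [l.ord, e1, one_mul, k]
    exact (x.sec _ _ φ0).1 hφ P p

theorem gen (j : Fin N) : s j ∈ Sp s a (a j) :=
  Submodule.subset_span ⟨Pi.single j 1, funext fun i => by
    simp [dg, Pi.single_apply], by simp [Pi.single_apply, pow_ite]⟩

theorem pa_map (ξ : Fin k' → ℝ) (r : ℝ) (e : Fin k → ℤ) :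
    pa e (fun i => pa (ι (Pi.single i 1)) ξ / r) = pa (ι e) ξ / r := by
  have : e = ∑ i, e i • Pi.single i (1 : ℤ) := by
    funext j
    simp [Finset.sum_apply, Pi.single_apply]
  conv_rhs => rw [this, map_sum]
  simp only [map_zsmul]
  rw [pa_sum, Finset.sum_div, pa]
  exact Finset.sum_congr rfl fun i _ => (mul_div_assoc _ _ _).symm

/-- sections with prescribed zeros -/
theorem big (x : Cox T D s a) (S : Finset (Pl K)) (n : ℕ) : ∃ e φ, φ ≠ 0 ∧
    ∀ P ∈ T, 0 ≤ P.ord φ + e ⬝ᵥ D P ∧ (P ∈ S → n ≤ P.ord φ + e ⬝ᵥ D P) := by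
  classical
  induction S using Finset.induction_on with
  | empty => exact ⟨0, 1, one_ne_zero, fun P _ => ⟨by simp, by simp⟩⟩
  | insert R S _ ih =>
    obtain ⟨e, φ, φ0, H⟩ := ih
    obtain ⟨e', u, hu, v, hv, v0, E⟩ := x.fr0 R.t
    have t0 : R.t ≠ 0 := fun z => by simpa [z] using R.ord_t
    have u0 : u ≠ 0 := fun z => t0 (by rw [E, z, zero_div])
    refine ⟨e + (n : ℤ) • e', φ * u ^ n, mul_ne_zero φ0 (pow_ne_zero _ u0), fun P p => ?_⟩
    have k1 := (x.sec _ _ u0).1 hu P p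
    have k2 := (x.sec _ _ v0).1 hv P p
    have n0 : (0 : ℤ) ≤ n := Int.natCast_nonneg n
    rw [Pl.ord_mul _ φ0 (pow_ne_zero _ u0), Pl.ord_pow, add_dotProduct, smul_dotProduct,
      smul_eq_mul]
    refine ⟨by nlinarith [(H P p).1], fun hP => ?_⟩
    rcases Finset.mem_insert.1 hP with rfl | hP
    · have := P.ord_t
      rw [E, Pl.ord_div _ u0 v0] at this
      nlinarith [(H P p).1]
    · nlinarith [(H P p).2 hP]

theorem big' (c : Cov d T T' D D' ι) (x : Cox T D s a) (x' : Cox T' D' s' a') (w : Fin k' → ℤ) :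
    ∃ e, ∃ φ ∈ Sp s' a' (ι e + (-1 : ℤ) • w), φ ≠ 0 := by
  classical
  have fin := x'.fin 1 w
  choose P hP using Pb.down c.ff c.ff'
  obtain ⟨n, hn⟩ := (fin.image fun Q => w ⬝ᵥ D' Q).bddAbove
  obtain ⟨e, φ, φ0, H⟩ := big x (fin.toFinset.image P) n.toNat
  have φ1 := (map_ne_zero (algebraMap K K')).2 φ0
  refine ⟨e, _, (x'.sec _ _ φ1).2 fun Q hQ => ?_, φ1⟩
  obtain ⟨R, p, l, e1, k⟩ := c.dn Q hQ
  obtain rfl := lies_eq l (hP Q)
  rw [l.ord, e1, one_mul, add_dotProduct, k, smul_dotProduct, smul_eq_mul]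
  by_cases z : w ⬝ᵥ D' Q = 0
  · have := (H _ p).1
    omega
  · have mem : Q ∈ {P | P ∈ T' ∧ P.ord (1 : K') + w ⬝ᵥ D' P ≠ 0} := ⟨hQ, by simpa using z⟩
    have a1 := (H _ p).2 (Finset.mem_image_of_mem P (fin.mem_toFinset.2 mem))
    have a2 : w ⬝ᵥ D' Q ≤ n := hn ⟨Q, mem, rfl⟩
    omega

theorem kap_up (c : Cov d T T' D D' ι) (fr : Frm y) {Q : Pl K'} {P : Pl K}
    (l : Lies (algebraMap K K') Q P) : 1 + kap (fun i => algebraMap K K' (y i)) Q =
      Q.ord (algebraMap K K' P.t) * (1 + kap y P) :=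
  ((ram d K K' (IsScalarTower.toAlgHom ℂ K K') y c.ff c.ff' fr).2 Q P l).2.2

theorem kap_eq (c : Cov d T T' D D' ι) (fr : Frm y) {Q : Pl K'} {P : Pl K}
    (l : Lies (algebraMap K K') Q P) (e1 : Q.ord (algebraMap K K' P.t) = 1) :
    kap (fun i => algebraMap K K' (y i)) Q = kap y P := by
  have := kap_up c fr l
  rw [e1] at this
  push_cast at this
  linarith

theorem dx {n n' : ℕ} {f : Fin n → MvPolynomial (Fin N) ℂ} {f' : Fin n' → MvPolynomial (Fin N') ℂ}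
    (c : Cov d T T' D D' ι) (ε0 : 0 ≤ ε) (X : Dx q ε y T D s a f h g δ b) (x' : Cox T' D' s' a')
    (ci : CI s' a' f') : Dx q ε (fun i => algebraMap K K' (y i)) T' D' s' a' f'
      (algebraMap K K' h) (algebraMap K K' g) (ι δ) (ι b) := by
  have x := X.cox
  refine ⟨c.ff', (ram d K K' (IsScalarTower.toAlgHom ℂ K K') y c.ff c.ff' X.fr).1, x', ci,
    (map_ne_zero _).2 X.h0, (map_ne_zero _).2 X.g0, sec c x x' X.gs X.g0, fun Q hQ => ?_,
    fun Q ξ H => ?_, fun ξ H => ?_⟩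
  · obtain ⟨P, p, l, e1, k⟩ := c.dn Q hQ
    rw [l.ord, l.ord g, e1, one_mul, one_mul, k, k, kap_eq c X.fr l e1]
    exact X.eq P p
  · obtain ⟨P, l⟩ := Pb.down c.ff c.ff' Q
    have e1 : (1 : ℝ) ≤ Q.ord (algebraMap K K' P.t) := by exact_mod_cast l.e_pos
    have e0 : (0 : ℝ) < Q.ord (algebraMap K K' P.t) := by linarith
    have := X.hw P (fun i => pa (ι (Pi.single i 1)) ξ / Q.ord (algebraMap K K' P.t)) fun j => by
      have := wt x'.ne H (sec c x x' (gen j) (x.ne j)) ((map_ne_zero _).2 (x.ne j))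
      rw [l.ord] at this
      rw [pa_map, add_div' _ _ _ e0.ne']
      push_cast at this
      exact div_nonneg (by linarith) e0.le
    rw [pa_map] at this
    rw [kap_up c X.fr l, l.ord h]
    have k := mul_le_mul_of_nonneg_left this e0.le
    rw [mul_sub, ← mul_div_assoc, mul_add _ (P.ord h : ℝ), mul_div_cancel₀ _ e0.ne'] at k
    push_cast
    nlinarith
  · have := X.lw (fun i => pa (ι (Pi.single i 1)) ξ / 1) fun j => by
      rw [pa_map, div_one]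
      exact deg H (sec c x x' (gen j) (x.ne j)) ((map_ne_zero _).2 (x.ne j))
    rw [pa_map, pa_map, div_one, div_one] at this
    refine ⟨this.1, fun ne => this.2 fun z => ?_⟩
    obtain ⟨i, hi⟩ := Function.ne_iff.1 ne
    obtain ⟨w, he⟩ : ∃ w : Fin k' → ℤ, 0 < pa w ξ := by
      rcases lt_or_gt_of_ne hi with z | z
      · exact ⟨Pi.single i (-1), by rw [pa_single]; simpa using z⟩
      · exact ⟨Pi.single i 1, by rw [pa_single]; simpa using z⟩
    obtain ⟨e, φ, hφ, φ0⟩ := big' c x x' w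
    have k1 := deg H hφ φ0
    have k2 := pa_map (ι := ι) ξ 1 e
    rw [z, div_one] at k2
    rw [pa_add, pa_smul, ← k2] at k1
    simp only [pa, Pi.zero_apply, mul_zero, Finset.sum_const_zero] at k1 he
    push_cast at k1
    linarith

theorem mon_mem {e : Fin k → ℤ} {u : Fin N → ℕ} (hu : dg a u = e) : ∏ j, s j ^ u j ∈ Sp s a e :=
  Submodule.subset_span ⟨u, hu, rfl⟩

theorem ov (c : Cov d T T' D D' ι) (x : Cox T D s a) (x' : Cox T' D' s' a') {Q : Pl K'} {P : Pl K}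
    (l : Lies (algebraMap K K') Q P) (o : ∀ u, dg a u = 0 → 0 ≤ P.ord (∏ j, s j ^ u j))
    (u : Fin N' → ℕ) (hu : dg a' u = 0) : 0 ≤ Q.ord (∏ j, s' j ^ u j) := by
  have := Pb.fin_of_ff c.ff c.ff'
  have z0 : ∏ j, s' j ^ u j ≠ 0 := Finset.prod_ne_zero_iff.2 fun j _ => pow_ne_zero _ (x'.ne j)
  have hz := (x'.sec _ _ z0).1 (mon_mem hu)
  generalize ∏ j, s' j ^ u j = z at z0 hz
  have k : ∀ i, (minpoly K z).coeff i ∈ P.ring := fun i => by
    by_cases c0 : (minpoly K z).coeff i = 0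
    · rw [c0]; exact zero_mem _
    refine (Pl.ord_nonneg_iff _ c0).1 (Hl.ord_nn o ((x.sec _ _ c0).2 fun R r => ?_) c0)
    rw [zero_dotProduct, add_zero]
    refine Pl.ord_nonneg_of_mem _ (int (fun U lU => (Pl.ord_nonneg_iff _ z0).1 ?_) i)
    simpa using hz U (c.up U R lU r)
  have hi := Algebra.IsIntegral.isIntegral (R := K) z
  have i : IsIntegral Q.ring z := Fre.int_of ((minpoly.monic hi).map (algebraMap K K'))
    (fun i => ⟨⟨_, (l _).1 (k i)⟩, by rw [Polynomial.coeff_map]; rfl⟩)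
    (by rw [Polynomial.eval_map_algebraMap, minpoly.aeval])
  obtain ⟨w, hw⟩ := IsIntegrallyClosed.isIntegral_iff.1 i
  exact Pl.ord_nonneg_of_mem _ (hw ▸ w.2)

/-- a monomial of least order -/
theorem term (P : Pl K) {e : Fin k → ℤ} {φ : K} (hφ : φ ∈ Sp s a e) (φ0 : φ ≠ 0) :
    ∃ u, dg a u = e ∧ P.ord (∏ j, s j ^ u j) ≤ P.ord φ := by
  by_contra c
  have : Sp s a e ≤ P.sub (-(P.ord φ + 1)) := Submodule.span_le.2 (by
    rintro _ ⟨u, hu, rfl⟩
    have h1 : P.ord φ + 1 ≤ P.ord (∏ j, s j ^ u j) := not_le.1 fun e => c ⟨u, hu, e⟩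
    have h2 : (P.ord φ : ℝ) + 1 ≤ P.ord (∏ j, s j ^ u j) := by exact_mod_cast h1
    exact .inr (by linarith))
  linarith [(this hφ).resolve_left φ0]

/-- the norm -/
theorem back (c : Cov d T T' D D' ι) (hq : 0 < q) (hm : 0 < m) (fr : Frm y) (h0 : h ≠ 0)
    (x : Cox T D s a) (x' : Cox T' D' s' a') {P : Pl K}
    (H : ∀ Q, Lies (algebraMap K K') Q P →
      MN q m (fun i => algebraMap K K' (y i)) s' a' (algebraMap K K' h) (ι δ) Q) :
    MN q (m * Module.finrank K K') y s a h δ P := by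
  classical
  have := Pb.fin_of_ff c.ff c.ff'
  have fin := Pb.fin_above (K' := K') P
  choose! u u1 u2 using H
  have z0 : ∀ Q, ∏ j, s' j ^ u Q j ≠ 0 := fun Q =>
    Finset.prod_ne_zero_iff.2 fun j _ => pow_ne_zero _ (x'.ne j)
  obtain ⟨Q₀, l₀⟩ := Pb.up_fin (K' := K') P
  let S := fin.toFinset.image fun Q => ∏ j, s' j ^ u Q j
  have mem : ∀ Q, Lies (algebraMap K K') Q P → ∏ j, s' j ^ u Q j ∈ S := fun Q l =>
    Finset.mem_image_of_mem _ (fin.mem_toFinset.2 l)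
  obtain ⟨φ, hφ, φ0, g⟩ := exists_gen (s := S) ⟨_, mem Q₀ l₀, z0 Q₀⟩ fin
  have hφ' : φ ∈ Sp s' a' (-((m : ℤ) • ι δ)) := Submodule.span_le.2 (fun z hz => by
    obtain ⟨Q, hQ, rfl⟩ := Finset.mem_image.1 hz
    exact mon_mem (u1 Q (fin.mem_toFinset.1 hQ))) hφ
  obtain ⟨ψ, ψ0, n⟩ := Bc.nrm c.ff c.ff' φ0
  have hψ : ψ ∈ Sp s a (-((m * Module.finrank K K' : ℕ) : ℤ) • δ) := (x.sec _ _ ψ0).2 fun R r => by
    have := (n R ((m : ℤ) * (δ ⬝ᵥ D R) : ℤ)).1 fun Q l => by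
      have k := (x'.sec _ _ φ0).1 hφ' Q (c.up Q R l r)
      rw [neg_dotProduct, smul_dotProduct, (ord c l r).2, smul_eq_mul] at k
      rw [(ord c l r).1, Int.cast_one, mul_one, Int.cast_le]
      omega
    rw [smul_dotProduct, smul_eq_mul, ← Int.cast_le (R := ℝ)]
    push_cast at this ⊢
    linarith
  have lt := (n P (m * (q * (1 + kap y P) - P.ord h))).2 fun Q l => by
    have k1 := (Hl.ld_iff hq hm ((map_ne_zero _).2 h0) (z0 Q) Q).1 (u2 Q l)
    have k2 : (Q.ord φ : ℝ) + Q.mz S = 0 := g Q l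
    have k3 : (-Q.ord (∏ j, s' j ^ u Q j) : ℝ) ≤ Q.mz S := by
      exact_mod_cast Q.le_mz (mem Q l) (z0 Q)
    rw [kap_up c fr l, l.ord h] at k1
    push_cast at k1
    linarith
  obtain ⟨v, v1, v2⟩ := term P hψ ψ0
  refine ⟨v, by rw [v1, neg_smul], (Hl.ld_iff hq (Nat.mul_pos hm Module.finrank_pos) h0
    (Finset.prod_ne_zero_iff.2 fun j _ => pow_ne_zero _ (x.ne j)) P).2 ?_⟩
  have v3 : (P.ord (∏ j, s j ^ v j) : ℝ) ≤ P.ord ψ := by exact_mod_cast v2
  push_cast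
  linarith

end F55

open F55

/-- the data on the cover -/
theorem pf55 (c : Cov d T T' D D' ι) (ε0 : 0 ≤ ε) (x' : Cox T' D' s' a') {P : Pl K} {Q : Pl K'}
    (X : Bh.Pf d q ε K k N y T D s a h δ P) (l : Lies (algebraMap K K') Q P) :
    Bh.Pf d q ε K' k' N' (fun i => algebraMap K K' (y i)) T' D' s' a' (algebraMap K K' h) (ι δ)
      Q := by
  obtain ⟨⟨n, f, h₀, g, e₀, b, E, rfl, rfl, X⟩, o⟩ := X
  obtain ⟨n', f', ci⟩ := Cg.exists_rel (s := s') (a := a')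
  refine ⟨⟨n', f', algebraMap K K' h₀, algebraMap K K' g, ι e₀, ι b,
    ⟨(map_ne_zero _).2 E.1, fun U hU => ?_⟩, by rw [map_mul, map_pow], by rw [map_add, map_zsmul],
    dx c ε0 X x' ci⟩, ov c X.cox x' l o⟩
  obtain ⟨R, r, lU, e1, k⟩ := c.dn U hU
  rw [lU.ord, e1, one_mul, k, kap_eq c X.fr lU e1]
  exact E.2 R r

/-- **from the cover to the quotient** -/
theorem fc55 (c : Cov d T T' D D' ι) (hq : 0 < q) (ε0 : 0 ≤ ε) (hm : 0 < m)
    (hJ : Module.finrank K K' ≤ J) (x' : Cox T' D' s' a') (G : Bh.Gv (Bh.Pf d q ε) k' N' q m)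
    {P : Pl K} (X : Bh.Pf d q ε K k N y T D s a h δ P) : MN q (m * J.factorial) y s a h δ P := by
  have := Pb.fin_of_ff c.ff c.ff'
  obtain ⟨r, hr⟩ := Nat.dvd_factorial (Module.finrank_pos (R := K) (M := K')) hJ
  obtain ⟨⟨n, f, h₀, g, e₀, b, -, -, -, Y⟩, -⟩ := id X
  rw [hr, ← mul_assoc]
  exact mn_mul (Nat.pos_of_mul_pos_left (hr ▸ J.factorial_pos))
    (back c hq hm Y.fr Y.h0 Y.cox x' fun Q l => G K' _ _ _ _ _ _ _ Q (pf55 c ε0 x' X l))

end Vale.Agent.P283R.Tq
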