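import Vale.Agent.P283R.Tq.St
import Vale.Agent.P283R.Tq.Fc55

/-!
# P283R, block TQ: the second stage
-/

open Set

noncomputable section

namespace Vale.Agent.P283R.Tq

open Vale.Agent.P287D Vale.Agent.P283M Vale.Agent.P297Z Cx Cy

namespace F55

/-- the extension by zero -/
def ex (k k' : ℕ) : (Fin k → ℤ) →+ (Fin (k + k') → ℤ) where
  toFun e := Fin.append e 0
  map_zero' := funext fun i => by induction i using Fin.addCases <;> simp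
  map_add' _ _ := funext fun i => by induction i using Fin.addCases <;> simp

theorem ex_dot {k k' : ℕ} (e : Fin k → ℤ) (v : Fin (k + k') → ℤ) :
    ex k k' e ⬝ᵥ v = e ⬝ᵥ fun i => v (Fin.castAdd k' i) := by
  simp [ex, dotProduct, Fin.sum_univ_add]

theorem gv (d q l : ℕ) (ε : ℝ) (hq : 0 < q) (hε : 0 < ε) :
    ∃ m, 2 ≤ m ∧ ∀ k N, N ≤ k + l → Bh.Gv (Bh.Pf d q ε) k N q m :=
  Bh.helly hq (Bh.lo_pf d q ε) (fun k N => by
    obtain ⟨m, m1, H⟩ := Bh.vg_of Be2.abp d k N q ε hq hε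
    obtain ⟨m', m1', H'⟩ := Hw.hg d k N q ε hq hε
    refine ⟨m * m' * 2, Nat.le_mul_of_pos_left _ (Nat.mul_pos m1 m1'), ?_⟩
    intro K _ _ y T D s a h δ Q X
    exact Tpy.mn_mul two_pos (Bh.gv_pf m1 m1' H H' K y T D s a h δ Q X)) l

end F55

open F55 in
/-- **FC** -/
theorem fcr55 : FC := by
  intro l J n q ε hq hε
  obtain ⟨m, m2, H⟩ := gv (n + 1) q l ε hq hε
  have m3 : 2 ≤ m * J.factorial := m2.trans (Nat.le_mul_of_pos_right _ J.factorial_pos)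
  refine ⟨q * (m * J.factorial), Nat.mul_pos hq (by omega), ?_⟩
  rintro K _ _ u Λ Γ Γ' k N D s a T₀ A x ⟨h₀, e₀, e'⟩ ⟨h, δ, e⟩ bd lc nef sub
    ⟨K', _, _, _, _, k', N', D', s', a', ff', rk, unr, le, x'⟩
  have C : Cov (n + 1) (Tt n u Λ) (up K' (Tt n u Λ)) D D' (ex k k') :=
    ⟨A.ff, ff', fun Q P l p => ⟨P, p, l⟩, fun Q ⟨P, p, l⟩ => ⟨P, p, l, (unr P (sub p) Q l).1,
      fun e => by rw [ex_dot, funext (unr P (sub p) Q l).2]⟩⟩
  obtain ⟨y, E, hy, hc⟩ := Cb.exists_cn A.ff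
  obtain ⟨c, f, ci⟩ := Cg.exists_rel (s := s) (a := a)
  have p0 := pow_ne_zero q e'.1
  have e1 : h = h₀ ^ q * (h / h₀ ^ q) := (mul_div_cancel₀ h p0).symm
  have e2 : δ = (q : ℤ) • e₀ + (δ - (q : ℤ) • e₀) := (add_sub_cancel _ _).symm
  have Y : Dy n q ε u Λ Γ Γ' y D s a h₀ (h / h₀ ^ q) e₀ (δ - (q : ℤ) • e₀) :=
    ⟨A, ⟨E, hy⟩, hc, x, hc ▸ e', ⟨div_ne_zero e.1 p0, fun P hP => by
      have k1 := e.2 P hP
      have k2 := e'.2 P hP
      rw [Pl.ord_div _ e.1 p0, Pl.ord_pow, sub_dotProduct, smul_dotProduct]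
      simp only [dsc, Pi.sub_apply, Pi.smul_apply, Pi.neg_apply, smul_eq_mul] at k1 ⊢
      push_cast at k1 k2 ⊢
      rw [k2]
      linarith⟩, bd, lc, fun η η0 => P283M.Br.klr A A.dn.neg nef η0⟩
  have X := Tpy.dx hq Y ci
  rw [← e1, ← e2] at X
  exact bak n k _ q _ K u Λ Γ Γ' D s a y _ _ A x ⟨E, hy⟩ hc
    (m3.trans (Nat.le_mul_of_pos_left _ hq)) e fun Q o =>
      fc55 C hq hε.le (by omega) rk x' (H _ _ le)
        ⟨⟨c, f, h₀, _, e₀, _, Y.can, e1, e2, X⟩, Tz.mon_ov A x o⟩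

end Vale.Agent.P283R.Tq
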