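import Vale.Agent.P283R.Tq.St

/-!
# P283R, block TQ: a subgroup of bounded index fixes the classes
-/

open Set Module

noncomputable section

namespace Vale.Agent.P283R.Tq

open Vale.Agent.P287D Vale.Agent.P283M Vale.Agent.P283R.Cx Vale.Agent.P297Z
open Vale.Agent.P283R.Lx (Nz Ie)
open Vale.Agent.P283R.Lx.K33 (I2)

namespace G78

theorem few {ι Ξ C : Type} [Fintype ι] [AddCommGroup C] (c : ι → C) (π : ι → Ξ) (r : Ξ → ι)
    (h : ∀ ξ, π (r ξ) = ξ) (hc : ∀ i, c (r (π i)) = c i) :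
    Nat.card {i // r (π i) ≠ i} ≤ finrank ℤ (LinearMap.ker (Fintype.linearCombination ℤ c)) := by
  classical
  let v : {i // r (π i) ≠ i} → LinearMap.ker (Fintype.linearCombination ℤ c) := fun i =>
    ⟨Pi.single i.1 1 - Pi.single (r (π i.1)) 1, by simp [hc]⟩
  have li : LinearIndependent ℤ v := by
    refine Fintype.linearIndependent_iff.2 fun g hg i => ?_
    have := congrFun (congrArg Subtype.val hg) i.1
    simp only [v, AddSubmonoidClass.coe_finsetSum, SetLike.val_smul, Finset.sum_apply,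
      Pi.smul_apply, Pi.sub_apply, smul_eq_mul] at this
    rw [Finset.sum_eq_single i (fun j _ n => ?_) (by simp)] at this
    · simpa [Pi.single_eq_of_ne i.2.symm] using this
    · rw [Pi.single_eq_of_ne fun e => n (Subtype.ext e).symm,
        Pi.single_eq_of_ne fun e => i.2 (by rw [e, h]), sub_self, mul_zero]
  simpa using li.fintype_card_le_finrank

theorem core (mink : MINK) (l : ℕ) : ∃ J₀ : ℕ, ∀ (G C ι : Type) [Group G] [Finite G]
    [AddCommGroup C] [DistribMulAction G C] [Fintype ι] (c : ι → C),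
    (∀ (g : G) i, ∃ j, g • c i = c j) →
    finrank ℤ (LinearMap.ker (Fintype.linearCombination ℤ c)) ≤ l →
    (∀ i j, i ≠ j → ∃ v : ι → ℤ, ∑ x, v x • c x = 0 ∧ v i ≠ v j) →
    ∃ H : Subgroup G, H.index ≤ J₀ ∧ ∀ g ∈ H, ∀ i, g • c i = c i := by
  classical
  obtain ⟨J₀, mk⟩ := mink (l + l)
  refine ⟨J₀ * J₀, fun G C ι _ _ _ _ _ c hp rk sep => ?_⟩
  let Ξ : SubMulAction G C := ⟨range c, by
    rintro g _ ⟨i, rfl⟩
    exact (hp g i).imp fun _ => Eq.symm⟩
  have : Finite Ξ := (finite_range c).to_subtype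
  have := Fintype.ofFinite Ξ
  let π : ι → Ξ := fun i => ⟨c i, i, rfl⟩
  obtain ⟨r, hr⟩ : ∃ r : Ξ → ι, ∀ ξ, π (r ξ) = ξ :=
    ⟨fun ξ => ξ.2.choose, fun ξ => Subtype.ext ξ.2.choose_spec⟩
  let p := Fintype.linearCombination ℤ fun i => (Pi.single (π i) 1 : Ξ → ℤ)
  let t := Fintype.linearCombination ℤ fun ξ : Ξ => (ξ : C)
  have tp : ∀ v, t (p v) = Fintype.linearCombination ℤ c v := fun v => by
    simp only [p, Fintype.linearCombination_apply ℤ _ v, map_sum, map_smul]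
    simp [t, π]
  have st : ∀ g : G, ∀ x ∈ LinearMap.ker t, (fun ξ => x (g • ξ)) ∈ LinearMap.ker t :=
    fun g x hx => by
      rw [LinearMap.mem_ker, Fintype.linearCombination_apply] at hx ⊢
      rw [← smul_eq_zero_iff_eq g, Finset.smul_sum, ← hx,
        ← Equiv.sum_comp (MulAction.toPerm g) fun ξ : Ξ => x ξ • (ξ : C)]
      exact Finset.sum_congr rfl fun ξ _ => map_zsmul (DistribSMul.toAddMonoidHom C g) _ _
  obtain ⟨H₁, i1, f1⟩ := mk G Ξ (LinearMap.ker t) (by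
    refine le_trans (Submodule.finrank_mono fun x hx => ?_)
      (((Submodule.finrank_map_le p _).trans rk).trans (Nat.le_add_right _ _))
    have e : p (Function.extend r x 0) = x := by
      have ri : Function.Injective r := Function.LeftInverse.injective hr
      funext ξ
      simp only [p, Fintype.linearCombination_apply, Finset.sum_apply, Pi.smul_apply, smul_eq_mul]
      rw [Finset.sum_eq_single (r ξ) (fun i _ n => ?_) (by simp), ri.extend_apply, hr]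
      · simp
      · by_cases k : ∃ ξ', r ξ' = i
        · obtain ⟨ξ', rfl⟩ := k
          rw [hr, Pi.single_eq_of_ne fun e => n (by rw [e]), mul_zero]
        · rw [Function.extend_apply' _ _ _ k, Pi.zero_apply, zero_mul]
    exact ⟨_, by rw [SetLike.mem_coe, LinearMap.mem_ker, ← tp, e]; exact hx, e⟩) st
  let E : Ξ → Ξ → Prop := fun ξ ξ' => ∀ x ∈ LinearMap.ker t, x ξ = x ξ'
  let B : Set Ξ := {ξ | ∃ ξ', ξ' ≠ ξ ∧ E ξ ξ'}
  let S : Set Ξ := range fun i : {i // r (π i) ≠ i} => π i.1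
  have cS : S.ncard ≤ l := by
    refine le_trans ?_ ((few c π r hr fun i => congrArg Subtype.val (hr (π i))).trans rk)
    rw [← Nat.card_coe_set_eq]
    exact Finite.card_range_le _
  have sp : ∀ ξ ∉ S, ∀ ξ' ∉ S, E ξ ξ' → ξ = ξ' := fun ξ a ξ' b e => by_contra fun n => by
    obtain ⟨v, v0, k⟩ := sep (r ξ) (r ξ') fun e => n (by rw [← hr ξ, e, hr])
    have w : ∀ ξ ∉ S, p v ξ = v (r ξ) := fun ξ a => by
      simp only [p, Fintype.linearCombination_apply, Finset.sum_apply, Pi.smul_apply, smul_eq_mul]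
      rw [Finset.sum_eq_single (r ξ) (fun i _ n => ?_) (by simp), hr]
      · simp
      · rw [Pi.single_eq_of_ne fun e => a ⟨⟨i, fun k => n (by rw [e, k])⟩, e.symm⟩, mul_zero]
    exact k (by rw [← w ξ a, ← w ξ' b]; exact e _ (by rw [LinearMap.mem_ker, tp]; exact v0))
  have cB : B.ncard ≤ l + l := by
    have k : ∀ ξ ∈ B \ S, ∃ ξ' ∈ S, E ξ ξ' := fun ξ ⟨⟨ξ', n, e⟩, a⟩ =>
      ⟨ξ', by_contra fun b => n (sp ξ a ξ' b e).symm, e⟩
    choose! φ h1 h2 using k
    have := ncard_le_ncard_of_injOn φ h1 fun ξ a ξ' b e =>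
      sp ξ a.2 ξ' b.2 fun x hx => (h2 ξ a x hx).trans (e ▸ (h2 ξ' b x hx).symm)
    have := ncard_le_ncard_sdiff_add_ncard B S
    omega
  let Λ : Submodule ℤ (Ξ → ℤ) := LinearMap.ker (LinearMap.funLeft ℤ ℤ (Subtype.val : ↥Bᶜ → Ξ))
  have mΛ : ∀ x, x ∈ Λ ↔ ∀ ξ ∉ B, x ξ = 0 := fun x =>
    ⟨fun h ξ a => congrFun h ⟨ξ, a⟩, fun h => funext fun ξ => h ξ.1 ξ.2⟩
  obtain ⟨H₂, i2, f2⟩ := mk G Ξ Λ (by
    refine le_trans (LinearMap.finrank_le_finrank_of_injective
      (f := (LinearMap.funLeft ℤ ℤ (Subtype.val : B → Ξ)).comp Λ.subtype)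
      ((injective_iff_map_eq_zero _).2 fun x h => Subtype.ext (funext fun ξ => ?_))) ?_
    · by_cases a : ξ ∈ B
      · exact congrFun h ⟨ξ, a⟩
      · exact (mΛ _).1 x.2 ξ a
    · rwa [finrank_fintype_fun_eq_card, ← Nat.card_eq_fintype_card, Nat.card_coe_set_eq])
    fun g x hx => (mΛ _).2 fun ξ a => (mΛ _).1 hx _ fun ⟨ξ', n, e⟩ =>
      a ⟨g⁻¹ • ξ', fun k => n (by rw [← k, smul_inv_smul]), fun y hy => by
        simpa using e _ (st g⁻¹ y hy)⟩
  refine ⟨H₁ ⊓ H₂, Subgroup.index_inf_le.trans (Nat.mul_le_mul i1 i2), fun g hg i => ?_⟩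
  refine congrArg Subtype.val (show g • π i = π i from by_contra fun n => ?_)
  have b : π i ∈ B := ⟨_, n, fun x hx => (f1 g hg.1 x hx _).symm⟩
  have := f2 g hg.2 (Pi.single (π i) 1) ((mΛ _).2 fun ξ a =>
    Pi.single_eq_of_ne (fun e : ξ = π i => a (e ▸ b)) _) (π i)
  simp [Pi.single_eq_of_ne n] at this

variable {L : Type} [Field L] [Algebra ℂ L] {k : ℕ} {T : Set (Pl L)} {D : Pl L → Fin k → ℤ}
  {σ τ : L ≃ₐ[ℂ] L} {e e' e'' f f' : Fin k → ℤ} {θ η : L}

variable (T D) in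
/-- the degrees of the units -/
def U : AddSubgroup (Fin k → ℤ) where
  carrier := {e | ∃ θ, Pr T D e θ}
  zero_mem' := ⟨1, one_ne_zero, fun P _ => by simp⟩
  add_mem' := fun ⟨θ, a, b⟩ ⟨η, c, d⟩ => ⟨θ * η, mul_ne_zero a c, fun P h => by
    rw [Pl.ord_mul _ a c, add_dotProduct]
    linarith [b P h, d P h]⟩
  neg_mem' := fun ⟨θ, a, b⟩ => ⟨θ⁻¹, inv_ne_zero a, fun P h => by
    rw [Pl.ord_inv, neg_dotProduct]
    linarith [b P h]⟩

theorem r_add (a : Rel T D σ e e' θ) (b : Rel T D σ f f' η) :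
    Rel T D σ (e + f) (e' + f') (θ * η) := ⟨mul_ne_zero a.1 b.1, fun P h P' c => by
  rw [Pl.ord_mul _ a.1 b.1, add_dotProduct, add_dotProduct, a.2 P h P' c, b.2 P h P' c]
  ring⟩

theorem r_uniq (a : Rel T D σ e e' θ) (b : Rel T D σ e e'' η) : e' - e'' ∈ U T D :=
  ⟨θ / η, div_ne_zero a.1 b.1, fun P h => by
    obtain ⟨P', -, c⟩ := Cf.Ds.cj σ P
    rw [Pl.ord_div _ a.1 b.1, sub_dotProduct]
    linarith [a.2 P h P' c, b.2 P h P' c]⟩

theorem r_chg (a : Rel T D σ e e' θ) (b : Pr T D (e' - e'') η) : Rel T D σ e e'' (θ / η) :=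
  ⟨div_ne_zero a.1 b.1, fun P h P' c => by
    have := b.2 P h
    rw [sub_dotProduct] at this
    rw [Pl.ord_div _ a.1 b.1]
    linarith [a.2 P h P' c]⟩

theorem r_one : Rel T D 1 e e 1 := ⟨one_ne_zero, fun P _ P' c => by
  obtain rfl : P' = P := P287D.Pl.ext' (ValuationSubring.ext _ _ fun x => by
    by_cases x0 : x = 0
    · simp [x0]
    · rw [← Pl.ord_nonneg_iff _ x0, ← Pl.ord_nonneg_iff _ x0, c x]
      rfl)
  simp⟩

theorem r_mul (st : ∀ P ∈ T, ∀ P', Cj τ P P' → P' ∈ T) (a : Rel T D σ e e' θ)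
    (b : Rel T D τ e' e'' η) : Rel T D (τ * σ) e e'' (τ θ * η) := by
  have t0 : τ θ ≠ 0 := by simpa using a.1
  refine ⟨mul_ne_zero t0 b.1, fun P h P'' c => ?_⟩
  obtain ⟨P', -, c'⟩ := Cf.Ds.cj τ P
  rw [a.2 P' (st P h P' c') P'' fun φ => (c φ).trans (c' _).symm, b.2 P h P' c', c',
    Pl.ord_mul _ t0 b.1]
  ring

theorem r_un (st : ∀ P ∈ T, ∀ P', Cj σ P P' → P' ∈ T) (a : Pr T D e θ) :
    Rel T D σ e 0 (σ θ)⁻¹ := ⟨by simpa using a.1, fun P h P' c => by
  have := a.2 P' (st P h P' c)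
  rw [Pl.ord_inv, ← c, zero_dotProduct]
  linarith⟩

theorem act (G : Subgroup (L ≃ₐ[ℂ] L)) (st : ∀ σ ∈ G, ∀ P ∈ T, ∀ P', Cj σ P P' → P' ∈ T)
    (tot : ∀ σ ∈ G, ∀ e, ∃ e' θ, Rel T D σ e e' θ) :
    ∃ _ : DistribMulAction G ((Fin k → ℤ) ⧸ U T D), ∀ (σ : G) (e e' : Fin k → ℤ),
      (∃ θ, Rel T D σ e e' θ) ↔ σ • (e : (Fin k → ℤ) ⧸ U T D) = e' := by
  choose F θ hF using fun (σ : G) e => tot σ σ.2 e
  have k1 : ∀ (σ : G) (e e' : Fin k → ℤ), (∃ θ, Rel T D σ e e' θ) →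
      (F σ (e : (Fin k → ℤ) ⧸ U T D).out : (Fin k → ℤ) ⧸ U T D) = e' := fun σ e e' ⟨_, a⟩ => by
    obtain ⟨η, b⟩ : (e : (Fin k → ℤ) ⧸ U T D).out - e ∈ U T D :=
      QuotientAddGroup.eq_iff_sub_mem.1 (QuotientAddGroup.out_eq' _)
    have := r_add a (r_un (st σ σ.2) b)
    rw [add_sub_cancel, add_zero] at this
    exact QuotientAddGroup.eq_iff_sub_mem.2 (r_uniq (hF σ _) this)
  refine ⟨{ smul := fun σ c => F σ c.out
            one_smul := fun c => by
              obtain ⟨e, rfl⟩ := QuotientAddGroup.mk_surjective c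
              exact k1 1 e e ⟨_, r_one⟩
            mul_smul := fun τ σ c => ?_
            smul_zero := fun σ => k1 σ 0 0 ⟨_, r_un (st σ σ.2) (θ := 1) ⟨one_ne_zero, by simp⟩⟩
            smul_add := fun σ c c' => ?_ }, fun σ e e' => ⟨k1 σ e e', fun h => ?_⟩⟩
  · obtain ⟨e, rfl⟩ := QuotientAddGroup.mk_surjective c
    exact (k1 (τ * σ) e _ ⟨_, r_mul (st τ τ.2) (hF σ e) (hF τ _)⟩).trans
      ((congrArg (fun c : (Fin k → ℤ) ⧸ U T D => (F τ c.out : (Fin k → ℤ) ⧸ U T D))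
        (k1 σ e _ ⟨_, hF σ e⟩)).trans (k1 τ _ _ ⟨_, hF τ _⟩)).symm
  · obtain ⟨e, rfl⟩ := QuotientAddGroup.mk_surjective c
    obtain ⟨e', rfl⟩ := QuotientAddGroup.mk_surjective c'
    exact (k1 σ (e + e') _ ⟨_, r_add (hF σ e) (hF σ e')⟩).trans
      (congrArg₂ (· + ·) (k1 σ e _ ⟨_, hF σ e⟩) (k1 σ e' _ ⟨_, hF σ e'⟩)).symm
  · obtain ⟨η, b⟩ : F σ e - e' ∈ U T D :=
      QuotientAddGroup.eq_iff_sub_mem.1 ((k1 σ e _ ⟨_, hF σ e⟩).symm.trans h)
    exact ⟨_, r_chg (hF σ e) b⟩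

end G78

open G78 in
theorem galr78 : GALR := fun ac spn lam mink d l => by
  classical
  obtain ⟨J₀, co⟩ := G78.core mink l
  refine ⟨J₀, fun L _ _ k N T D s a A m J pd G gp => ?_⟩
  have ac := ac d l L k N T D s a A m J pd G gp
  obtain ⟨l1, l2⟩ := lam d l L k N T D s a A m J pd
  obtain ⟨_, hF⟩ := act G gp.stT fun σ h => (ac σ h).1
  have := gp.fin
  have z : ∀ j ∉ J, (a j : (Fin k → ℤ) ⧸ U T D) = 0 := fun j h =>
    (QuotientAddGroup.eq_zero_iff _).2 ⟨_, pd.un j h⟩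
  have sm : ∀ v : Fin N → ℤ, ∑ x : J, v x • (a x : (Fin k → ℤ) ⧸ U T D) =
      (∑ x, v x • a x : Fin k → ℤ) := fun v => by
    rw [Finset.sum_coe_sort J fun x => v x • (a x : (Fin k → ℤ) ⧸ U T D),
      QuotientAddGroup.mk_sum]
    exact Finset.sum_subset (Finset.subset_univ _) fun j _ h => by
      rw [z j h, smul_zero]
  obtain ⟨H, i, f⟩ := co G ((Fin k → ℤ) ⧸ U T D) J (fun j => a j) (fun σ j => by
    obtain ⟨e', θ, r⟩ := (ac σ σ.2).1 (a j)
    obtain ⟨-, r2, r3⟩ := (ac σ σ.2).2 _ _ _ r (s j)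
    obtain ⟨I, η, γ, hI, p, q⟩ := (spn d l L k N T D s a A m J pd).1 e' _ (r2.1 (pd.ie j j.2))
    obtain rfl | ⟨j', h⟩ := I.eq_empty_or_nonempty
    · have := pd.min (a j) {j.1} (fun _ => 1) (fun _ => 1) (by simp) (fun x hx => by
        rw [Finset.mem_singleton.1 hx, sub_self]
        exact ⟨one_ne_zero, by simp⟩) (by simpa using r3.2 (by simpa using q)) j (by simp)
      simp at this
    · exact ⟨⟨j', hI h⟩, ((hF σ _ _).1 ⟨θ, r⟩).trans
        (QuotientAddGroup.eq_iff_sub_mem.2 ⟨_, p j' h⟩)⟩) (by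
    have rk := (Fintype.linearCombination ℤ a).rank_range_add_rank_ker
    rw [Fintype.range_linearCombination, l2, rank_top, ← finrank_eq_rank, ← finrank_eq_rank,
      ← finrank_eq_rank, finrank_fin_fun, finrank_fin_fun] at rk
    have rk' : k + finrank ℤ (LinearMap.ker (Fintype.linearCombination ℤ a)) = N := by
      exact_mod_cast rk
    refine le_trans (Submodule.finrank_mono fun v hv => ?_) ((Submodule.finrank_map_le
      (LinearMap.funLeft ℤ ℤ (Subtype.val : J → Fin N))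
      (LinearMap.ker (Fintype.linearCombination ℤ a))).trans (by have := pd.le; omega))
    let v' : Fin N → ℤ := fun j => if h : j ∈ J then v ⟨j, h⟩ else 0
    obtain ⟨θ, p⟩ : ∑ x, v' x • a x ∈ U T D := by
      rw [← QuotientAddGroup.eq_zero_iff, ← sm]
      simpa [v', Fintype.linearCombination_apply] using hv
    obtain ⟨w, w1, w2⟩ := (Finsupp.mem_span_image_iff_linearCombination ℤ).1 (l1 _ θ p)
    refine ⟨v' - w, ?_, funext fun j => ?_⟩
    · rw [SetLike.mem_coe, LinearMap.mem_ker, map_sub, Fintype.linearCombination_apply, ← w2,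
        Finsupp.linearCombination_apply, Finsupp.sum_fintype _ _ (by simp),
        Fintype.linearCombination_apply, sub_self]
    · have : w j = 0 := by_contra fun n => w1 (Finsupp.mem_support_iff.2 n) j.2
      simp [v', this]) fun i j n => by
    obtain ⟨v, v0, h⟩ := pd.sep i i.2 j j.2 fun e => n (Subtype.ext e)
    exact ⟨fun x => v x, by rw [sm, v0]; rfl, h⟩
  refine ⟨H.map G.subtype, Subgroup.map_subtype_le _, ?_, ?_⟩
  · rwa [Subgroup.relIndex, Subgroup.subgroupOf,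
      Subgroup.comap_map_eq_self_of_injective G.subtype_injective]
  · rintro _ ⟨σ, h, rfl⟩ e
    refine (hF σ e e).2 ?_
    have : e ∈ Submodule.span ℤ (range a) := l2 ▸ trivial
    induction this using Submodule.span_induction with
    | mem x hx =>
      obtain ⟨j, rfl⟩ := hx
      by_cases c : j ∈ J
      · exact f σ h ⟨j, c⟩
      · rw [z j c, smul_zero]
    | zero => exact smul_zero _
    | add x y _ _ u v => rw [QuotientAddGroup.mk_add, smul_add, u, v]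
    | smul n x _ u =>
      rw [QuotientAddGroup.mk_zsmul]
      exact (map_zsmul (DistribSMul.toAddMonoidHom ((Fin k → ℤ) ⧸ U T D) σ) _ _).trans (congrArg _ u)

end Vale.Agent.P283R.Tq
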