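import Vale.Agent.P283R.Tq.St
import Vale.Agent.P283R.To.Gs

/-!
# P283R, block TQ: the generators of the invariant sections
-/

open Set

noncomputable section

namespace Vale.Agent.P283R.Tq

open Vale.Agent.P287D Vale.Agent.P297Z Vale.Agent.P283R.Cx
open Vale.Agent.P283R.To (mon)

namespace I69

variable {L : Type} [Field L] [Algebra ℂ L] {n c r ρ : ℕ} {T : Set (Pl L)} {E : Pl L → Fin n → ℤ}
  {H : Subgroup (L ≃ₐ[ℂ] L)} {γ : L} {M : (Fin n → ℤ) → Submodule ℂ L} {u u' : Fin n → ℤ}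
  {x y : L}

theorem pr_mul (a : Pr T E u x) (b : Pr T E u' y) : Pr T E (u + u') (x * y) :=
  ⟨mul_ne_zero a.1 b.1, fun P hP => by
    have := a.2 P hP
    have := b.2 P hP
    rw [Pl.ord_mul _ a.1 b.1, add_dotProduct]
    omega⟩

theorem pr_inv (a : Pr T E u x) : Pr T E (-u) x⁻¹ :=
  ⟨inv_ne_zero a.1, fun P hP => by
    have := a.2 P hP
    rw [Pl.ord_inv, neg_dotProduct]
    omega⟩

theorem pr_one : Pr T E 0 1 := ⟨one_ne_zero, fun P _ => by simp⟩

theorem pr_smul (cst : ∀ θ, Pr T E 0 θ → θ ∈ range (algebraMap ℂ L)) (a : Pr T E u x)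
    (b : Pr T E u y) : ∃ t : ℂ, y = t • x := by
  have := pr_mul b (pr_inv a)
  rw [add_neg_cancel] at this
  obtain ⟨t, ht⟩ := cst _ this
  exact ⟨t, by rw [Algebra.smul_def, ht, inv_mul_cancel_right₀ a.1]⟩

/-- the graded families -/
def Gr (M : (Fin n → ℤ) → Submodule ℂ L) : Prop :=
  (∀ {e e' x y}, x ∈ M e → y ∈ M e' → x * y ∈ M (e + e')) ∧ 1 ∈ M 0

theorem Gr.pw (g : Gr M) (h : x ∈ M u) (k : ℕ) : x ^ k ∈ M (k • u) := by
  simpa using Lx.G3.prod_mem g.1 g.2 (Finset.range k) fun _ => h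

theorem pack {ι : Type} [Fintype ι] (s : ι → L) (a : ι → Fin n → ℤ)
    (h : ∀ i, s i ≠ 0 ∧ Fix H (s i) ∧ ∀ P ∈ T, P.ord γ = 0 → 0 ≤ P.ord (s i) + a i ⬝ᵥ E P)
    (gen : ∀ M, Gr M → (∀ i, s i ∈ M (a i)) → ∀ v φ, φ ≠ 0 → Fix H φ →
      (∀ P ∈ T, P.ord γ = 0 → 0 ≤ P.ord φ + v ⬝ᵥ E P) → φ ∈ M v) :
    ∃ (s' : Fin (Fintype.card ι) → L) (a' : _ → Fin n → ℤ), Ic T E H γ s' a' := by
  let e := Fintype.equivFin ι
  refine ⟨s ∘ e.symm, a ∘ e.symm, fun j => (h _).1, fun j => (h _).2.1, fun v φ φ0 f =>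
    ⟨fun k P hP z => ?_, gen (Sp (s ∘ e.symm) (a ∘ e.symm))
      ⟨fun a b => sp_mul a b, by simpa [dg_zero] using mon_mem (s ∘ e.symm) (a ∘ e.symm) 0⟩ (fun i => ?_) v φ φ0 f⟩⟩
  · have := (Lx.G3.sp_le (M := fun e => P.sub ((e ⬝ᵥ E P : ℤ) : ℝ)) (fun a b => by
      rw [add_dotProduct, Int.cast_add]
      exact Cf.Ds.sub_mul P a b) (.inr (by simp)) (fun j => .inr (by
        exact_mod_cast (h _).2.2 P hP z)) v k).resolve_left φ0
    exact_mod_cast this
  · simpa using Lx.G3.gen_sp (s ∘ e.symm) (a ∘ e.symm) (e i)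

theorem core [Finite H] (τ : Fin c → L) (b : Fin r → Fin n)
    (stT : ∀ σ ∈ H, ∀ P ∈ T, ∀ P', Cj σ P P' → P' ∈ T ∧ E P' = E P)
    (cst : ∀ θ, Pr T E 0 θ → θ ∈ range (algebraMap ℂ L))
    (hτ : ∀ i, Fix H (τ i) ∧ ∀ P ∈ T, 0 ≤ P.ord (τ i)) (γ0 : γ ≠ 0) (hγ : Fix H γ)
    (hb : ∀ j, ∀ P ∈ T, 0 ≤ E P (b j))
    (gen : ∀ v φ, φ ≠ 0 → (∀ P ∈ T, P.ord γ = 0 → 0 ≤ P.ord φ + v ⬝ᵥ E P) → ∃ m : ℕ,
      γ ^ m * φ ∈ Submodule.span ℂ {x | ∃ (α : Fin c → ℕ) (β : Fin r → ℕ) (η : L),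
        Pr T E (v - ∑ j, β j • Pi.single (b j) 1) η ∧ x = (∏ i, τ i ^ α i) * η})
    (rk : ∀ (m : ℕ) (v : Fin m → Fin n → ℤ), LinearIndependent ℤ v →
      (∀ i, ∃ θ, Pr T E (v i) θ) → m ≤ ρ) :
    ∃ (N : ℕ) (s : Fin N → L) (a : Fin N → Fin n → ℤ), N ≤ c + r + ρ + 2 ∧ Ic T E H γ s a := by
  classical
  have := Fintype.ofFinite H
  let Λ : Submodule ℤ (Fin n → ℤ) := AddSubgroup.toIntSubmodule
    { carrier := {v | ∃ η, Pr T E v η ∧ Fix H η}
      zero_mem' := ⟨1, pr_one, fun σ _ => map_one σ⟩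
      add_mem' := fun ⟨x, a, a'⟩ ⟨y, b, b'⟩ =>
        ⟨x * y, pr_mul a b, fun σ h => by rw [map_mul, a' σ h, b' σ h]⟩
      neg_mem' := fun ⟨x, a, a'⟩ => ⟨x⁻¹, pr_inv a, fun σ h => by rw [map_inv₀, a' σ h]⟩ }
  let B := Module.finBasis ℤ Λ
  have hB : ∀ i : Option (Fin (Module.finrank ℤ Λ)), ∃ η,
      Pr T E (i.elim (-∑ j, (B j : Fin n → ℤ)) fun j => B j) η ∧ Fix H η := fun i => by
    cases i with
    | none => exact Λ.neg_mem (Λ.sum_mem fun j _ => (B j).2)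
    | some j => exact (B j).2
  choose η hη using hB
  have le := rk _ (fun j => (B j : Fin n → ℤ))
    (B.linearIndependent.map' Λ.subtype Λ.ker_subtype) fun j => ⟨_, (hη (some j)).1⟩
  obtain ⟨s, a, h⟩ := pack (T := T) (E := E) (H := H) (γ := γ)
    (ι := Fin c ⊕ Fin r ⊕ Option (Option (Fin (Module.finrank ℤ Λ))))
    (Sum.elim (fun i => if τ i = 0 then 1 else τ i) (Sum.elim (fun _ => 1) fun i => i.elim γ⁻¹ η))
    (Sum.elim 0 (Sum.elim (fun j => Pi.single (b j) 1) fun i => i.elim 0 fun i =>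
      i.elim (-∑ j, (B j : Fin n → ℤ)) fun j => B j)) (by
      rintro (i | j | _ | i)
      · by_cases z : τ i = 0
        · simp [z, Fix]
        · simpa [z] using ⟨(hτ i).1, fun P hP _ => (hτ i).2 P hP⟩
      · simpa [Fix] using fun P hP _ => hb j P hP
      · exact ⟨inv_ne_zero γ0, fun σ h => (map_inv₀ σ γ).trans (by rw [hγ σ h]; rfl),
          fun P _ z => by simp [Pl.ord_inv, z]⟩
      · exact ⟨(hη i).1.1, (hη i).2, fun P hP _ => ((hη i).1.2 P hP).ge⟩) (by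
      intro M g hM v φ φ0 f hφ
      have un : ∀ u ∈ Λ, ∀ x, Pr T E u x → x ∈ M u := fun u hu x hx => by
        let S : AddSubmonoid (Fin n → ℤ) :=
          { carrier := {v | ∃ η, Pr T E v η ∧ η ∈ M v}
            zero_mem' := ⟨1, pr_one, g.2⟩
            add_mem' := fun ⟨x, a, a'⟩ ⟨y, b, b'⟩ => ⟨x * y, pr_mul a b, g.1 a' b'⟩ }
        have s0 : -∑ j, (B j : Fin n → ℤ) ∈ S := ⟨_, (hη none).1, hM (.inr (.inr (some none)))⟩
        have s1 : ∀ j, (B j : Fin n → ℤ) ∈ S := fun j =>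
          ⟨_, (hη (some j)).1, hM (.inr (.inr (some (some j))))⟩
        have s2 : ∀ j, -(B j : Fin n → ℤ) ∈ S := fun j => by
          have := S.add_mem s0 (S.sum_mem (t := Finset.univ.erase j) fun j _ => s1 j)
          rwa [← Finset.add_sum_erase _ _ (Finset.mem_univ j), neg_add, neg_add_cancel_right] at this
        have s3 : u ∈ S := by
          have e := congrArg Subtype.val (B.sum_repr ⟨u, hu⟩)
          rw [Submodule.coe_sum] at e
          refine (show _ = u from e) ▸ S.sum_mem fun j _ => ?_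
          obtain ⟨k, z | z⟩ := (B.repr ⟨u, hu⟩ j).eq_nat_or_neg
          · simpa [z] using S.nsmul_mem (s1 j) k
          · simpa [z] using S.nsmul_mem (s2 j) k
        obtain ⟨y, a, a'⟩ := s3
        obtain ⟨t, rfl⟩ := pr_smul cst a hx
        exact (M u).smul_mem t a'
      let π : L →ₗ[ℂ] L := ∑ σ : H, σ.1.toLinearMap
      have πa : ∀ x, π x = ∑ σ : H, σ.1 x := fun x => by simp [π]
      have πm : ∀ x y, Fix H x → π (x * y) = x * π y := fun x y h => by
        rw [πa, πa, Finset.mul_sum]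
        exact Finset.sum_congr rfl fun σ _ => by rw [map_mul, h σ σ.2]
      have πf : ∀ x, Fix H (π x) := fun x σ h => by
        rw [πa, map_sum]
        exact Fintype.sum_equiv (Equiv.mulLeft ⟨σ, h⟩) _ _ fun _ => rfl
      have πu : ∀ u x, Pr T E u x → π x ∈ M u := fun u x hx => by
        have k : ∀ σ : H, ∃ t : ℂ, σ.1 x = t • x := fun σ => pr_smul cst hx
          ⟨(map_ne_zero σ.1).2 hx.1, fun P hP => by
            obtain ⟨P', -, e⟩ := Cf.Ds.cj σ.1 P
            rw [← e, ← (stT σ σ.2 P hP P' e).2]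
            exact hx.2 P' (stT σ σ.2 P hP P' e).1⟩
        choose t ht using k
        have e : π x = (∑ σ, t σ) • x := by rw [πa, Finset.sum_smul]; simp only [ht]
        by_cases z : ∑ σ, t σ = 0
        · rw [e, z, zero_smul]
          exact zero_mem _
        have p : Pr T E u (π x) := e ▸ ⟨smul_ne_zero z hx.1, fun P hP => by
          rw [P.ord_smul z]
          exact hx.2 P hP⟩
        exact un u ⟨_, p, πf x⟩ _ p
      obtain ⟨m, hm⟩ := gen v φ φ0 hφ
      have k : π (γ ^ m * φ) ∈ M v := by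
        refine Submodule.span_le (p := (M v).comap π).2 ?_ hm
        rintro _ ⟨α, β, x, hx, rfl⟩
        have k1 : ∏ i, τ i ^ α i ∈ M 0 := by
          simpa using Lx.G3.prod_mem g.1 g.2 Finset.univ fun i => g.pw (x := τ i) (u := 0) (by
            have := hM (.inl i)
            by_cases z : τ i = 0
            · exact z ▸ zero_mem _
            · simpa [z] using this) (α i)
        have k2 := Lx.G3.prod_mem g.1 g.2 Finset.univ fun j => g.pw (hM (.inr (.inl j))) (β j)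
        have := g.1 (g.1 k1 (πu _ x hx)) k2
        change π _ ∈ M v
        rw [πm _ _ fun σ h => by simp only [map_prod, map_pow, (hτ _).1 σ h]]
        simpa using this
      have e : π (γ ^ m * φ) = (Fintype.card H : ℂ) • (γ ^ m * φ) := by
        rw [πa, Finset.sum_congr rfl fun σ _ => by rw [map_mul, map_pow, hγ σ σ.2, f σ σ.2]]
        simp [Nat.cast_smul_eq_nsmul]
      rw [e, Submodule.smul_mem_iff _ (Nat.cast_ne_zero.2 Fintype.card_ne_zero)] at k
      have := g.1 (g.pw (hM (.inr (.inr none))) m) k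
      simpa [γ0] using this)
  exact ⟨_, s, a, by simp; omega, h⟩

variable {k : ℕ} {D : Pl L → Fin k → ℤ}

theorem cv_dot (w : Fin n → Fin k → ℤ) (v : Fin n → ℤ) (x : Fin k → ℤ) :
    cv w v ⬝ᵥ x = ∑ i, v i * (w i ⬝ᵥ x) := by
  simp only [cv, sum_dotProduct, smul_dotProduct, smul_eq_mul]

theorem ed_dot {ξ : Fin n → L} (h : ∀ i, ξ i ≠ 0) (w : Fin n → Fin k → ℤ) (v : Fin n → ℤ)
    (P : Pl L) : v ⬝ᵥ Ed D ξ w P = P.ord (mon ξ v) + cv w v ⬝ᵥ D P := by
  rw [To.ord_mon P h, cv_dot, ← Finset.sum_add_distrib]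
  exact Finset.sum_congr rfl fun i _ => mul_add _ _ _

end I69

open I69 in
/-- **ICX** -/
theorem icx69 : ICX := by
  intro d l L _ _ k N T D s a A m J pd H c k₀ r ρ τ γ ζ w z w' gp hτ γA γ0 γf hζ hz gen rk
  have := gp.fin
  have nn : ∀ x ∈ A, ∀ P ∈ T, 0 ≤ P.ord x := fun x hx P hP => by
    by_cases x0 : x = 0
    · simp [x0]
    · simpa using (pd.cox.sec 0 x x0).1 ((pd.zero x).1 hx) P hP
  have inv : ∀ i, Inv T D H (Fin.append w w' i) (Fin.append ζ z i) := fun i => by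
    induction i using Fin.addCases with
    | left i => simpa using hζ i
    | right j => simpa using (hz j).2
  have ξ0 : ∀ i, Fin.append ζ z i ≠ 0 := fun i => (inv i).1
  have m0 := To.mon_ne ξ0
  refine I69.core τ (Fin.natAdd k₀) (fun σ h P hP P' e => ⟨gp.stT σ h P hP P' e,
    funext fun i => (inv i).2 σ h P hP P' e⟩) (fun θ h => pd.cst θ ⟨h.1, by simpa using h.2⟩)
    (fun i => ⟨(hτ i).2, nn _ (hτ i).1⟩) γ0 γf (fun j P hP => ?_) (fun v φ φ0 h => ?_)
    fun n v li h => rk n v li fun i => ?_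
  · simpa [Ed] using (pd.cox.sec _ _ (hz j).2.1).1 (hz j).1 P hP
  · have ψ0 := mul_ne_zero φ0 (m0 v)
    obtain ⟨b, hb⟩ := ((pd.cox.fin (φ * mon (Fin.append ζ z) v) (cv (Fin.append w w') v)).image
      fun P => (P.ord (φ * mon (Fin.append ζ z) v) + cv (Fin.append w w') v ⬝ᵥ D P).natAbs).bddAbove
    obtain ⟨n, hn⟩ := gen _ _ ((pd.cox.sec (cv (Fin.append w w') v) _
      (mul_ne_zero (pow_ne_zero b γ0) ψ0)).2 fun P hP => by
        rw [Pl.ord_mul _ (pow_ne_zero b γ0) ψ0, Pl.ord_pow, add_assoc]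
        have h1 := nn γ γA P hP
        by_cases o : P.ord γ = 0
        · have := h P hP o
          rw [ed_dot ξ0, ← add_assoc, ← Pl.ord_mul _ φ0 (m0 v)] at this
          simpa [o] using this
        · have h2 : (b : ℤ) ≤ b * P.ord γ := le_mul_of_one_le_right (by omega) (by omega)
          by_cases y : P.ord (φ * mon (Fin.append ζ z) v) + cv (Fin.append w w') v ⬝ᵥ D P = 0
          · omega
          · have := hb ⟨P, ⟨hP, y⟩, rfl⟩
            dsimp only at this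
            omega)
    refine ⟨n + b, ?_⟩
    have := Submodule.span_le (p := Submodule.comap (LinearMap.mulRight ℂ
      (mon (Fin.append ζ z) v)⁻¹) (Submodule.span ℂ {x | ∃ (α : Fin c → ℕ) (β : Fin r → ℕ) (η : L),
        Pr T (Ed D (Fin.append ζ z) (Fin.append w w'))
          (v - ∑ j, β j • Pi.single (Fin.natAdd k₀ j) 1) η ∧ x = (∏ i, τ i ^ α i) * η})).2 (by
      rintro _ ⟨α, β, θ, hθ, rfl⟩
      have z0 : ∀ j, z j ^ β j ≠ 0 := fun j => pow_ne_zero _ (hz j).2.1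
      have z1 := Finset.prod_ne_zero_iff.2 fun j (_ : j ∈ Finset.univ) => z0 j
      refine Submodule.subset_span ⟨α, β, (∏ j, z j ^ β j) * θ * (mon (Fin.append ζ z) v)⁻¹,
        ⟨mul_ne_zero (mul_ne_zero z1 hθ.1) (inv_ne_zero (m0 v)), fun P hP => ?_⟩, by
          simp [mul_assoc]⟩
      have h1 := hθ.2 P hP
      rw [sub_dotProduct, cv_dot w'] at h1
      rw [Pl.ord_mul _ (mul_ne_zero z1 hθ.1) (inv_ne_zero (m0 v)), Pl.ord_mul _ z1 hθ.1,
        Pl.ord_inv, P.ord_prod _ fun j _ => z0 j, sub_dotProduct, ed_dot ξ0]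
      simp only [sum_dotProduct, smul_dotProduct, single_dotProduct, one_mul, Ed,
        Fin.append_right, Pl.ord_pow]
      simp only [nsmul_eq_mul, mul_add, Finset.sum_add_distrib]
      omega) hn
    rwa [Submodule.mem_comap, LinearMap.mulRight_apply, ← mul_assoc, ← mul_assoc, ← pow_add,
      mul_inv_cancel_right₀ (m0 v)] at this
  · obtain ⟨θ, t0, ht⟩ := h i
    exact ⟨θ * mon (Fin.append ζ z) (v i), mul_ne_zero t0 (m0 _), fun P hP => by
      rw [Pl.ord_mul _ t0 (m0 _), add_assoc, ← ed_dot ξ0]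
      exact ht P hP⟩

end Vale.Agent.P283R.Tq
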