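import Vale.Agent.P283.H207.Mink
import Mathlib.LinearAlgebra.Matrix.ToLin
import Mathlib.LinearAlgebra.FreeModule.PID
import Mathlib.GroupTheory.Index

/-!
# P283R, block TQ: a finite group acts on a lattice through a bounded quotient
-/

namespace Vale.Agent.P283R.Tq.M62

open Module

/-- matrices -/
theorem mat {G : Type} [Group G] [Finite G] {k : ℕ} (M : G →* Matrix (Fin k) (Fin k) ℤ) :
    M.ker.index ≤ 3 ^ (k * k) := by
  classical
  let F : G →* Matrix (Fin k) (Fin k) (ZMod 3) :=
    ((Int.castRingHom (ZMod 3)).mapMatrix : Matrix (Fin k) (Fin k) ℤ →+* _).toMonoidHom.comp M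
  have h1 : F.toHomUnits.ker ≤ M.ker := by
    intro g hg
    have h3 : F g = 1 := by
      have := congrArg Units.val (MonoidHom.mem_ker.1 hg)
      simpa using this
    rw [MonoidHom.mem_ker]
    refine P283.H207.Mink.minkowski _ ?_ (Nat.card G) Nat.card_pos ?_
    · have h5 : ∀ i j, (3 : ℤ) ∣ M g i j - (1 : Matrix (Fin k) (Fin k) ℤ) i j := by
        intro i j
        have h6 : ((M g i j : ℤ) : ZMod 3) = if i = j then 1 else 0 := by
          have h7 : F g i j = (1 : Matrix (Fin k) (Fin k) (ZMod 3)) i j := by rw [h3]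
          rw [Matrix.one_apply] at h7
          exact h7
        have h8 : ((M g i j - (1 : Matrix (Fin k) (Fin k) ℤ) i j : ℤ) : ZMod 3) = 0 := by
          rw [Int.cast_sub, h6, Matrix.one_apply]
          split_ifs <;> simp
        exact (ZMod.intCast_zmod_eq_zero_iff_dvd _ 3).1 h8
      choose N hN using h5
      refine ⟨Matrix.of N, ?_⟩
      ext i j
      rw [Matrix.add_apply, Matrix.smul_apply, Matrix.of_apply, smul_eq_mul, ← hN]
      ring
    · rw [← map_pow, pow_card_eq_one', map_one]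
  have h2 : F.toHomUnits.ker.index ≤ 3 ^ (k * k) := by
    rw [Subgroup.index_ker]
    calc Nat.card F.toHomUnits.range ≤ Nat.card (Matrix (Fin k) (Fin k) (ZMod 3)) :=
          Nat.card_le_card_of_injective (fun x => (x.1 : Matrix (Fin k) (Fin k) (ZMod 3)))
            fun x y h => Subtype.ext (Units.ext h)
      _ = 3 ^ (k * k) := by
          change Nat.card (Fin k → Fin k → ZMod 3) = _
          rw [Nat.card_fun, Nat.card_fun, Nat.card_zmod, Nat.card_eq_fintype_card,
            Fintype.card_fin, ← pow_mul]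
  exact (Nat.le_of_dvd (Nat.pos_of_ne_zero Subgroup.index_ne_zero_of_finite)
    (Subgroup.index_dvd_of_le h1)).trans h2

/-- lattices -/
theorem lat {G Λ : Type} [Group G] [Finite G] [AddCommGroup Λ] [Module.Free ℤ Λ]
    [Module.Finite ℤ Λ] {l : ℕ} (hl : finrank ℤ Λ ≤ l) (ρ : G →* Module.End ℤ Λ) :
    ρ.ker.index ≤ 3 ^ (l * l) := by
  classical
  let b := Module.finBasis ℤ Λ
  let M : G →* Matrix (Fin (finrank ℤ Λ)) (Fin (finrank ℤ Λ)) ℤ :=
    (LinearMap.toMatrixAlgEquiv b).toMulEquiv.toMonoidHom.comp ρ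
  have h : M.ker = ρ.ker := by
    ext g
    simp only [MonoidHom.mem_ker, M, MonoidHom.comp_apply]
    exact map_eq_one_iff _ (LinearMap.toMatrixAlgEquiv b).injective
  rw [← h]
  exact (mat M).trans (Nat.pow_le_pow_right (by norm_num) (Nat.mul_le_mul hl hl))

/-- a lattice of integer vectors which is stable under a permutation action -/
theorem perm {G ι : Type} [Group G] [Finite G] [Finite ι] (π : G →* Equiv.Perm ι)
    (Λ : Submodule ℤ (ι → ℤ)) {l : ℕ} (hl : finrank ℤ Λ ≤ l)
    (hs : ∀ g, ∀ v ∈ Λ, (fun i => v (π g i)) ∈ Λ) :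
    ∃ H : Subgroup G, H.Normal ∧ H.index ≤ 3 ^ (l * l) ∧
      ∀ g ∈ H, ∀ v ∈ Λ, ∀ i, v (π g i) = v i := by
  let ρ : G →* Module.End ℤ Λ :=
    { toFun := fun g =>
        { toFun := fun v => ⟨fun i => v.1 (π g⁻¹ i), hs _ _ v.2⟩
          map_add' := fun _ _ => rfl
          map_smul' := fun _ _ => rfl }
      map_one' := by ext v i; simp
      map_mul' := fun g h => by ext v i; simp }
  refine ⟨ρ.ker, inferInstance, lat hl ρ, fun g hg v hv i => ?_⟩
  have h1 : ρ g⁻¹ = 1 := MonoidHom.mem_ker.1 (inv_mem hg)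
  have h2 := congrFun (congrArg Subtype.val (LinearMap.congr_fun h1 ⟨v, hv⟩)) i
  have h3 : v (π g⁻¹⁻¹ i) = v i := h2
  rwa [inv_inv] at h3

end Vale.Agent.P283R.Tq.M62
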