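import Vale.Agent.P283R.Tq.St
import Vale.Agent.P283R.Tq.Mk62

/-!
# P283R, block TQ: the row MINK
-/

namespace Vale.Agent.P283R.Tq

theorem mink93 : MINK := fun r => ⟨3 ^ (r * r), fun G Ξ _ _ _ _ Λ hl hs =>
  let ⟨H, _, a, b⟩ := M62.perm (MulAction.toPermHom G Ξ) Λ hl hs
  ⟨H, a, b⟩⟩

end Vale.Agent.P283R.Tq
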