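import Vale.Agent.P283R.Tq.St

/-!
# P283R, block TQ: the rank of the principal combinations, norms of sections
-/

open Set

noncomputable section

namespace Vale.Agent.P283R.Tq

open Vale.Agent.P287D Vale.Agent.P283M Vale.Agent.P283R.Cx Vale.Agent.P297Z

/-- **RKR** -/
theorem rkr11 : RKR := by
  classical
  intro lam d l L _ _ k N T D s a A m J h k₀ ρ w b v hb hv hp
  obtain ⟨h1, h2⟩ := lam d l L k N T D s a A m J h
  let W := Fin.append w (a ∘ b)
  let χ : (Fin (k₀ + J.card) → ℤ) × ({j // j ∉ J} → ℤ) →ₗ[ℤ] (Fin k → ℤ) :=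
    (Fintype.linearCombination ℤ W).coprod (Fintype.linearCombination ℤ fun j => a j.1)
  have sur : LinearMap.range χ = ⊤ := by
    rw [eq_top_iff, ← h2, Submodule.span_le]
    rintro _ ⟨j, rfl⟩
    by_cases hj : j ∈ J
    · obtain ⟨i, rfl⟩ := hb j hj
      exact ⟨(Pi.single (Fin.natAdd k₀ i) 1, 0), by simp [χ, W]⟩
    · exact ⟨(0, Pi.single ⟨j, hj⟩ 1), by simp [χ]⟩
  have ex : ∀ i, ∃ u, χ (v i, u) = 0 := fun i => by
    obtain ⟨θ, hθ⟩ := hp i
    have := (Submodule.span ℤ _).neg_mem (h1 _ θ hθ)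
    rw [image_eq_range, Submodule.mem_span_range_iff_exists_fun] at this
    obtain ⟨c, hc⟩ := this
    refine ⟨c, ?_⟩
    simp only [χ, LinearMap.coprod_apply, Fintype.linearCombination_apply]
    exact add_eq_zero_iff_neg_eq.2 hc.symm
  choose u hu using ex
  have li : LinearIndependent ℤ fun i => (⟨(v i, u i), hu i⟩ : LinearMap.ker χ) :=
    LinearIndependent.of_comp ((LinearMap.fst ℤ _ _).comp (LinearMap.ker χ).subtype) hv
  have c1 := li.fintype_card_le_finrank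
  have c2 := (LinearMap.ker χ).finrank_quotient_add_finrank
  have c3 := J.card_le_univ
  have c4 := h.le
  rw [χ.quotKerEquivRange.finrank_eq, sur, finrank_top] at c2
  simp only [Module.finrank_prod, Module.finrank_fintype_fun_eq_card, Fintype.card_fin,
    Fintype.card_subtype_compl, Fintype.card_coe] at c1 c2 c3
  omega

/-- **DOMR** -/
theorem domr11 : DOMR := by
  classical
  intro lam d l L _ _ k N T D s a A m J h H n ζ w g hi hw Z hZ
  have key : ∀ e : Fin k → ℤ, ∃ (v : Fin n → ℤ) (η : L), η ≠ 0 ∧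
      ∀ P ∈ T, e ⬝ᵥ D P = P.ord η + v ⬝ᵥ Ed D ζ w P := fun e => by
    have he : e ∈ Submodule.span ℤ (range a) :=
      (lam d l L k N T D s a A m J h).2 ▸ Submodule.mem_top
    induction he using Submodule.span_induction with
    | mem x hx =>
      obtain ⟨j, rfl⟩ := hx
      by_cases hj : j ∈ J
      · obtain ⟨i, e⟩ := hw j hj
        refine ⟨Pi.single i 1, (ζ i)⁻¹, inv_ne_zero (hi i).1, fun P _ => ?_⟩
        rw [single_one_dotProduct, Pl.ord_inv, ← e, Ed]
        ring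
      · refine ⟨0, (s j)⁻¹, inv_ne_zero (h.un j hj).1, fun P hP => ?_⟩
        have := (h.un j hj).2 P hP
        rw [zero_dotProduct, Pl.ord_inv]
        omega
    | zero => exact ⟨0, 1, one_ne_zero, fun P _ => by simp⟩
    | add x y _ _ hx hy =>
      obtain ⟨v, η, a0, a1⟩ := hx
      obtain ⟨v', η', b0, b1⟩ := hy
      refine ⟨v + v', η * η', mul_ne_zero a0 b0, fun P hP => ?_⟩
      rw [add_dotProduct, add_dotProduct, a1 P hP, b1 P hP, Pl.ord_mul _ a0 b0]
      ring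
    | smul c x _ hx =>
      obtain ⟨v, η, a0, a1⟩ := hx
      refine ⟨c • v, η ^ c, zpow_ne_zero _ a0, fun P hP => ?_⟩
      rw [smul_dotProduct, smul_dotProduct, a1 P hP, Pl.ord_zpow, smul_eq_mul, smul_eq_mul]
      ring
  obtain ⟨θ, e, θ0, hθ⟩ := h.full (fun P => max (Z P) 0)
    (hZ.subset fun P hP => ⟨hP.1, fun z => hP.2 (by simp [z])⟩)
  obtain ⟨v, η, η0, hη⟩ := key e
  have ψ0 := mul_ne_zero θ0 η0
  have hψ : ∀ P ∈ T, P.ord (θ * η) + v ⬝ᵥ Ed D ζ w P = max (Z P) 0 := fun P hP => by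
    rw [hθ P hP, hη P hP, Pl.ord_mul _ θ0 η0, add_assoc]
  have := g.fin
  have := Fintype.ofFinite H
  refine ⟨(Fintype.card H : ℤ) • v, ∏ σ : H, σ.1 (θ * η),
    Finset.prod_ne_zero_iff.2 fun σ _ => (map_ne_zero _).2 ψ0, fun τ hτ => ?_, fun P hP => ?_⟩
  · rw [map_prod]
    exact Fintype.prod_equiv (Equiv.mulLeft (⟨τ, hτ⟩ : H)) _ _ fun σ => rfl
  · have e : P.ord (∏ σ : H, σ.1 (θ * η)) + ((Fintype.card H : ℤ) • v) ⬝ᵥ Ed D ζ w P =
        ∑ σ : H, (P.ord (σ.1 (θ * η)) + v ⬝ᵥ Ed D ζ w P) := by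
      rw [Pl.ord_prod _ _ fun (σ : H) _ => (map_ne_zero σ.1).2 ψ0, Finset.sum_add_distrib,
        smul_dotProduct]
      simp
    have nn : ∀ σ : H, 0 ≤ P.ord (σ.1 (θ * η)) + v ⬝ᵥ Ed D ζ w P := fun σ => by
      obtain ⟨P', -, c⟩ := Cf.Ds.cj σ.1 P
      have e' : Ed D ζ w P' = Ed D ζ w P := funext fun i => (hi i).2 σ σ.2 P hP P' c
      rw [← c, ← e', hψ P' (g.stT σ σ.2 P hP P' c)]
      exact le_max_right _ _
    have le := Finset.single_le_sum (fun σ _ => nn σ) (Finset.mem_univ (1 : H))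
    rw [← e] at le
    have o : P.ord ((1 : H).1 (θ * η)) + v ⬝ᵥ Ed D ζ w P = max (Z P) 0 := hψ P hP
    rw [o] at le
    exact ⟨(le_max_right _ _).trans le, (le_max_left _ _).trans le⟩

end Vale.Agent.P283R.Tq
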