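import Vale.Agent.P283R.Tq.St

/-!
# P283R, block TQ: the first stage from the rows
-/

open Set

noncomputable section

namespace Vale.Agent.P283R.Tq

open Vale.Agent.P287D Vale.Agent.P283M Vale.Agent.P283R.Cx Vale.Agent.P297Z
open Vale.Agent.P283R.Lx (Nz Ie)

namespace S48

variable {K L : Type} [Field K] [Algebra ℂ K] [Field L] [Algebra ℂ L] [Algebra K L] {k n : ℕ}

theorem lies_cj {σ : L ≃ₐ[ℂ] L} {P P' : Pl L} {Q : Pl K} (c : Cj σ P P')
    (f : ∀ x, σ (algebraMap K L x) = algebraMap K L x) (l : Lies (algebraMap K L) P Q) :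
    Lies (algebraMap K L) P' Q := fun x => by
  rcases eq_or_ne x 0 with rfl | x0
  · simp
  · have x1 := (map_ne_zero (algebraMap K L)).2 x0
    have e : P'.ord (algebraMap K L x) = P.ord (algebraMap K L x) := by rw [c, f]
    rw [l x, ← Pl.ord_nonneg_iff _ x1, ← Pl.ord_nonneg_iff _ x1]
    exact e ▸ Iff.rfl

theorem fin_ed {T : Set (Pl L)} {D : Pl L → Fin k → ℤ}
    (h : ∀ (φ : L) e, {P | P ∈ T ∧ P.ord φ + e ⬝ᵥ D P ≠ 0}.Finite) (ζ : Fin n → L)
    (w : Fin n → Fin k → ℤ) (φ : L) (v : Fin n → ℤ) :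
    {P | P ∈ T ∧ P.ord φ + v ⬝ᵥ Ed D ζ w P ≠ 0}.Finite :=
  ((h φ 0).union (finite_iUnion fun i => h (ζ i) (w i))).subset fun P ⟨a, b⟩ => by
    by_contra c
    have c1 : P.ord φ + 0 ⬝ᵥ D P = 0 := not_not.1 fun e => c (.inl ⟨a, e⟩)
    have c2 : Ed D ζ w P = 0 := funext fun i => not_not.1 fun e => c (.inr (mem_iUnion.2 ⟨i, a, e⟩))
    rw [zero_dotProduct] at c1
    exact b (by rw [c2, dotProduct_zero, c1])

theorem Out.mono {d l J J' : ℕ} {T₀ T₁ : Set (Pl K)} {Z : Pl K → Fin k → ℤ}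
    (h : Out d l J T₀ T₁ Z) (le : J ≤ J') : Out d l J' T₀ T₁ Z := by
  obtain ⟨K', i1, i2, i3, i4, k', N', D', s', a', h1, h2, h3⟩ := h
  exact ⟨K', i1, i2, i3, i4, k', N', D', s', a', h1, h2.trans le, h3⟩

end S48

open S48 in
/-- **STGR** -/
theorem stgr48 : STGR := by
  intro act gal eig tau nak rk icx dom trn d l
  classical
  obtain ⟨J₁, gal⟩ := gal d l
  obtain ⟨J₂, eig⟩ := eig d l
  refine ⟨J₂ * J₁, fun L _ _ k N T D s a A m J p K _ _ _ _ T₀ G k₀ Z g qt fz => ?_⟩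
  obtain ⟨G₁, le1, i1, fx⟩ := gal L k N T D s a A m J p G g
  obtain ⟨H, le2, i2, z, hz, spn⟩ := eig L k N T D s a A m J p G₁ (g.mono le1) fx
  have le := le2.trans le1
  have gH := g.mono le
  have stab : Stab G A := fun σ hσ x hx => (p.zero _).2 (by
    simpa using ((act d l L k N T D s a A m J p G g σ hσ).2 0 0 1
      ⟨one_ne_zero, fun P _ _ _ => by simp [Pl.ord_one]⟩ x).1.1 ((p.zero _).1 hx))
  obtain ⟨τ, hτ, fin, hn⟩ := tau L d A m G p.ff p.fg p.max g.fin stab g.stm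
  let b : Fin J.card → Fin N := fun i => J.equivFin.symm i
  have bJ : ∀ i, b i ∈ J := fun i => (J.equivFin.symm i).2
  have hb : ∀ j ∈ J, j ∈ range b := fun j hj => ⟨J.equivFin ⟨j, hj⟩, by simp [b]⟩
  obtain ⟨γ, γa, γn, mo⟩ := nak d l L k N T D s a A m J p _ _ τ z b hb
    (fun i => (hz _ (bJ i)).1) spn (fun i => (hτ i).1) fin hn
  have γf : Fix G γ := fun σ hσ => by
    clear γn mo
    induction γa using Algebra.adjoin_induction with
    | mem x hx => obtain ⟨i, rfl⟩ := hx; exact (hτ i).2 σ hσ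
    | algebraMap c => exact σ.commutes c
    | add x y _ _ hx hy => rw [map_add, hx, hy]
    | mul x y _ _ hx hy => rw [map_mul, hx, hy]
  obtain ⟨γ, rfl⟩ := (qt.fix γ).1 γf
  have fK : ∀ σ ∈ G, ∀ x, σ (algebraMap K L x) = algebraMap K L x := fun σ hσ x =>
    (qt.fix _).2 ⟨x, rfl⟩ σ hσ
  have : FiniteDimensional K L := Pb.fin_of_ff qt.ff p.ff
  let Y : Pl L → Fin k₀ → ℤ := fun P =>
    if h : ∃ Q, Lies (algebraMap K L) P Q then Z h.choose else 0
  have hY : ∀ P Q, Lies (algebraMap K L) P Q → Y P = Z Q := fun P Q l => by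
    have h : ∃ Q, Lies (algebraMap K L) P Q := ⟨Q, l⟩
    simp only [Y, dif_pos h, h.choose_spec.uniq l]
  have fu := fun i => p.full (fun P => Y P i) (((fz i).biUnion fun Q _ =>
    Pb.fin_above (K' := L) (Q := Q)).subset fun P ⟨c, e⟩ => by
      obtain ⟨Q, c1, c2⟩ := (qt.lies P).1 c
      exact mem_biUnion (x := Q) ⟨c1, hY P Q c2 ▸ e⟩ c2)
  choose ζ w ζ0 hζ using fu
  have iζ : ∀ i, Inv T D H (w i) (ζ i) := fun i => ⟨ζ0 i, fun σ hσ P c P' e => by
    obtain ⟨Q, -, c2⟩ := (qt.lies P).1 c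
    rw [← hζ i P c, ← hζ i P' (gH.stT σ hσ P c P' e), hY P Q c2,
      hY P' Q (lies_cj e (fK σ (le hσ)) c2)]⟩
  have ia : ∀ i, Inv T D H (Fin.append w (a ∘ b) i) (Fin.append ζ (z ∘ b) i) := fun i => by
    induction i using Fin.addCases with
    | left i => simpa using iζ i
    | right i => simpa using (hz _ (bJ i)).2
  have γ0 : algebraMap K L γ ≠ 0 := fun e => γn.2 (by
    have : (⟨_, γn.1⟩ : A) = 0 := Subtype.ext e
    exact this ▸ m.zero_mem)
  obtain ⟨N', s', a', lN, ic⟩ := icx d l L k N T D s a A m J p H _ k₀ _ (k₀ + l) _ _ ζ w (z ∘ b)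
    (a ∘ b) gH (fun i => ⟨(τ i).2, fun σ hσ => (hτ i).2 σ (le hσ)⟩) γn.1 γ0
    (fun σ hσ => γf σ (le hσ)) iζ (fun j => ⟨(hz _ (bJ j)).1.1, (hz _ (bJ j)).2⟩) mo
    fun n v li h => rk d l L k N T D s a A m J p k₀ n w b v hb li h
  have dm := dom d l L k N T D s a A m J p H _ _ _ gH ia fun j hj => by
    obtain ⟨i, rfl⟩ := hb j hj
    exact ⟨Fin.natAdd k₀ i, by simp⟩
  refine ⟨γ, γn, Out.mono (trn K L d k₀ J.card N' (d + l + 3) T₀ T G H Z _ γ s' a' p.ff qt g.fin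
    le (fun σ hσ P c P' e => funext fun i => (ia i).2 σ hσ P c P' e) (fun Q c P e i => ?_)
    (fin_ed p.cox.fin _ _) ic dm (by omega)) ?_⟩
  · simp only [Fin.append_left]
    rw [← hζ i P ((qt.lies P).2 ⟨Q, c, e⟩), hY P Q e]
  · rw [← Subgroup.relIndex_mul_relIndex H G₁ G le2 le1]
    exact Nat.mul_le_mul i2 i1

end Vale.Agent.P283R.Tq
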