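import Vale.Agent.P283R.Tq.St
import Vale.Agent.P283R.Tp.Fre
import Vale.Agent.P283R.Lx.Noe

/-!
# P283R, block TQ: invariant parameters
-/

open Set

noncomputable section

namespace Vale.Agent.P283R.Tq

open Vale.Agent.P287D Vale.Agent.P283R.Fre MulSemiringAction
open Vale.Agent.P283R.Lx (Nz)

namespace T27

variable {L : Type} [Field L] [Algebra ℂ L]

/-- the invariants -/
def iv (A : Subalgebra ℂ L) (G : Subgroup (L ≃ₐ[ℂ] L)) : Subalgebra ℂ A where
  carrier := {x | Fix G (x : L)}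
  mul_mem' := fun {a b} ha hb σ h => by rw [MulMemClass.coe_mul, map_mul, ha σ h, hb σ h]
  add_mem' := fun {a b} ha hb σ h => by rw [AddMemClass.coe_add, map_add, ha σ h, hb σ h]
  algebraMap_mem' := fun c σ _ => σ.commutes c

theorem int {A : Subalgebra ℂ L} {G : Subgroup (L ≃ₐ[ℂ] L)} (fin : Finite G) (stab : Stab G A) :
    Algebra.IsIntegral (iv A G) A := ⟨fun s => by
  have := Fintype.ofFinite G
  refine (isIntegral_algHom_iff (IsScalarTower.toAlgHom (iv A G) A L) Subtype.val_injective).1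
    (int_of (monic_charpoly G (s : L)) (fun i => ?_) (eval_charpoly G _))
  exact ⟨⟨⟨_, coeff_mem A.toSubring (fun σ => stab σ σ.2 _ s.2) i⟩, coeff_fix (s : L) i⟩, rfl⟩⟩

/-- the norm -/
theorem nrm {A : Subalgebra ℂ L} {G : Subgroup (L ≃ₐ[ℂ] L)} (fin : Finite G) (stab : Stab G A)
    {m : Ideal A} (hm : m.IsPrime) (nz : ∀ σ ∈ G, ∀ x, Nz A m x → Nz A m (σ x)) {y : A}
    (hy : y ∉ m) : ∃ b ∈ iv A G, y ∣ b ∧ b ∉ m := by
  classical
  have := Fintype.ofFinite G
  refine ⟨∏ σ : G, ⟨σ.1 y, stab σ σ.2 _ y.2⟩, fun τ h => ?_,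
    Finset.dvd_prod_of_mem _ (Finset.mem_univ (1 : G)), fun h => ?_⟩
  · rw [SubmonoidClass.coe_finsetProd, map_prod]
    exact Fintype.prod_equiv (Equiv.mulLeft (⟨τ, h⟩ : G)) _ _ fun _ => rfl
  · obtain ⟨σ, -, k⟩ := Ideal.IsPrime.prod_mem_iff.1 h
    exact (nz σ σ.2 y ⟨y.2, hy⟩).2 k

end T27

open T27 in
theorem tau27 : TAU := fun L _ _ d A m G hL fg hm fin stab nz => by
  have ft : Algebra.FiniteType ℂ A := (Subalgebra.fg_iff_finiteType A).1 fg
  have hi := int fin stab
  have : Algebra.FiniteType (iv A G) A := .of_restrictScalars_finiteType ℂ _ A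
  have fi : Module.Finite (iv A G) A := Algebra.IsIntegral.finite
  have : Algebra.FiniteType ℂ (iv A G) :=
    ⟨fg_of_fg_of_fg ℂ (iv A G) A ft.out fi.fg_top Subtype.val_injective⟩
  have mx := Ideal.isMaximal_comap_of_isIntegral_of_isMaximal (R := iv A G) m
  obtain ⟨τ, t1, t2, n, hn⟩ := Lx.N84.core d _ mx fun s z hz => by
    have k := ((hz.map' (f := (iv A G).val) Subtype.val_injective).map' (f := A.val)
      Subtype.val_injective).cardinalMk_le_trdeg
    rw [Bm.trdeg_eq hL, Cardinal.mk_fin] at k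
    exact_mod_cast k
  refine ⟨fun i => τ i, fun i => ⟨t1 i, (τ i).2⟩, ?_, ?_⟩
  · have : Algebra.FiniteType (Algebra.adjoin ℂ (range fun i => (τ i : A))) A :=
      .of_restrictScalars_finiteType ℂ _ _
    have h1 : Algebra.IsIntegral (Algebra.adjoin ℂ (range τ)) A := .trans (iv A G)
    have : Algebra.IsIntegral (Algebra.adjoin ℂ (range fun i => (τ i : A))) A := ⟨fun a =>
      (h1.isIntegral a).map_of_comp_eq ((iv A G).val.toRingHom.restrict
        (Algebra.adjoin ℂ (range τ)) (Algebra.adjoin ℂ (range fun i => (τ i : A))) fun x hx => by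
          have := Subalgebra.mem_map.2 ⟨x, hx, (rfl : (iv A G).val x = _)⟩
          rwa [AlgHom.map_adjoin, ← range_comp] at this) (RingHom.id A) rfl⟩
    exact Algebra.IsIntegral.finite
  · have : IsNoetherianRing A := Algebra.FiniteType.isNoetherianRing ℂ A
    refine Ideal.exists_pow_le_of_le_radical_of_fg ?_ (IsNoetherian.noetherian m)
    rw [Ideal.radical_eq_sInf]
    refine le_sInf fun p ⟨le, hp⟩ => ?_
    have e : m.comap (algebraMap (iv A G) A) = p.comap (algebraMap (iv A G) A) :=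
      mx.eq_of_le (Ideal.comap_ne_top _ hp.ne_top) (Ideal.IsPrime.le_of_pow_le (hn.trans
        (Ideal.span_le.2 (range_subset_iff.2 fun i => le (Ideal.subset_span ⟨i, rfl⟩)))))
    have pm := Ideal.isMaximal_of_isIntegral_of_isMaximal_comap (R := iv A G) p (e ▸ mx)
    refine (pm.eq_of_le hm.ne_top fun y hy => by_contra fun k => ?_).ge
    obtain ⟨b, hb, ⟨c, hc⟩, nb⟩ := nrm fin stab hm.isPrime nz k
    exact nb (e.ge (show (⟨b, hb⟩ : iv A G) ∈ p.comap (algebraMap (iv A G) A) from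
      hc ▸ p.mul_mem_right c hy))

end Vale.Agent.P283R.Tq
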