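import Vale.Agent.P283R.Tq.St

/-!
# P283R, block TQ: the scheme side
-/

open Set CategoryTheory AlgebraicGeometry

noncomputable section

namespace Vale.Agent.P283R.Tq

open Vale.Agent.P289 (Pt St toRat DForm dimension)
open Vale.Agent.P287D Vale.Agent.P283M.Stm Vale.Agent.P283M.Stm.Var Vale.Agent.P297Z
open Vale.Agent.P283M Vale.Agent.P283M.Br Vale.Agent.P283R.Sch Vale.Agent.P283R.Cox
open Vale.Agent.P283R.Gl (TorY pq pq_is pq_ord)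
open Vale.Agent.P283R.To (mon)

theorem bas48 {X Z : Var} {f : X.X ⟶ Z.X} {V : Z.X.Opens} (hf : Contraction f)
    (hV : IsAffineOpen V) {x₀ : Pt X.X} (h₀ : x₀ ∈ f ⁻¹ᵁ V) {g : X.K}
    (hg : ∀ x ∈ f ⁻¹ᵁ V, RegAt g x) : ∃ W : Z.X.Opens, IsAffineOpen W ∧ W ≤ V ∧
      ∀ x : Pt X.X, x ∈ f ⁻¹ᵁ V → (x ∈ f ⁻¹ᵁ W ↔ UnAt g x) := by
  have : Nonempty ↑(f ⁻¹ᵁ V) := ⟨⟨x₀, h₀⟩⟩
  have := hf.2.2.2 V
  obtain ⟨b, rfl⟩ := Am.exists_pl f V (g := g) (Am.mem_reg.2 hg)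
  exact ⟨Z.X.basicOpen b, hV.basicOpen _, Z.X.basicOpen_le _,
    fun x hx => (Am.un_pl (f := f) (V := V) hx b).symm⟩

theorem core48 (fc : FC) (stg : STG) (torf : TORF) (quo : QUO) (n q : ℕ) {ε : ℝ} (q0 : 0 < q)
    (hε : 0 < ε) : ∃ M : ℕ, 1 ≤ M ∧ ∀ (X Y Z : Var) (f : X.X ⟶ Z.X) (ω : DForm ℂ X.K (n + 1))
      (B : X.QDiv) (z : Pt Z.X) (π : Y.X ⟶ X.X) (V : Z.X.Opens) (y : Fin (n + 1) → Y.K)
      (ι : X.K →+* Y.K) (G : Subgroup (Y.K ≃ₐ[ℂ] Y.K)), dimension X.str = (n + 1 : ℕ) →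
      ω.Nonzero → Pair (ε ≤ ·) ⊤ ω B → Contraction f → IsClosed ({z} : Set (Pt Z.X)) →
      (∀ E, ∃ m : ℤ, q * B E = m) → FanoType f ω → NefOver f (-logCan ω B) → IsFinite π →
      Surjective π → π ≫ X.str = Y.str → Et.Pe π ι → Finite G →
      (∀ g, Fix G g ↔ ∃ a, ι a = g) →
      (∀ E : Y.PrimeDiv, ∃ y : X.PrimeDiv, E.1.map π = y.1 ∧ ∀ a, ord (ι a) E = ord a y) →
      IsAffineOpen V → z ∈ V → TorY (π ⁻¹ᵁ (f ⁻¹ᵁ V)) y →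
      (∀ v ≠ 0, (∀ x ∈ π ⁻¹ᵁ (f ⁻¹ᵁ V), RegAt (mon y v) x) → ∀ x : Pt Y.X,
        (x.map π).map f = z → ¬ RegAt (mon y (-v)) x) → HasKltComplement f ω B M z := by
  classical
  obtain ⟨J, stg⟩ := stg (n + 1) (n + 1 + 1)
  obtain ⟨M, M1, fc⟩ := fc (n + 1 + (n + 1 + 1) + 3) J n q ε q0 hε
  refine ⟨M, M1, fun X Y Z f ω B z π V y ι G hdim hω hB hf hz hq hF hn h1 h2 h3 pe h4 h5 h6 hV zV
    ty hv => ?_⟩
  have hK := ffd X _ hdim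
  let _ := ι.toAlgebra
  obtain ⟨tw, hL, qt, sT, tr⟩ := quo X Y _ π ι G (f ⁻¹ᵁ V) hK h1 h2 h3 pe h4 h5 h6
  obtain ⟨x₀, e₀⟩ : ∃ x : Pt Y.X, (x.map π).map f = z := by
    obtain ⟨x₁, e₁⟩ := hf.2.2.1.surj z
    obtain ⟨x₀, rfl⟩ := h2.surj x₁
    exact ⟨x₀, e₁⟩
  have iV : ∀ x : Pt Y.X, (x.map π).map f = z → x ∈ π ⁻¹ᵁ (f ⁻¹ᵁ V) := fun x hx =>
    show (x.map π).map f ∈ V from hx ▸ zV
  obtain ⟨k, N, D, s, a, A, m, I, pd, hA, hN⟩ :=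
    torf Y _ _ y {x | (x.map π).map f = z} hL ty ⟨x₀, e₀⟩ iV hv
  have gp : Gp (Pw (π ⁻¹ᵁ (f ⁻¹ᵁ V))) A m G := ⟨h4, sT, fun σ hσ g hg => by
    obtain ⟨x', e', w⟩ := tr σ hσ x₀
    refine (hN x₀ e₀ _).2 ⟨(hA _).2 fun x hx => ?_,
      (w g).2 ((hN x' (show (x'.map π).map f = z from e' ▸ e₀) g).1 hg).2⟩
    obtain ⟨x'', e'', w'⟩ := tr σ hσ x
    exact (w' g).1 ((hA g).1 hg.1 x'' (show x''.map π ∈ f ⁻¹ᵁ V from e'' ▸ hx))⟩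
  obtain ⟨j, j0, fr⟩ := frm X _ hK ω hω
  choose c hc using hq
  let D₀ : X.PrimeDiv →₀ ℤ := Finsupp.ofSupportFinite _ (P283R.Br.form_fin hK fr)
  let D₁ : X.PrimeDiv →₀ ℤ := Finsupp.ofSupportFinite c (B.support.finite_toSet.subset fun E e =>
    Finsupp.mem_support_iff.2 fun z => e (by simpa [z] using (hc E).symm))
  have d0 : ∀ E, D₀ E = formOrd ω (RingEquiv.refl X.K) E := fun _ => rfl
  have d1 : ∀ E, D₁ E = c E := fun _ => rfl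
  let D' : Fin 2 → X.PrimeDiv →₀ ℤ := ![D₀, D₁]
  have o : ∀ E : X.PrimeDiv, ord 1 E = 0 := fun E => (pq_ord E 1).trans (Pl.ord_one _)
  have k2 : ∀ W, InSpan W D' (logCan ω 0) := fun W => ⟨![1, 0], 1, one_ne_zero, fun E _ => by
    rw [o, logCan]
    simp [D', d0]⟩
  have k3 : ∀ W, InSpan W D' fun E => q * logCan ω B E := fun W =>
    ⟨![q, 1], 1, one_ne_zero, fun E _ => by
      rw [o]
      simp [D', d0, d1, logCan, mul_add, hc]⟩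
  obtain ⟨γ, hγ, out⟩ := stg Y.K k N _ D s a A m I pd X.K (Pw (f ⁻¹ᵁ V)) G 2
    (fun P i => Cox.up (D' i) P) gp qt fun i =>
      ((D' i).support.finite_toSet.image pq).subset fun P ⟨⟨E, _, e⟩, w⟩ =>
        ⟨E, Finsupp.mem_support_iff.2 (by rwa [← e, up_eq _ (pq_is E).dom] at w), e⟩
  have γ0 : γ ≠ 0 := fun g0 => hγ.2 (by
    subst g0
    exact (Subtype.ext (map_zero _) : (⟨_, hγ.1⟩ : A) = 0) ▸ m.zero_mem)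
  have rg : ∀ x ∈ f ⁻¹ᵁ V, RegAt γ x := fun x hx => har X γ x fun E hE => by
    obtain ⟨P, l⟩ := Pb.up_alg hL (pq E)
    obtain ⟨E', c', rfl⟩ := (qt.lies P).2 ⟨_, ⟨E, hE.mem_open (f ⁻¹ᵁ V).isOpen hx, rfl⟩, l⟩
    rw [pq_ord]
    exact (Pl.ord_nonneg_iff _ γ0).2 ((l γ).2 ((pq_is E' _).2 ((hA _).1 hγ.1 _ c')))
  obtain ⟨W, hW, le, bw⟩ := bas48 hf hV (iV x₀ e₀) rg
  have zW : z ∈ W := e₀ ▸ (bw _ (iV x₀ e₀)).2 ((pe.un (rg _ (iV x₀ e₀))).1 ((hN x₀ e₀ _).1 hγ).2)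
  obtain ⟨u, bs⟩ := basV hf hz hW zW
  obtain ⟨Λ, Γ, Γ', dt, on, b, b', nf, e⟩ := dataW hK hω hB hf hF bs
  obtain ⟨N', g1⟩ := schU Cx.ut hdim hω hf hF hz hW zW D'
  obtain ⟨s₁, a₁, π₁, ci⟩ := cg_of bs on g1
  have s1 : Cox.Sp n u Λ _ (cn X.K (n + 1)) := sp_of bs on (k2 _) j0 fun P E _ dm => by
    rw [← fr X _ E P (is_of_dom dm) (ord_eq dm), logCan]
    simp
  have s2 : Cox.Sp n u Λ _ ((q : ℝ) • Γ) :=
    sp_of bs on (k3 _) (pow_ne_zero q j0) fun P E c dm => by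
      have h4 := b' P E c dm
      have h5 := fr X _ E P (is_of_dom dm) (ord_eq dm)
      rw [dsc, Pi.sub_apply] at h4
      rw [logCan, Pl.ord_pow, Pi.smul_apply, smul_eq_mul]
      push_cast
      rw [h5]
      linear_combination q * h4
  have s3 : ∀ P, Ov u P → On n Λ P → dsc (n + 1) Γ P ≤ 0 :=
    (all_iff bs on (p := fun E => 0 ≤ B E) fun P E c dm => by
      rw [b' P E c dm, neg_nonpos, Rat.cast_nonneg]).1 fun E _ => hB.1 E trivial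
  obtain ⟨s₂, a₂, π₂, h, s0⟩ := Cx.Gn.shift ci
  have eT : Cx.Tt n u Λ = {P ∈ Pw (f ⁻¹ᵁ V) | P.ord γ = 0} := Set.ext fun P => by
    constructor
    · intro t
      obtain ⟨x, hx, dm⟩ := bs.ctr P.ring P.con t.1
      obtain ⟨E, rfl⟩ : ∃ E : X.PrimeDiv, E.1 = x := ⟨⟨x, (on P x hx dm).1 t.2⟩, rfl⟩
      exact ⟨⟨E, le hx, P283R.Br.pl_eq (pq_is E) dm⟩,
        (Lx.un_ord dm γ0).1 ((bw _ (le hx)).1 hx)⟩
    · rintro ⟨⟨E, c, rfl⟩, w⟩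
      have dm := (pq_is E).dom
      have c' := (bw _ c).2 ((Lx.un_ord dm γ0).2 w)
      exact ⟨fun a ha => (dm a (bs.reg a ha _ c')).1, (on _ _ c' dm).2 E.2⟩
  exact e M M1 (fc X.K u Λ Γ Γ' 2 N' _ s₂ a₂ (Pw (f ⁻¹ᵁ V)) dt (Cx.Gn.coxY Cx.big dt h s1 s0)
    (Cx.Ad.eqv s1) (Cx.Ad.eqv s2) (fun P t => s3 P t.1 t.2) b (nf hn)
    (eT ▸ fun _ t => t.1) (eT ▸ out))

end Vale.Agent.P283R.Tq

namespace Vale.Agent.P283R.Tq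

open Sl Sl.Var

/-- **TOP** -/
theorem top48 : TOP := by
  intro fc stg torf quo
  refine (On.den (C := fun q d _ _ f ω B z => (∀ E, ∃ m : ℤ, q * B.coeff E = m) ∧
    FanoType f ω ∧ NefOver f (-logCan ω B) ∧ ToricQuotient f z d) fun q hq => ?_).mono
      fun _ _ _ _ _ _ _ h _ w => ⟨w, h⟩
  intro d hd ε hε R hR
  obtain ⟨n, rfl⟩ : ∃ n, d = n + 1 := ⟨d - 1, by omega⟩
  obtain ⟨M, M1, H⟩ := core48 fc stg torf quo n q hq hε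
  refine ⟨M, M1, fun X Z f ω B z a b c _ s t ⟨w, u1, u2, Y, π, V, y,
    ⟨h1, h2, h3, p, G, pe, ⟨h4, h5⟩, h6⟩, hV, zV, hy, ty, hv⟩ => (has_iff f ω B _ z).2 ?_⟩
  exact H X.o Y.o Z.o f ω B z π V y p G a b ((pair_iff _ _ ω B).1 c) s t w
    ((fanoType_iff f ω).1 u1) ((nefOver_iff f _).1 u2) h1 h2 h3 pe h4
    (fun g => ⟨fun e => (h5 g).1 e, fun e => (h5 g).2 e⟩) h6 hV zV
    ⟨hy, fun x hx => let ⟨U, a, b, c, S, e, l⟩ := ty x hx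
      ⟨U, a, b, c, S, e, fun g => Set.ext_iff.1 l g⟩⟩ hv

end Vale.Agent.P283R.Tq
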