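import Vale.Agent.P283R.Tq.St
import Vale.Agent.P283R.H.Hc
import Vale.Agent.P287D.Rm.Ine
import Mathlib.FieldTheory.Galois.IsGaloisGroup

/-!
# P283R, block TQ: the transport to the fixed field
-/

open Set

noncomputable section

namespace Vale.Agent.P283R.Tq

open Vale.Agent.P287D Vale.Agent.P283M Vale.Agent.P283R.Cx
open H.Hc (Kf mem_Kf fix_val ff_fix)

namespace T59

variable {K L : Type} [Field K] [Algebra ℂ K] [Field L] [Algebra ℂ L] [Algebra K L]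

omit [Algebra ℂ K] in
/-- the degree over the fixed field -/
theorem rk {G : Subgroup (L ≃ₐ[ℂ] L)} (h : ∀ φ, Fix G φ ↔ φ ∈ range (algebraMap K L)) :
    Nat.card G = Module.finrank K L := by
  have : IsGaloisGroup G K L :=
    { faithful := inferInstance
      commutes := ⟨fun g a x => by
        rw [Algebra.smul_def, Algebra.smul_def, smul_mul']
        exact congrArg (· * _) ((h _).2 ⟨a, rfl⟩ g g.2)⟩
      isInvariant := ⟨fun x hx => (h x).1 fun σ s => hx ⟨σ, s⟩⟩ }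
  exact IsGaloisGroup.card_eq_finrank G K L

/-- places over one place of the fixed field are conjugate -/
theorem conj {H : Subgroup (L ≃ₐ[ℂ] L)} [Finite H] {P P' : Pl L} {Q : Pl (Kf H)}
    (l : Lies (algebraMap (Kf H) L) P Q) (l' : Lies (algebraMap (Kf H) L) P' Q) :
    ∃ σ ∈ H, Cj σ P P' := by
  obtain ⟨σ, e⟩ := Rm.trans (G := H) (P := P.toPlace) (P' := P'.toPlace) fun f hf m =>
    (l' ⟨f, mem_Kf.2 fun σ s => hf ⟨σ, s⟩⟩).1 ((l ⟨f, mem_Kf.2 fun σ s => hf ⟨σ, s⟩⟩).2 m)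
  exact ⟨σ, σ.2, fun φ => (congrArg (fun R : P297.Place L => R.ord φ) e).symm.trans
    (Rm.ord_mv σ P.toPlace φ)⟩

/-- the sections in a subfield -/
theorem sp_iff {k N : ℕ} (F : IntermediateField ℂ L) (s : Fin N → F) (a : Fin N → Fin k → ℤ)
    (e : Fin k → ℤ) (φ : F) : φ ∈ Sp s a e ↔ (φ : L) ∈ Sp (fun j => (s j : L)) a e := by
  have : Sp (fun j => (s j : L)) a e = (Sp s a e).map F.val.toLinearMap := by
    rw [Sp, Sp, Submodule.map_span, image_image]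
    simp
  rw [this]
  exact ⟨fun h => ⟨φ, h, rfl⟩, fun ⟨ψ, h, x⟩ => (Subtype.ext x : ψ = φ) ▸ h⟩

end T59

open T59 in
/-- **TRN** -/
theorem trn59 : TRN := by
  intro K L _ _ _ _ _ _ d k k' N l T₀ T G H Z E γ s a hL qt fG le inv ext fin ic dm hN
  have fH : Finite H := Finite.of_injective _ (Subgroup.inclusion_injective le)
  let j : K →+* Kf H := (algebraMap K L).codRestrict (Kf H) fun x =>
    mem_Kf.2 fun σ h => (qt.fix _).2 ⟨x, rfl⟩ σ (le h)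
  let _ : Algebra K (Kf H) := j.toAlgebra
  have t1 : IsScalarTower ℂ K (Kf H) := .of_algebraMap_eq fun x =>
    Subtype.ext (IsScalarTower.algebraMap_apply ℂ K L x)
  have t2 : IsScalarTower K (Kf H) L := .of_algebraMap_eq fun _ => rfl
  choose c hc using P283R.H.Hc.up (A := H) hL
  have lc : ∀ {P Q P₀}, Lies (algebraMap (Kf H) L) P Q → Lies (algebraMap K (Kf H)) Q P₀ →
      Lies (algebraMap K L) P P₀ := fun x y => x.comp y
  have un : ∀ {P Q P₀}, P₀ ∈ T₀ → Lies (algebraMap (Kf H) L) P Q →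
      Lies (algebraMap K (Kf H)) Q P₀ → Q.ord (algebraMap K (Kf H) P₀.t) = 1 ∧
        (∀ f : Kf H, P.ord (f : L) = Q.ord f) ∧ (∀ f, P.ord (algebraMap K L f) = P₀.ord f) ∧
        P ∈ T ∧ E (c Q) = E P := fun {P Q P₀} m x y => by
    have u := qt.unr P₀ m P (lc x y)
    have e := x.ord (algebraMap K (Kf H) P₀.t)
    have e1 := (u.symm.trans e).symm
    have pT := (qt.lies P).2 ⟨P₀, m, lc x y⟩
    obtain ⟨σ, hσ, cj⟩ := T59.conj x (hc Q)
    refine ⟨Int.eq_one_of_mul_eq_one_left y.e_pos.le e1, fun f => ?_, fun f => ?_, pT,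
      inv σ hσ P pT _ cj⟩
    · exact (x.ord f).trans (by rw [Int.eq_one_of_mul_eq_one_right x.e_pos.le e1, one_mul])
    · rw [(lc x y).ord, u, one_mul]
  let s' : Fin N → Kf H := fun i => ⟨s i, mem_Kf.2 (ic.fix i)⟩
  have sp : ∀ e (φ : Kf H), φ ∈ Sp s' a e ↔ (φ : L) ∈ Sp s a e := sp_iff (Kf H) s' a
  have sc : ∀ v φ (f : Fix H φ), φ ≠ 0 → (∀ P ∈ T, 0 ≤ P.ord φ + v ⬝ᵥ E P) →
      (⟨φ, mem_Kf.2 f⟩ : Kf H) ∈ Sp s' a v := fun v φ f φ0 h =>
    (sp v _).2 ((ic.sec v φ φ0 f).2 fun P p _ => h P p)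
  refine ⟨Kf H, inferInstance, inferInstance, inferInstance, t1, k', N, fun Q => E (c Q), s', a,
    ff_fix hL, ?_, fun P p Q q => ⟨(un p (hc Q) q).1, ext P p _ (lc (hc Q) q)⟩, hN,
    fun i e => ic.ne i (congrArg Subtype.val e), fun e φ φ0 => ?_, fun φ e => ?_, fun φ => ?_,
    fun e => ?_⟩
  · have h1 := Module.finrank_mul_finrank K (Kf H) L
    have h2 := (H.subgroupOf G).card_mul_index
    rw [← rk qt.fix, ← rk (K := Kf H) (G := H) fun φ =>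
      ⟨fun h => ⟨⟨φ, mem_Kf.2 h⟩, rfl⟩, fun ⟨x, h⟩ => h ▸ fix_val x⟩, ← h2,
      Nat.card_congr (Subgroup.subgroupOfEquivOfLe le).toEquiv, mul_comm] at h1
    exact (Nat.eq_of_mul_eq_mul_left Nat.card_pos h1).le
  · rw [sp, ic.sec e φ (fun x => φ0 (Subtype.ext x)) (fix_val φ)]
    refine ⟨fun h Q ⟨P₀, p, q⟩ => ?_, fun h P p z => ?_⟩
    · obtain ⟨-, u1, u2, u3, -⟩ := un p.1 (hc Q) q
      rw [← u1]
      exact h _ u3 ((u2 γ).trans p.2)
    · obtain ⟨P₀, m, x⟩ := (qt.lies P).1 p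
      obtain ⟨Q, y⟩ := P283R.H.Hc.down (A := H) hL P
      have w : Lies (algebraMap K (Kf H)) Q P₀ := y.of_comp x
      obtain ⟨-, u1, u2, -, u4⟩ := un m y w
      rw [u1, ← u4]
      exact h Q ⟨P₀, ⟨m, (u2 γ).symm.trans z⟩, w⟩
  · refine ((fin φ e).preimage (f := c) fun Q _ Q' _ x => (hc Q).uniq (x ▸ hc Q')).subset ?_
    rintro Q ⟨⟨P₀, p, q⟩, h⟩
    obtain ⟨-, u1, -, u3, -⟩ := un p.1 (hc Q) q
    exact ⟨u3, by rwa [u1]⟩
  · by_cases φ0 : φ = 0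
    · refine ⟨0, 0, zero_mem _, 1, Submodule.subset_span ⟨0, ?_, by simp⟩, one_ne_zero, by simp [φ0]⟩
      exact funext fun i => by simp [Cx.dg]
    have f0 : (φ : L) ≠ 0 := fun x => φ0 (Subtype.ext x)
    obtain ⟨v, ψ, ψ0, fx, h⟩ := dm (fun P => -P.ord (φ : L)) (by simpa using fin φ 0)
    have p0 : (⟨ψ, mem_Kf.2 fx⟩ : Kf H) ≠ 0 := fun x => ψ0 (congrArg Subtype.val x)
    refine ⟨v, _, sc v (φ * ψ) (fun σ x => by rw [map_mul, fix_val φ σ x, fx σ x])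
      (mul_ne_zero f0 ψ0) fun P p => ?_, _, sc v ψ fx ψ0 fun P p => (h P p).1, p0,
      (mul_div_cancel_right₀ φ p0).symm⟩
    have := (h P p).2
    rw [P297Z.Pl.ord_mul _ f0 ψ0]
    omega
  · obtain ⟨v, ψ, ψ0, fx, h⟩ := dm (fun P => -(e ⬝ᵥ E P)) (by simpa using fin 0 e)
    have p0 : (⟨ψ, mem_Kf.2 fx⟩ : Kf H) ≠ 0 := fun x => ψ0 (congrArg Subtype.val x)
    refine ⟨v, _, sc _ ψ fx ψ0 fun P p => ?_, _, sc v ψ fx ψ0 fun P p => (h P p).1, p0, p0⟩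
    have := (h P p).2
    rw [add_dotProduct]
    omega

end Vale.Agent.P283R.Tq
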