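import Vale.Agent.P283R.Tq.Act15
import Vale.Agent.P283R.Tq.Eigr87
import Vale.Agent.P283R.Tq.Fcr55
import Vale.Agent.P283R.Tq.Gal78
import Vale.Agent.P283R.Tq.Icx69
import Vale.Agent.P283R.Tq.Mink93
import Vale.Agent.P283R.Tq.Nak99
import Vale.Agent.P283R.Tq.Quo10
import Vale.Agent.P283R.Tq.Rk11
import Vale.Agent.P283R.Tq.Spn35
import Vale.Agent.P283R.Tq.Stg48
import Vale.Agent.P283R.Tq.Tau27
import Vale.Agent.P283R.Tq.Top48
import Vale.Agent.P283R.Tq.Trn59

/-!
# P283R, block TQ: the first stage holds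
-/

namespace Vale.Agent.P283R.Tq

/-- **STG** -/
theorem stg : STG := stgr48 act15 (galr78 act15 spn35 lam35 mink93) (eigr87 act15 spn35 lam35)
  tau27 (nakr99 spn35) (rkr11 lam35) icx69 (domr11 lam35) trn59

/-- the class from the toric data -/
theorem ont_of (h : TORF) : ONT := top48 fcr55 stg h quo10

end Vale.Agent.P283R.Tq
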