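import Vale.Agent.P283R.Tq.St

/-!
# P283R, block TQ: the action on the sections
-/

open Set

noncomputable section

namespace Vale.Agent.P283R.Tq

open Vale.Agent.P297Z Vale.Agent.P287D Vale.Agent.P283M Vale.Agent.P283R.Cx
open Vale.Agent.P283R.Lx (Ie)
open Vale.Agent.P283R.Lx.K33 (I2)

namespace A15

variable {L : Type} [Field L] [Algebra ℂ L] {d l k N : ℕ} {T : Set (P287D.Pl L)}
  {D : P287D.Pl L → Fin k → ℤ} {s : Fin N → L} {a : Fin N → Fin k → ℤ} {A : Subalgebra ℂ L}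
  {m : Ideal A} {J : Finset (Fin N)} {G : Subgroup (L ≃ₐ[ℂ] L)} {σ : L ≃ₐ[ℂ] L}
  {e e' f f' : Fin k → ℤ} {θ η φ : L} {P P' Q : P287D.Pl L}

theorem ext_ord (h : ∀ φ, P.ord φ = Q.ord φ) : P = Q :=
  Pl.ext' (SetLike.ext fun x => by
    by_cases x0 : x = 0
    · simp [x0]
    · rw [← Pl.ord_nonneg_iff _ x0, ← Pl.ord_nonneg_iff _ x0]
      exact (h x) ▸ Iff.rfl)

theorem ex (σ : L ≃ₐ[ℂ] L) (P : P287D.Pl L) : ∃ P', Cj σ P P' :=
  let ⟨Q, _, h⟩ := Cf.Ds.cj σ P; ⟨Q, h⟩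

theorem cj_inv (h : Cj σ P P') : Cj σ⁻¹ P' P := fun φ => by
  rw [h, AlgEquiv.aut_inv, AlgEquiv.apply_symm_apply]

theorem cj_uniq (h : Cj σ P P') (h' : Cj σ P Q) : P' = Q :=
  ext_ord fun φ => (h φ).trans (h' φ).symm

theorem rel_ex (h : Pd d l T D s a A m J) (g : Gp T A m G) (hσ : σ ∈ G) (e : Fin k → ℤ) :
    ∃ e' θ, Rel T D σ e e' θ := by
  choose c hc using ex σ
  have ci : Function.Injective c := fun P Q h => cj_uniq (cj_inv (hc P)) (h ▸ cj_inv (hc Q))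
  obtain ⟨θ, e', t0, ht⟩ := h.full (fun P => e ⬝ᵥ D (c P))
    (((h.cox.fin 1 e).preimage ci.injOn).subset fun P z =>
      ⟨g.stT σ hσ P z.1 _ (hc P), by simpa using z.2⟩)
  exact ⟨e', θ, t0, fun P hP P' c' => by rw [cj_uniq c' (hc P)]; exact ht P hP⟩

theorem rel_inv (g : Gp T A m G) (hσ : σ ∈ G) (r : Rel T D σ e e' θ) :
    Rel T D σ⁻¹ e' e (σ⁻¹ θ⁻¹) :=
  ⟨by simpa using r.1, fun P hP P' c => by
    have h1 := r.2 P' (g.stT _ (inv_mem hσ) P hP P' c) P (inv_inv σ ▸ cj_inv c)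
    have h2 : P'.ord θ⁻¹ = -P'.ord θ := Pl.ord_inv _ _
    rw [← c, h2, h1]; ring⟩

theorem rel_neg (r : Rel T D σ e e' θ) : Rel T D σ (-e) (-e') θ⁻¹ :=
  ⟨inv_ne_zero r.1, fun P hP P' c => by
    have h2 : P.ord θ⁻¹ = -P.ord θ := Pl.ord_inv _ _
    rw [neg_dotProduct, neg_dotProduct, r.2 P hP P' c, h2]; ring⟩

theorem rel_add (r : Rel T D σ e e' θ) (r' : Rel T D σ f f' η) :
    Rel T D σ (e + f) (e' + f') (θ * η) :=
  ⟨mul_ne_zero r.1 r'.1, fun P hP P' c => by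
    have h2 : P.ord (θ * η) = P.ord θ + P.ord η := Pl.ord_mul _ r.1 r'.1
    rw [add_dotProduct, add_dotProduct, r.2 P hP P' c, r'.2 P hP P' c, h2]; ring⟩

theorem back (σ : L ≃ₐ[ℂ] L) (h : θ ≠ 0) (φ : L) : σ⁻¹ (σ φ * θ) * σ⁻¹ θ⁻¹ = φ := by
  rw [← map_mul, mul_inv_cancel_right₀ h, AlgEquiv.aut_inv, AlgEquiv.symm_apply_apply]

variable (h : Pd d l T D s a A m J) (g : Gp T A m G) (hσ : σ ∈ G) (r : Rel T D σ e e' θ)

include h g hσ r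

theorem sp (hφ : φ ∈ Sp s a e) : σ φ * θ ∈ Sp s a e' := by
  by_cases p0 : φ = 0
  · simp [p0]
  have s0 : σ φ ≠ 0 := by simpa using p0
  refine (h.cox.sec _ _ (mul_ne_zero s0 r.1)).2 fun P hP => ?_
  obtain ⟨P', c⟩ := ex σ P
  have h1 := (h.cox.sec _ _ p0).1 hφ P' (g.stT σ hσ P hP P' c)
  have h2 : P.ord (σ φ * θ) = P.ord (σ φ) + P.ord θ := Pl.ord_mul _ s0 r.1
  rwa [r.2 P hP P' c, c, ← add_assoc, ← h2] at h1

theorem ie (hφ : φ ∈ Ie A m s a e) : σ φ * θ ∈ Ie A m s a e' :=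
  ⟨sp h g hσ r hφ.1, fun ψ x z =>
    hφ.2 _ (sp h g (inv_mem hσ) (rel_inv g hσ (rel_neg r)) x) (by
      have := g.stm _ (inv_mem hσ) _ z
      rwa [mul_assoc, map_mul, mul_comm θ, map_mul, ← inv_inv θ, AlgEquiv.aut_inv,
        AlgEquiv.symm_apply_apply] at this)⟩

theorem i2 (hφ : φ ∈ I2 A m s a e) : σ φ * θ ∈ I2 A m s a e' := by
  refine (Submodule.span_le (p := (I2 A m s a e').comap
    (LinearMap.mulRight ℂ θ ∘ₗ σ.toLinearMap))).2 ?_ hφ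
  rintro _ ⟨f, x, hx, y, hy, rfl⟩
  obtain ⟨f', η, q⟩ := rel_ex h g hσ f
  have q' := rel_add r (rel_neg q)
  rw [← sub_eq_add_neg, ← sub_eq_add_neg] at q'
  refine Submodule.subset_span ⟨f', _, ie h g hσ q hx, _, ie h g hσ q' hy, ?_⟩
  have := q.1
  show σ (x * y) * θ = _
  rw [map_mul]; field_simp

end A15

open A15 in
/-- **ACT** -/
theorem act15 : ACT := by
  intro d l L _ _ k N T D s a A m J h G g σ hσ
  refine ⟨rel_ex h g hσ, fun e e' θ r φ => ?_⟩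
  have r' := rel_inv g hσ r
  have i := inv_mem hσ
  exact ⟨⟨sp h g hσ r, fun z => back σ r.1 φ ▸ sp h g i r' z⟩,
    ⟨ie h g hσ r, fun z => back σ r.1 φ ▸ ie h g i r' z⟩,
    ⟨i2 h g hσ r, fun z => back σ r.1 φ ▸ i2 h g i r' z⟩⟩

end Vale.Agent.P283R.Tq
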