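import Vale.Agent.P283R.Tq.Mk62

/-!
# P283R, block TQ: a subgroup of bounded index fixes the classes of the rays
-/

namespace Vale.Agent.P283R.Tq.M62

open Module Finset

/-- **Gale duality and Minkowski**: `c i` are the classes of the rays, the relations have rank at
most `l` and separate the rays -/
theorem gale {G C ι : Type} [Group G] [Finite G] [AddCommGroup C] [Fintype ι]
    (ρ : G →* AddMonoid.End C) (c : ι → C) {l : ℕ}
    (hl : finrank ℤ (LinearMap.ker (Fintype.linearCombination ℤ c)) ≤ l)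
    (sep : ∀ i j, (∀ m : ι → ℤ, ∑ x, m x • c x = 0 → m i = m j) → i = j)
    (h1 : ∀ g i, ∃ j, ρ g (c i) = c j)
    (h2 : ∀ g i j, ρ g (c i) = c j → (∃ i', i' ≠ i ∧ c i' = c i) → ∃ j', j' ≠ j ∧ c j' = c j) :
    ∃ H : Subgroup G, H.Normal ∧ H.index ≤ 3 ^ (l * l) ∧ ∀ g ∈ H, ∀ i, ρ g (c i) = c i := by
  classical
  let S := Set.range c
  have : Fintype S := Fintype.ofFinite S
  have inv : ∀ g x, ρ g⁻¹ (ρ g x) = x := fun g x => by
    change (ρ g⁻¹ * ρ g) x = x
    rw [← map_mul, inv_mul_cancel, map_one]; rfl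
  have inv' : ∀ g x, ρ g (ρ g⁻¹ x) = x := fun g x => by
    simpa only [inv_inv] using inv g⁻¹ x
  have st : ∀ g x, ρ g x ∈ S ↔ x ∈ S := fun g x =>
    ⟨fun ⟨i, hi⟩ => by
      obtain ⟨j, hj⟩ := h1 g⁻¹ i
      exact ⟨j, by rw [← hj, hi, inv]⟩,
    fun ⟨i, hi⟩ => by
      obtain ⟨j, hj⟩ := h1 g i
      exact ⟨j, by rw [← hj, hi]⟩⟩
  let π : G →* Equiv.Perm S :=
    { toFun := fun g => Equiv.Perm.subtypePerm ⟨ρ g, ρ g⁻¹, inv g, inv' g⟩ (st g)
      map_one' := by ext x; simp
      map_mul' := fun g h => by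
        ext x
        change ρ (g * h) x.1 = ρ g (ρ h x.1)
        rw [map_mul]; rfl }
  have πv : ∀ g x, (π g x).1 = ρ g x.1 := fun _ _ => rfl
  let q : ι → S := fun i => ⟨c i, i, rfl⟩
  let σ : S → ι := fun x => x.2.choose
  have hσ : ∀ x, q (σ x) = x := fun x => Subtype.ext x.2.choose_spec
  have σi : Function.Injective σ := fun x y h => by rw [← hσ x, h, hσ]
  let B : S → Prop := fun x => ∃ i, i ≠ σ x ∧ q i = x
  have hB : ∀ g x, B x → B (π g x) := by
    intro g x ⟨i, hi, e⟩
    obtain ⟨j, hj, e'⟩ := h2 g (σ x) (σ (π g x))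
      (by rw [show c (σ x) = x.1 from congrArg Subtype.val (hσ x),
        show c (σ (π g x)) = (π g x).1 from congrArg Subtype.val (hσ _), πv])
      ⟨i, hi, congrArg Subtype.val (e.trans (hσ x).symm)⟩
    exact ⟨j, hj, (Subtype.ext e' : q j = q (σ (π g x))).trans (hσ _)⟩
  have hB' : ∀ g x, ¬ B x → ¬ B (π g x) := fun g x h k => h (by
    have := hB g⁻¹ _ k
    rwa [← Equiv.Perm.mul_apply, ← map_mul, inv_mul_cancel, map_one, Equiv.Perm.one_apply] at this)
  let Λ : Submodule ℤ (S → ℤ) :=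
    { carrier := {v | ∃ w : S → ℤ, ∑ x, w x • x.1 = 0 ∧ ∀ x, ¬ B x → v x = w x}
      add_mem' := fun ⟨w, a, b⟩ ⟨w', a', b'⟩ => ⟨w + w', by
        simp only [Pi.add_apply, add_smul, sum_add_distrib, a, a', add_zero],
        fun x h => by simp only [Pi.add_apply, b x h, b' x h]⟩
      zero_mem' := ⟨0, by simp, fun _ _ => rfl⟩
      smul_mem' := fun r v ⟨w, a, b⟩ => ⟨r • w, by
        simp only [Pi.smul_apply, smul_eq_mul, mul_smul, ← smul_sum, a, smul_zero],
        fun x h => by simp only [Pi.smul_apply, b x h]⟩ }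
  let M := LinearMap.ker (Fintype.linearCombination ℤ c)
  have hM : ∀ m, m ∈ M ↔ ∑ x, m x • c x = 0 := fun m => by
    simp only [M, LinearMap.mem_ker, Fintype.linearCombination_apply]
  have le : Λ ≤ M.map (LinearMap.funLeft ℤ ℤ σ) := by
    rintro v ⟨w, a, b⟩
    have ex : ∀ x, ∃ i, q i = x ∧ (B x → i ≠ σ x) := fun x => by
      by_cases h : B x
      · obtain ⟨i, hi, e⟩ := h
        exact ⟨i, e, fun _ => hi⟩
      · exact ⟨σ x, hσ x, fun k => absurd k h⟩
    choose τ hτ hτ' using ex
    refine ⟨∑ x, (Pi.single (σ x) (v x) + Pi.single (τ x) (w x - v x)), ?_, ?_⟩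
    · rw [SetLike.mem_coe, LinearMap.mem_ker, map_sum, ← a]
      refine sum_congr rfl fun x _ => ?_
      rw [map_add, Fintype.linearCombination_apply_single, Fintype.linearCombination_apply_single,
        show c (σ x) = x.1 from congrArg Subtype.val (hσ x),
        show c (τ x) = x.1 from congrArg Subtype.val (hτ x), ← add_smul, add_sub_cancel]
    · funext y
      rw [LinearMap.funLeft_apply, Finset.sum_apply, sum_eq_single y]
      · rw [Pi.add_apply, Pi.single_eq_same]
        by_cases h : B y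
        · rw [Pi.single_eq_of_ne (hτ' y h).symm, add_zero]
        · rw [b y h, sub_self, Pi.single_zero, Pi.zero_apply, add_zero]
      · intro x _ hx
        rw [Pi.add_apply, Pi.single_eq_of_ne (fun e => hx (σi e).symm), Pi.single_eq_of_ne
          (fun e => hx (by rw [← hτ x, ← e, hσ])), add_zero]
      · exact fun h => absurd (mem_univ _) h
  have hr : finrank ℤ Λ ≤ l :=
    (Submodule.finrank_mono le).trans ((Submodule.finrank_map_le _ _).trans hl)
  obtain ⟨H, hn, hi, hf⟩ := perm π Λ hr (by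
    rintro g v ⟨w, a, b⟩
    refine ⟨fun x => w (π g x), ?_, fun x h => b _ (hB' g x h)⟩
    apply (show Function.Injective (ρ g) from Function.LeftInverse.injective (inv g))
    rw [map_sum, map_zero, ← a, ← Equiv.sum_comp (π g) fun x => w x • x.1]
    exact sum_congr rfl fun x _ => by rw [map_zsmul, πv])
  refine ⟨H, hn, hi, fun g hg i => ?_⟩
  suffices e : π g (q i) = q i from congrArg Subtype.val e
  by_cases h : B (q i)
  · have := hf g hg (Pi.single (q i) 1) ⟨0, by simp, fun x k =>
      Pi.single_eq_of_ne (fun e : x = q i => k (e ▸ h)) _⟩ (q i)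
    rw [Pi.single_eq_same] at this
    by_contra k
    rw [Pi.single_eq_of_ne k] at this
    exact zero_ne_one this
  · refine σi (sep _ _ fun m hm => ?_)
    let w : S → ℤ := fun x => ∑ j with q j = x, m j
    have one : ∀ x, ¬ B x → w x = m (σ x) := fun x k =>
      sum_eq_single (σ x) (fun j hj e => absurd ⟨j, e, (mem_filter.1 hj).2⟩ k)
        fun e => (e (by simp only [mem_filter, mem_univ, true_and]; exact hσ x)).elim
    have hw : w ∈ Λ := ⟨w, by
      rw [← hm, ← sum_fiberwise univ q fun j => m j • c j]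
      refine sum_congr rfl fun x _ => ?_
      rw [sum_smul]
      exact sum_congr rfl fun j hj => by rw [← (mem_filter.1 hj).2], fun _ _ => rfl⟩
    rw [← one _ h, ← one _ (hB' g _ h)]
    exact hf g hg w hw _

end Vale.Agent.P283R.Tq.M62
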