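import Vale.Agent.P283R.Tq.St
import Vale.Agent.P287D.Rm.Apx

/-!
# P283R, block TQ: the relations separate the generators which are not units
-/

open Set
open Vale.Agent.P297Z.Pl

noncomputable section

namespace Vale.Agent.P283R.Tq

open Vale.Agent.P287D Vale.Agent.P283M Vale.Agent.P283R.Cx

namespace S87

variable {L : Type} [Field L] [Algebra ℂ L] {k N : ℕ} {T : Set (Pl L)}
  {D : Pl L → Fin k → ℤ} {s : Fin N → L} {a : Fin N → Fin k → ℤ}

theorem uni (P : Pl L) (F : Finset (Pl L)) :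
    ∃ u : L, u ≠ 0 ∧ P.ord u = 1 ∧ ∀ Q ∈ F, Q ≠ P → Q.ord u = 0 := by
  classical
  obtain ⟨n, hn⟩ := (F.image fun Q => (Q.ord (P.t - 1)).natAbs).bddAbove
  obtain ⟨e, e0, e1, e2, e3, e4⟩ := Rm.approx P.toPlace ((F.erase P).image Pl.toPlace) (by
    intro h
    obtain ⟨Q, q, w⟩ := Finset.mem_image.1 h
    exact (Finset.mem_erase.1 q).1 (Pl.ext' (congrArg (·.ring) w))) (n + 1)
  have t1 : P.t - 1 ≠ 0 := fun z => by
    have := P.ord_t
    rw [sub_eq_zero.1 z] at this
    simp at this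
  have et := mul_ne_zero e0 P.t_ne
  have o : P.ord (e * P.t) = 1 := by rw [ord_mul _ e0 P.t_ne, e2, P.ord_t, zero_add]
  have b := Rm.ord_one_add_of_pos P.toPlace (x := -(e - 1) / (e * P.t)) (by
    rw [ord_div _ (neg_ne_zero.2 e1) et, ord_neg, o]
    push_cast at e3
    omega)
  have w : 1 + e * (P.t - 1) = e * P.t * (1 + -(e - 1) / (e * P.t)) := by
    rw [mul_add, mul_div_cancel₀ _ et]
    ring
  refine ⟨1 + e * (P.t - 1), w ▸ mul_ne_zero et b.1, by rw [w, ord_mul _ et b.1, o, b.2, add_zero],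
    fun Q q c => (Rm.ord_one_add_of_pos Q.toPlace ?_).2⟩
  have a1 := e4 Q.toPlace (Finset.mem_image_of_mem _ (Finset.mem_erase.2 ⟨c, q⟩))
  have a2 : (Q.ord (P.t - 1)).natAbs ≤ n :=
    hn (Finset.mem_coe.2 (Finset.mem_image_of_mem _ q))
  rw [ord_mul _ e0 t1]
  push_cast at a1
  omega

/-- a function with given orders at finitely many places -/
theorem giv (F : Finset (Pl L)) (n : Pl L → ℤ) : ∃ φ : L, φ ≠ 0 ∧ ∀ P ∈ F, P.ord φ = n P := by
  choose u u0 u1 u2 using fun P => uni P F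
  refine ⟨∏ P ∈ F, u P ^ n P, Finset.prod_ne_zero_iff.2 fun P _ => zpow_ne_zero _ (u0 P),
    fun Q q => ?_⟩
  rw [Q.ord_prod _ fun P _ => zpow_ne_zero _ (u0 P), Finset.sum_eq_single_of_mem Q q
    fun P _ c => by rw [ord_zpow, u2 P Q q c.symm, mul_zero], ord_zpow, u1, mul_one]

theorem dvd {e : Fin k → ℤ} {i : Fin N} {φ : L} (s0 : s i ≠ 0) (h : φ ∈ Sp s a e)
    (H : ∀ c, dg a c = e → 0 < c i) : φ / s i ∈ Sp s a (e - a i) := by
  rw [div_eq_mul_inv]
  refine Lx.K33.span_mul ?_ h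
  rintro _ ⟨c, hc, rfl⟩
  obtain ⟨c', rfl⟩ : ∃ c', c = c' + Pi.single i 1 := ⟨c - Pi.single i 1, funext fun x => by
    by_cases q : x = i
    · have := H c hc
      subst q
      simp only [Pi.add_apply, Pi.sub_apply, Pi.single_eq_same]
      omega
    · simp [q]⟩
  have q : ∏ x, s x ^ (Pi.single i 1 : Fin N → ℕ) x = s i := by
    rw [Finset.prod_eq_single i (fun l _ h => by simp [h]) (by simp), Pi.single_eq_same, pow_one]
  have r : dg a c' = e - a i := by rw [← show _ = e from hc, dg_add, dg_single, add_sub_cancel_right]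
  simp only [Pi.add_apply, pow_add, Finset.prod_mul_distrib, q, mul_inv_cancel_right₀ s0]
  exact r ▸ mon_mem s a c'

theorem ex {e : Fin k → ℤ} {φ : L} (h : φ ∈ Sp s a e) (φ0 : φ ≠ 0) : ∃ c, dg a c = e := by
  by_contra n
  refine φ0 ((Submodule.mem_bot ℂ).1 (Submodule.span_le.2 ?_ h))
  rintro _ ⟨c, hc, rfl⟩
  exact (n ⟨c, hc⟩).elim

end S87

open S87

/-- **SEP** -/
theorem sep87 {L : Type} [Field L] [Algebra ℂ L] {k N : ℕ} {T : Set (Pl L)}
    {D : Pl L → Fin k → ℤ} {s : Fin N → L} {a : Fin N → Fin k → ℤ} (hc : Cox T D s a)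
    {i j : Fin N} (hi : ¬ Pr T D (a i) (s i)) (hj : ¬ Pr T D (a j) (s j)) (ij : i ≠ j) :
    ∃ v : Fin N → ℤ, ∑ x, v x • a x = 0 ∧ v i ≠ v j := by
  classical
  by_contra! H
  have lam : ∀ c c', dg a c = dg a c' → (c i : ℤ) - c j = c' i - c' j := fun c c' h => by
    have := H (fun x => (c x : ℤ) - c' x) (funext fun y => by
      have := congrFun h y
      simp only [dg] at this
      simp [sub_mul, this])
    omega
  have nn : ∀ x, ∀ P ∈ T, 0 ≤ P.ord (s x) + a x ⬝ᵥ D P := fun x =>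
    (hc.sec _ _ (hc.ne x)).1 (Lx.G3.gen_sp s a x)
  let F := ((hc.fin (s i) (a i)).union (hc.fin (s j) (a j))).toFinset
  have FT : ∀ P ∈ F, P ∈ T := fun P p => ((Set.Finite.mem_toFinset _).1 p).elim And.left And.left
  have out : ∀ P ∈ T, P ∉ F → P.ord (s i) + a i ⬝ᵥ D P = 0 ∧ P.ord (s j) + a j ⬝ᵥ D P = 0 :=
    fun P p q => ⟨by_contra fun n => q ((Set.Finite.mem_toFinset _).2 (.inl ⟨p, n⟩)),
      by_contra fun n => q ((Set.Finite.mem_toFinset _).2 (.inr ⟨p, n⟩))⟩
  obtain ⟨φ, φ0, hφ⟩ := giv F fun P => P.ord (s j) + a j ⬝ᵥ D P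
  have dec : ∀ x, (∀ P ∈ T, P ∉ F → P.ord (s x) + a x ⬝ᵥ D P = 0) → ¬ Pr T D (a x) (s x) →
      ∀ e c, c ≠ 0 → ∑ P ∈ F, (P.ord (c / s x) + (e - a x) ⬝ᵥ D P) <
        ∑ P ∈ F, (P.ord c + e ⬝ᵥ D P) := fun x o n e c c0 => by
    obtain ⟨P, p, q⟩ : ∃ P ∈ T, P.ord (s x) + a x ⬝ᵥ D P ≠ 0 := by
      by_contra! w
      exact n ⟨hc.ne x, w⟩
    refine Finset.sum_lt_sum (fun Q r => ?_) ⟨P, by_contra fun w => q (o P p w), ?_⟩
    · have := nn x Q (FT Q r)
      rw [ord_div _ c0 (hc.ne x), sub_dotProduct]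
      omega
    · have := nn x P p
      rw [ord_div _ c0 (hc.ne x), sub_dotProduct]
      omega
  have key : ∀ (n : ℕ) e c, c ≠ 0 → c ∈ Sp s a e → φ * c ∈ Sp s a e →
      ∑ P ∈ F, (P.ord c + e ⬝ᵥ D P) < n → False := by
    intro n
    induction n with
    | zero => exact fun e c c0 h _ l => l.not_ge (Finset.sum_nonneg fun P p =>
        (hc.sec e c c0).1 h P (FT P p))
    | succ n ih =>
      intro e c c0 h h' l
      have b0 := mul_ne_zero φ0 c0
      have step : ∀ x, (∀ P ∈ T, P ∉ F → P.ord (s x) + a x ⬝ᵥ D P = 0) → ¬ Pr T D (a x) (s x) →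
          c / s x ∈ Sp s a (e - a x) → φ * c / s x ∈ Sp s a (e - a x) → False := fun x o m p q =>
        ih _ _ (div_ne_zero c0 (hc.ne x)) p (by rwa [← mul_div_assoc]) (by
          have := dec x o m e c c0
          push_cast at l
          omega)
      obtain ⟨c₀, e₀⟩ := ex h c0
      rcases lt_trichotomy (c₀ i) (c₀ j) with w | w | w
      · have g : ∀ c', dg a c' = e → 0 < c' j := fun c' r => by
          have := lam c' c₀ (r.trans e₀.symm)
          omega
        exact step j (fun P p q => (out P p q).2) hj (dvd (hc.ne j) h g) (dvd (hc.ne j) h' g)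
      · have a1 : φ * c / s j ∈ Sp s a (e - a j) := (hc.sec _ _ (div_ne_zero b0 (hc.ne j))).2
          fun P p => by
            have r1 := (hc.sec e c c0).1 h P p
            have r2 := (hc.sec e _ b0).1 h' P p
            rw [ord_div _ b0 (hc.ne j), sub_dotProduct]
            by_cases q : P ∈ F
            · rw [ord_mul _ φ0 c0, hφ P q]
              omega
            · have := (out P p q).2
              omega
        have a2 := dvd (hc.ne i) a1 fun c' r => by
          have := lam (c' + Pi.single j 1) c₀ (by rw [dg_add, dg_single, r, e₀, sub_add_cancel])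
          simp only [Pi.add_apply, Pi.single_eq_same, Pi.single_eq_of_ne ij] at this
          omega
        have a0 := div_ne_zero (div_ne_zero b0 (hc.ne j)) (hc.ne i)
        refine step i (fun P p q => (out P p q).1) hi
          ((hc.sec _ _ (div_ne_zero c0 (hc.ne i))).2 fun P p => ?_)
          ((hc.sec _ _ (div_ne_zero b0 (hc.ne i))).2 fun P p => ?_)
        · have r1 := (hc.sec e c c0).1 h P p
          have r2 := (hc.sec _ _ a0).1 a2 P p
          rw [ord_div _ (div_ne_zero b0 (hc.ne j)) (hc.ne i), ord_div _ b0 (hc.ne j),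
            ord_mul _ φ0 c0, sub_dotProduct, sub_dotProduct] at r2
          rw [ord_div _ c0 (hc.ne i), sub_dotProduct]
          by_cases q : P ∈ F
          · rw [hφ P q] at r2
            omega
          · have := (out P p q).1
            omega
        · have r1 := nn j P p
          have r2 := (hc.sec _ _ a0).1 a2 P p
          rw [ord_div _ (div_ne_zero b0 (hc.ne j)) (hc.ne i), ord_div _ b0 (hc.ne j),
            sub_dotProduct, sub_dotProduct] at r2
          rw [ord_div _ b0 (hc.ne i), sub_dotProduct]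
          omega
      · have g : ∀ c', dg a c' = e → 0 < c' i := fun c' r => by
          have := lam c' c₀ (r.trans e₀.symm)
          omega
        exact step i (fun P p q => (out P p q).1) hi (dvd (hc.ne i) h g) (dvd (hc.ne i) h' g)
  obtain ⟨e, b, hb, c, h, c0, w⟩ := hc.fr0 φ
  exact key ((∑ P ∈ F, (P.ord c + e ⬝ᵥ D P)).toNat + 1) e c c0 h
    (by rwa [w, div_mul_cancel₀ _ c0]) (by push_cast; omega)

end Vale.Agent.P283R.Tq
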