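import Vale.Agent.P283R.Tq.Top61

/-!
# P283R, block TQ: the scheme side over an abstract front end
-/

open Set CategoryTheory AlgebraicGeometry

noncomputable section

namespace Vale.Agent.P283R.Tq

section

open Vale.Agent.P289 (Pt St toRat DForm dimension)
open Vale.Agent.P287D Vale.Agent.P283M.Stm Vale.Agent.P283M.Stm.Var Vale.Agent.P297Z
open Vale.Agent.P283M Vale.Agent.P283M.Br Vale.Agent.P283R.Sch Vale.Agent.P283R.Cox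
open Vale.Agent.P283R.Gl (pq pq_is pq_ord)
open Vale.Agent.P283R.Lx (Nz)

/-- pointed data on the open set `W` with the fibre `S` -/
def Front (d l : ℕ) {Y : Var} (W : Y.X.Opens) (S : Set (Pt Y.X)) : Prop :=
  ∃ (k N : ℕ) (D : Pl Y.K → Fin k → ℤ) (s : Fin N → Y.K) (a : Fin N → Fin k → ℤ)
    (A : Subalgebra ℂ Y.K) (m : Ideal A) (J : Finset (Fin N)),
    Pd d l (Pw W) D s a A m J ∧ (∀ g, g ∈ A ↔ ∀ x ∈ W, RegAt g x) ∧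
      ∀ x ∈ S, ∀ g, Nz A m g ↔ g ∈ A ∧ UnAt g x

variable {X Y Z : Var} {f : X.X ⟶ Z.X} {z : Pt Z.X} {V : Z.X.Opens}

theorem T61.one' (qu : QUO) {d l J : ℕ}
    (H : ForP d l fun L _ _ _ _ T _ _ _ A m _ =>
      ∀ (K : Type) [Field K] [Algebra ℂ K] [Algebra K L] [IsScalarTower ℂ K L] (T₀ : Set (Pl K))
        (G : Subgroup (L ≃ₐ[ℂ] L)) (k₀ : ℕ) (Z : Pl K → Fin k₀ → ℤ), Gp T A m G → Qt d T₀ T G →
        (∀ i, {P | P ∈ T₀ ∧ Z P i ≠ 0}.Finite) → ∃ γ : K, Nz A m (algebraMap K L γ) ∧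
          Out d (d + l + 3) J T₀ {P ∈ T₀ | P.ord γ = 0} Z)
    (hK : FF X.K d) (hf : Contraction f) (hV : IsAffineOpen V) (zV : z ∈ V) {π : Y.X ⟶ X.X}
    {ι : X.K →+* Y.K} {G : Subgroup (Y.K ≃ₐ[ℂ] Y.K)} (p1 : IsFinite π) (p2 : Surjective π)
    (p3 : π ≫ X.str = Y.str) (p4 : Et.Pe π ι) (p5 : Finite G) (p6 : ∀ g, Fix G g ↔ ∃ a, ι a = g)
    (p7 : ∀ E : Y.PrimeDiv, ∃ y : X.PrimeDiv, E.1.map π = y.1 ∧ ∀ a, ord (ι a) E = ord a y)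
    (tf : FF Y.K d → {x : Pt Y.X | (x.map π).map f = z}.Nonempty →
      (∀ x ∈ {x : Pt Y.X | (x.map π).map f = z}, x ∈ π ⁻¹ᵁ (f ⁻¹ᵁ V)) →
      Front d l (π ⁻¹ᵁ (f ⁻¹ᵁ V)) {x : Pt Y.X | (x.map π).map f = z})
    (D : Fin 2 → X.PrimeDiv →₀ ℤ) :
    ∃ W : Z.X.Opens, IsAffineOpen W ∧ z ∈ W ∧ Pw (f ⁻¹ᵁ W) ⊆ Pw (f ⁻¹ᵁ V) ∧
      Out d (d + l + 3) J (Pw (f ⁻¹ᵁ V)) (Pw (f ⁻¹ᵁ W)) fun P i => Cox.up (D i) P := by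
  let _ := ι.toAlgebra
  obtain ⟨q1, hL, q3, q4, q5⟩ := qu X Y d π ι G (f ⁻¹ᵁ V) hK p1 p2 p3 p4 p5 p6 p7
  obtain ⟨x₁, rfl⟩ := hf.2.2.1.surj z
  obtain ⟨x₀, rfl⟩ := p2.surj x₁
  obtain ⟨k, N, E, s, a, A, m, I, pd, hA, hm⟩ := tf hL ⟨x₀, rfl⟩
    fun x hx => show (x.map π).map f ∈ V from hx ▸ zV
  obtain ⟨γ, hγ, out⟩ := H Y.K k N _ E s a A m I pd X.K (Pw (f ⁻¹ᵁ V)) G 2
    (fun P i => Cox.up (D i) P) ⟨p5, q4, fun σ hσ g hg => by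
      obtain ⟨x', e, r⟩ := q5 σ hσ x₀
      obtain ⟨g1, g2⟩ := (hm x' (congrArg (Pt.map f) e) g).1 hg
      refine (hm x₀ rfl _).2 ⟨(hA _).2 fun x hx => ?_, (r g).2 g2⟩
      obtain ⟨x'', e', r'⟩ := q5 σ hσ x
      exact (r' g).1 ((hA g).1 g1 x'' (show x''.map π ∈ f ⁻¹ᵁ V from e' ▸ hx))⟩ q3 fun i =>
    ((D i).support.finite_toSet.image pq).subset (by
      rintro _ ⟨⟨F, -, rfl⟩, c⟩
      exact ⟨F, Finsupp.mem_support_iff.2 (up_eq _ (pq_is F).dom ▸ c), rfl⟩)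
  obtain ⟨g1, g2⟩ := (hm x₀ rfl _).1 hγ
  have γ0 : γ ≠ 0 := fun e => g2.1 (by rw [e, map_zero])
  have rg : ∀ x ∈ f ⁻¹ᵁ V, RegAt γ x := fun x hx => har X γ x fun F c => by
    obtain ⟨P, l⟩ := Pb.up_alg hL (pq F)
    obtain ⟨F', c', rfl⟩ := (q3.lies P).2 ⟨_, ⟨F, c.mem_open (f ⁻¹ᵁ V).isOpen hx, rfl⟩, l⟩
    rw [pq_ord]
    exact Pl.ord_nonneg_of_mem _ ((l γ).2 ((pq_is F' _).2 ((hA _).1 g1 _ c')))
  obtain ⟨W, hW, xW, le, hu⟩ := T61.nbh hf hV rg (x₀ := π x₀) zV ((p4.un (rg _ zV)).1 g2)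
  refine ⟨W, hW, xW, image_mono fun F c => le c, ?_⟩
  convert out using 1
  refine Set.ext fun P => ⟨?_, ?_⟩
  · rintro ⟨F, c, rfl⟩
    exact ⟨⟨F, le c, rfl⟩, (Lx.un_ord (pq_is F).dom γ0).1 ((hu _ (le c)).1 c)⟩
  · rintro ⟨⟨F, c, rfl⟩, e⟩
    exact ⟨F, (hu _ c).2 ((Lx.un_ord (pq_is F).dom γ0).2 e), rfl⟩

end

open Sl Sl.Var Vale.Agent.P287D in
/-- quotients of varieties with pointed data -/
theorem top_of (fc : FC) (st : STG) (qu : QUO) (l : ℕ → ℕ) : On fun d X Z f ω B z =>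
    FanoType f ω ∧ NefOver f (-logCan ω B) ∧ ∃ (Y : Var) (π : Y.X ⟶ X.X) (V : Z.X.Opens),
      FiniteQuotient π ∧ IsAffineOpen V ∧ z.In V ∧ (FF Y.K d →
        {x : Pt Y.X | x.map (π ≫ f) = z}.Nonempty →
        (∀ x ∈ {x : Pt Y.X | x.map (π ≫ f) = z}, x.In (pre (π ≫ f) V)) →
        Front (Y := Y.o) d (l d) (pre (π ≫ f) V) {x : Pt Y.X | x.map (π ≫ f) = z}) := by
  intro d hd ε hε R hR
  obtain ⟨n, rfl⟩ : ∃ n, d = n + 1 := ⟨d - 1, by omega⟩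
  obtain ⟨J, H⟩ := st (n + 1) (l (n + 1))
  obtain ⟨M, M1, H'⟩ := fc (n + 1 + l (n + 1) + 3) J n (∏ r ∈ R, r.den) ε
    (Finset.prod_pos fun r _ => r.den_pos) hε
  refine ⟨M, M1, fun X Z f ω B z a b c e s u
    ⟨u1, u2, Y, π, V, ⟨p1, p2, p3, ι, G, p4, ⟨p5, p6⟩, p7⟩, hV, zV, y⟩ =>
    (has_iff f ω B M z).2 ?_⟩
  exact T61.two (X := X.o) (Z := Z.o) M1 H' a b ((pair_iff _ _ ω B).1 c) (C3.den e) s
    ((fanoType_iff f ω).1 u1) ((nefOver_iff f _).1 u2) u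
    (T61.one' (X := X.o) (Y := Y.o) (Z := Z.o) qu H (P283M.Br.ffd X.o _ a) s hV zV p1 p2 p3 p4 p5
      p6 p7 y)

end Vale.Agent.P283R.Tq
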