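import Vale.Agent.P283R.Tq.St

/-!
# P283R, block TQ: the action on the sections
-/

open Set

noncomputable section

namespace Vale.Agent.P283R.Tq

open Vale.Agent.P287D Vale.Agent.P283M Vale.Agent.P283R.Cx
open Vale.Agent.P283R.Lx (Nz Ie)
open Vale.Agent.P283R.Lx.K33 (I2)

namespace A4

variable {L : Type} [Field L] [Algebra ℂ L] {k N : ℕ} {T : Set (Pl L)} {D : Pl L → Fin k → ℤ}
  {s : Fin N → L} {a : Fin N → Fin k → ℤ} {A : Subalgebra ℂ L} {m : Ideal A}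
  {G : Subgroup (L ≃ₐ[ℂ] L)} {σ : L ≃ₐ[ℂ] L} {e e' e1 e1' : Fin k → ℤ} {θ θ1 φ : L}
  {P P' Q : Pl L}

theorem ex (σ : L ≃ₐ[ℂ] L) (P : Pl L) : ∃ P', Cj σ P P' :=
  let ⟨P', _, h⟩ := Cf.Ds.cj σ P
  ⟨P', h⟩

theorem eq_ord (h : ∀ φ, P.ord φ = Q.ord φ) : P = Q :=
  Pl.ext' (ValuationSubring.ext _ _ fun x => by
    rcases eq_or_ne x 0 with rfl | x0
    · simp
    · rw [← P.ord_nonneg_iff x0, ← Q.ord_nonneg_iff x0, h])

theorem symm (h : Cj σ⁻¹ P P') : Cj σ P' P := fun φ => by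
  rw [h (σ φ)]
  exact congrArg P.ord (σ.symm_apply_apply φ).symm

theorem inv (g : Gp T A m G) (hσ : σ ∈ G) (h : Rel T D σ e e' θ) :
    Rel T D σ⁻¹ e' e (σ⁻¹ θ)⁻¹ :=
  ⟨inv_ne_zero ((map_ne_zero _).2 h.1), fun P hP P' c => by
    have := h.2 P' (g.stT _ (inv_mem hσ) P hP P' c) P (symm c)
    rw [P.ord_inv, ← c θ]
    omega⟩

theorem sub (h : Rel T D σ e e' θ) (h1 : Rel T D σ e1 e1' θ1) :
    Rel T D σ (e - e1) (e' - e1') (θ / θ1) :=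
  ⟨div_ne_zero h.1 h1.1, fun P hP P' c => by
    rw [sub_dotProduct, sub_dotProduct, P.ord_div h.1 h1.1, h.2 P hP P' c, h1.2 P hP P' c]
    ring⟩

theorem neg (h : Rel T D σ e e' θ) : Rel T D σ (-e) (-e') θ⁻¹ :=
  ⟨inv_ne_zero h.1, fun P hP P' c => by
    rw [neg_dotProduct, neg_dotProduct, P.ord_inv, h.2 P hP P' c]
    ring⟩

theorem sp (c : Cox T D s a) (g : Gp T A m G) (hσ : σ ∈ G) (h : Rel T D σ e e' θ)
    (hφ : φ ∈ Sp s a e) : σ φ * θ ∈ Sp s a e' := by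
  rcases eq_or_ne φ 0 with rfl | φ0
  · simp
  have s0 := (map_ne_zero σ).2 φ0
  refine (c.sec _ _ (mul_ne_zero s0 h.1)).2 fun P hP => ?_
  obtain ⟨P', b⟩ := ex σ P
  have := (c.sec _ _ φ0).1 hφ P' (g.stT σ hσ P hP P' b)
  rw [P.ord_mul s0 h.1, ← b φ]
  have := h.2 P hP P' b
  omega

theorem ie (c : Cox T D s a) (g : Gp T A m G) (hσ : σ ∈ G) (h : Rel T D σ e e' θ)
    (hφ : φ ∈ Ie A m s a e) : σ φ * θ ∈ Ie A m s a e' :=
  ⟨sp c g hσ h hφ.1, fun ψ hψ n => hφ.2 _ (sp c g (inv_mem hσ) (neg (inv g hσ h)) hψ) (by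
    have := g.stm _ (inv_mem hσ) _ n
    rw [map_mul, map_mul, show σ⁻¹ (σ φ) = φ from σ.symm_apply_apply φ] at this
    rwa [inv_inv, mul_comm (σ⁻¹ ψ), ← mul_assoc])⟩

theorem i2 (c : Cox T D s a) (g : Gp T A m G) (hσ : σ ∈ G) (r : ∀ e, ∃ e' θ, Rel T D σ e e' θ)
    (h : Rel T D σ e e' θ) (hφ : φ ∈ I2 A m s a e) : σ φ * θ ∈ I2 A m s a e' :=
  (Submodule.span_le (p := (I2 A m s a e').comap
    ((LinearMap.mulRight ℂ θ).comp σ.toLinearMap))).2 (by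
    rintro _ ⟨e1, x, hx, y, hy, rfl⟩
    obtain ⟨e1', θ1, h1⟩ := r e1
    refine Submodule.subset_span ⟨e1', _, ie c g hσ h1 hx, _, ie c g hσ (sub h h1) hy, ?_⟩
    have := h1.1
    change σ (x * y) * θ = _
    rw [map_mul]
    field_simp) hφ

theorem back (h : θ ≠ 0) (φ : L) : σ⁻¹ (σ φ * θ) * (σ⁻¹ θ)⁻¹ = φ := by
  rw [map_mul, show σ⁻¹ (σ φ) = φ from σ.symm_apply_apply φ,
    mul_inv_cancel_right₀ ((map_ne_zero _).2 h)]

theorem rel {d l : ℕ} {J : Finset (Fin N)} (p : Pd d l T D s a A m J) (g : Gp T A m G)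
    (hσ : σ ∈ G) (e : Fin k → ℤ) : ∃ e' θ, Rel T D σ e e' θ := by
  choose c hc using ex σ
  have inj : Function.Injective c := fun P Q b => eq_ord fun φ => by
    have := hc P (σ.symm φ)
    rw [b, hc Q, σ.apply_symm_apply] at this
    exact this.symm
  obtain ⟨θ, e', θ0, h⟩ := p.full (fun P => e ⬝ᵥ D (c P))
    (((p.cox.fin 1 e).preimage inj.injOn).subset fun P hP =>
      ⟨g.stT σ hσ P hP.1 _ (hc P), by simpa using hP.2⟩)
  exact ⟨e', θ, θ0, fun P hP P' b => by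
    rw [show P' = c P from eq_ord fun φ => (b φ).trans (hc P φ).symm]
    exact h P hP⟩

end A4

open A4 in
/-- **ACT** -/
theorem act4 : ACT := fun _ _ _ _ _ _ _ _ _ _ _ _ _ _ p _ g _ hσ =>
  ⟨rel p g hσ, fun _ _ _ h φ =>
    ⟨⟨sp p.cox g hσ h, fun b => back h.1 φ ▸ sp p.cox g (inv_mem hσ) (inv g hσ h) b⟩,
      ⟨ie p.cox g hσ h, fun b => back h.1 φ ▸ ie p.cox g (inv_mem hσ) (inv g hσ h) b⟩,
      ⟨i2 p.cox g hσ (rel p g hσ) h, fun b => back h.1 φ ▸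
        i2 p.cox g (inv_mem hσ) (rel p g (inv_mem hσ)) (inv g hσ h) b⟩⟩⟩

end Vale.Agent.P283R.Tq
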