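import Vale.Agent.P283R.Tq.Jn48
import Vale.Agent.P283R.Tq.Torf20

/-!
# P283R, block TQ: bounded klt complements for quotients of toric varieties by finite groups
-/

namespace Vale.Agent.P283R.Sl

open Var

/-- **quotients of toric varieties by finite groups** -/
theorem on_tq : On fun d _ _ f ω B z =>
    FanoType f ω ∧ NefOver f (-logCan ω B) ∧ ToricQuotient f z d := Tq.ont_of Tq.torf20

end Vale.Agent.P283R.Sl
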