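import Vale.Agent.P283R.Sl.Tq
import Vale.Agent.P283R.Lx.All
import Vale.Agent.P283R.Mt.Tor
import Vale.Agent.P283R.Bc.On
import Vale.Agent.P283R.Gr.Eig
import Vale.Agent.P283R.Cf.Dsc
import Vale.Agent.P283R.Sl.Mb
import Vale.Agent.P287D.Rm.Gal

/-!
# P283R, block TQ: quotients of toric varieties by finite groups, the statements
-/

open Set CategoryTheory AlgebraicGeometry

noncomputable section

namespace Vale.Agent.P283R.Tq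

open Vale.Agent.P287D Vale.Agent.P283M Vale.Agent.P283R.Cx
open Vale.Agent.P283R.Lx (Nz Ie)
open Vale.Agent.P283R.Lx.K33 (I2)

section defs

variable {K L : Type} [Field K] [Algebra ℂ K] [Field L] [Algebra ℂ L] {d k N n c r : ℕ}

/-- `P'` is the pull back of `P` under `σ` (it exists by `Cf.cj`) -/
def Cj (σ : L ≃ₐ[ℂ] L) (P P' : Pl L) : Prop := ∀ φ, P'.ord φ = P.ord (σ φ)

/-- `θ` is a section of degree `e` without zeros -/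
def Pr (T : Set (Pl L)) (D : Pl L → Fin k → ℤ) (e : Fin k → ℤ) (θ : L) : Prop :=
  θ ≠ 0 ∧ ∀ P ∈ T, P.ord θ + e ⬝ᵥ D P = 0

/-- `φ ↦ σ φ * θ` maps the sections of degree `e` to the sections of degree `e'` -/
def Rel (T : Set (Pl L)) (D : Pl L → Fin k → ℤ) (σ : L ≃ₐ[ℂ] L) (e e' : Fin k → ℤ) (θ : L) :
    Prop :=
  θ ≠ 0 ∧ ∀ P ∈ T, ∀ P', Cj σ P P' → e ⬝ᵥ D P' = P.ord θ + e' ⬝ᵥ D P

/-- the divisor of the rational section `z` of degree `e` is invariant -/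
def Inv (T : Set (Pl L)) (D : Pl L → Fin k → ℤ) (G : Subgroup (L ≃ₐ[ℂ] L)) (e : Fin k → ℤ)
    (z : L) : Prop :=
  z ≠ 0 ∧ ∀ σ ∈ G, ∀ P ∈ T, ∀ P', Cj σ P P' → P'.ord z + e ⬝ᵥ D P' = P.ord z + e ⬝ᵥ D P

/-- the functions `z j`, `j ∈ J`, generate the ideal of the orbit modulo its square -/
def Spn (T : Set (Pl L)) (D : Pl L → Fin k → ℤ) (s : Fin N → L) (a : Fin N → Fin k → ℤ)
    (A : Subalgebra ℂ L) (m : Ideal A) (J : Finset (Fin N)) (z : Fin N → L) : Prop :=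
  ∀ e, ∀ φ ∈ Ie A m s a e, ∃ (I : Finset (Fin N)) (θ : Fin N → L) (γ : Fin N → ℂ), I ⊆ J ∧
    (∀ j ∈ I, Pr T D (e - a j) (θ j)) ∧ φ - ∑ j ∈ I, γ j • (z j * θ j) ∈ I2 A m s a e

/-- pointed data: the generators outside `J` are units, those in `J` vanish on the closed orbit
and are a minimal system; all divisors are in the span; the units are the constants -/
structure Pd (d l : ℕ) (T : Set (Pl L)) (D : Pl L → Fin k → ℤ) (s : Fin N → L)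
    (a : Fin N → Fin k → ℤ) (A : Subalgebra ℂ L) (m : Ideal A) (J : Finset (Fin N)) : Prop where
  ff : FF L d
  le : N ≤ k + l
  cox : Cox T D s a
  zero : ∀ x, x ∈ A ↔ x ∈ Sp s a 0
  fg : A.FG
  max : m.IsMaximal
  un : ∀ j ∉ J, Pr T D (a j) (s j)
  ie : ∀ j ∈ J, s j ∈ Ie A m s a (a j)
  cst : ∀ θ, Pr T D 0 θ → θ ∈ range (algebraMap ℂ L)
  full : ∀ Z : Pl L → ℤ, {P | P ∈ T ∧ Z P ≠ 0}.Finite →
    ∃ (θ : L) (e : Fin k → ℤ), θ ≠ 0 ∧ ∀ P ∈ T, Z P = P.ord θ + e ⬝ᵥ D P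
  min : ∀ (e : Fin k → ℤ) (I : Finset (Fin N)) (θ : Fin N → L) (γ : Fin N → ℂ), I ⊆ J →
    (∀ j ∈ I, Pr T D (e - a j) (θ j)) → ∑ j ∈ I, γ j • (s j * θ j) ∈ I2 A m s a e →
    ∀ j ∈ I, γ j = 0
  sep : ∀ i ∈ J, ∀ j ∈ J, i ≠ j → ∃ v : Fin N → ℤ, ∑ x, v x • a x = 0 ∧ v i ≠ v j

/-- the group -/
structure Gp (T : Set (Pl L)) (A : Subalgebra ℂ L) (m : Ideal A) (G : Subgroup (L ≃ₐ[ℂ] L)) :
    Prop where
  fin : Finite G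
  stT : ∀ σ ∈ G, ∀ P ∈ T, ∀ P', Cj σ P P' → P' ∈ T
  stm : ∀ σ ∈ G, ∀ x, Nz A m x → Nz A m (σ x)

theorem Gp.mono {T : Set (Pl L)} {A : Subalgebra ℂ L} {m : Ideal A}
    {G H : Subgroup (L ≃ₐ[ℂ] L)} (h : Gp T A m G) (le : H ≤ G) : Gp T A m H :=
  have := h.fin
  ⟨Finite.of_injective _ (Subgroup.inclusion_injective le), fun σ a => h.stT σ (le a),
    fun σ a => h.stm σ (le a)⟩

/-- `K` is the fixed field, `T` is the set of the places over `T₀`, no ramification -/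
structure Qt [Algebra K L] (d : ℕ) (T₀ : Set (Pl K)) (T : Set (Pl L))
    (G : Subgroup (L ≃ₐ[ℂ] L)) : Prop where
  ff : FF K d
  fix : ∀ φ, Fix G φ ↔ φ ∈ range (algebraMap K L)
  lies : ∀ P, P ∈ T ↔ ∃ P₀ ∈ T₀, Lies (algebraMap K L) P P₀
  unr : ∀ P₀ ∈ T₀, ∀ P, Lies (algebraMap K L) P P₀ → P.ord (algebraMap K L P₀.t) = 1

variable (L) in
/-- the places over `T` -/
def up [Algebra K L] (T : Set (Pl K)) : Set (Pl L) := {Q | ∃ P ∈ T, Lies (algebraMap K L) Q P}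

/-- the degree in the old grading -/
def cv (w : Fin n → Fin k → ℤ) (v : Fin n → ℤ) : Fin k → ℤ := ∑ i, v i • w i

/-- the divisors of the rational sections `ζ i` of degree `w i` -/
def Ed (D : Pl L → Fin k → ℤ) (ζ : Fin n → L) (w : Fin n → Fin k → ℤ) (P : Pl L) : Fin n → ℤ :=
  fun i => P.ord (ζ i) + w i ⬝ᵥ D P

/-- the span of the monomials in `τ`, `z` and the units -/
def Mo (T : Set (Pl L)) (D : Pl L → Fin k → ℤ) (τ : Fin c → L) (z : Fin r → L)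
    (w : Fin r → Fin k → ℤ) (e : Fin k → ℤ) : Submodule ℂ L :=
  Submodule.span ℂ {x | ∃ (α : Fin c → ℕ) (β : Fin r → ℕ) (θ : L),
    Pr T D (e - cv w fun j => β j) θ ∧ x = (∏ i, τ i ^ α i) * (∏ j, z j ^ β j) * θ}

/-- the invariant sections of the divisors `v · E` over `γ ≠ 0` have the generators `s` -/
structure Ic (T : Set (Pl L)) (E : Pl L → Fin n → ℤ) (H : Subgroup (L ≃ₐ[ℂ] L)) (γ : L)
    (s : Fin N → L) (a : Fin N → Fin n → ℤ) : Prop where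
  ne : ∀ j, s j ≠ 0
  fix : ∀ j, Fix H (s j)
  sec : ∀ v φ, φ ≠ 0 → Fix H φ →
    (φ ∈ Sp s a v ↔ ∀ P ∈ T, P.ord γ = 0 → 0 ≤ P.ord φ + v ⬝ᵥ E P)

/-- there are many invariant sections -/
def Dm (T : Set (Pl L)) (E : Pl L → Fin n → ℤ) (H : Subgroup (L ≃ₐ[ℂ] L)) : Prop :=
  ∀ Z : Pl L → ℤ, {P | P ∈ T ∧ Z P ≠ 0}.Finite → ∃ (v : Fin n → ℤ) (φ : L), φ ≠ 0 ∧ Fix H φ ∧
    ∀ P ∈ T, 0 ≤ P.ord φ + v ⬝ᵥ E P ∧ Z P ≤ P.ord φ + v ⬝ᵥ E P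

/-- data with few generators on an extension of degree at most `J` -/
def Out (d l J : ℕ) (T₀ T₁ : Set (Pl K)) (Z : Pl K → Fin k → ℤ) : Prop :=
  ∃ (K' : Type) (_ : Field K') (_ : Algebra ℂ K') (_ : Algebra K K') (_ : IsScalarTower ℂ K K')
    (k' N' : ℕ) (D' : Pl K' → Fin (k + k') → ℤ) (s' : Fin N' → K')
    (a' : Fin N' → Fin (k + k') → ℤ), FF K' d ∧ Module.finrank K K' ≤ J ∧
    (∀ P ∈ T₀, ∀ Q, Lies (algebraMap K K') Q P → Q.ord (algebraMap K K' P.t) = 1 ∧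
      ∀ i, D' Q (Fin.castAdd k' i) = Z P i) ∧ N' ≤ k + k' + l ∧ Cox (up K' T₁) D' s' a'

end defs

/-- a property of pointed data -/
def ForP (d l : ℕ) (q : ∀ (L : Type) [Field L] [Algebra ℂ L] (k N : ℕ) (_ : Set (Pl L))
    (_ : Pl L → Fin k → ℤ) (_ : Fin N → L) (_ : Fin N → Fin k → ℤ) (A : Subalgebra ℂ L)
    (_ : Ideal A) (_ : Finset (Fin N)), Prop) : Prop :=
  ∀ (L : Type) [Field L] [Algebra ℂ L] (k N : ℕ) (T : Set (Pl L)) (D : Pl L → Fin k → ℤ)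
    (s : Fin N → L) (a : Fin N → Fin k → ℤ) (A : Subalgebra ℂ L) (m : Ideal A)
    (J : Finset (Fin N)), Pd d l T D s a A m J → q L k N T D s a A m J

/-- **ACT**: the action on the sections -/
def ACT : Prop := ∀ d l, ForP d l fun _ _ _ _ _ T D s a A m _ => ∀ G, Gp T A m G → ∀ σ ∈ G,
  (∀ e, ∃ e' θ, Rel T D σ e e' θ) ∧ ∀ e e' θ, Rel T D σ e e' θ → ∀ φ,
    (φ ∈ Sp s a e ↔ σ φ * θ ∈ Sp s a e') ∧ (φ ∈ Ie A m s a e ↔ σ φ * θ ∈ Ie A m s a e') ∧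
    (φ ∈ I2 A m s a e ↔ σ φ * θ ∈ I2 A m s a e')

/-- **SPN**: the generators modulo the ideal of the orbit and modulo its square -/
def SPN : Prop := ∀ d l, ForP d l fun _ _ _ _ _ T D s a A m J => Spn T D s a A m J s ∧
  ∀ e, ∀ φ ∈ Sp s a e, φ ∈ Ie A m s a e ∨
    ∃ θ, ∃ γ : ℂ, Pr T D e θ ∧ φ - γ • θ ∈ Ie A m s a e

/-- **LAM**: the degrees of the units; all degrees -/
def LAM : Prop := ∀ d l, ForP d l fun _ _ _ _ _ T D _ a _ _ J =>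
  (∀ e θ, Pr T D e θ → e ∈ Submodule.span ℤ (a '' {j | j ∉ J})) ∧
    Submodule.span ℤ (range a) = ⊤

/-- **MINK**: the lemma of Minkowski for permutations of coordinates -/
def MINK : Prop := ∀ r : ℕ, ∃ J₀ : ℕ, ∀ (G Ξ : Type) [Group G] [Finite G] [Finite Ξ]
  [MulAction G Ξ] (Λ : Submodule ℤ (Ξ → ℤ)), Module.finrank ℤ Λ ≤ r →
    (∀ g : G, ∀ x ∈ Λ, (fun ξ => x (g • ξ)) ∈ Λ) →
    ∃ H : Subgroup G, H.index ≤ J₀ ∧ ∀ g ∈ H, ∀ x ∈ Λ, ∀ ξ, x (g • ξ) = x ξ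

/-- **GAL**: a subgroup of bounded index fixes the classes -/
def GAL : Prop := ∀ d l, ∃ J₀ : ℕ, ForP d l fun _ _ _ _ _ T D _ _ A m _ => ∀ G, Gp T A m G →
  ∃ H ≤ G, H.relIndex G ≤ J₀ ∧ ∀ σ ∈ H, ∀ e, ∃ θ, Rel T D σ e e θ

/-- **GALR** -/
def GALR : Prop := ACT → SPN → LAM → MINK → GAL

/-- **EIG**: generators with invariant divisors -/
def EIG : Prop := ∀ d l, ∃ J₀ : ℕ, ForP d l fun L _ _ _ N T D s a A m J => ∀ G, Gp T A m G →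
  (∀ σ ∈ G, ∀ e, ∃ θ, Rel T D σ e e θ) → ∃ H ≤ G, H.relIndex G ≤ J₀ ∧ ∃ z : Fin N → L,
    (∀ j ∈ J, z j ∈ Ie A m s a (a j) ∧ Inv T D H (a j) (z j)) ∧ Spn T D s a A m J z

/-- **EIGR** -/
def EIGR : Prop := ACT → SPN → LAM → EIG

/-- **TAU**: invariant parameters -/
def TAU : Prop := ∀ (L : Type) [Field L] [Algebra ℂ L] (d : ℕ) (A : Subalgebra ℂ L) (m : Ideal A)
  (G : Subgroup (L ≃ₐ[ℂ] L)), FF L d → A.FG → m.IsMaximal → Finite G → Stab G A →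
    (∀ σ ∈ G, ∀ x, Nz A m x → Nz A m (σ x)) → ∃ τ : Fin (d + 1) → A,
      (∀ i, τ i ∈ m ∧ Fix G (τ i : L)) ∧ Module.Finite (Algebra.adjoin ℂ (range τ)) A ∧
        ∃ n : ℕ, m ^ n ≤ Ideal.span (range τ)

/-- **NAK**: the monomials generate after a localisation; `b` enumerates `J` -/
def NAK : Prop := ∀ d l, ForP d l fun L _ _ _ N T D s a A m J => ∀ (c r : ℕ) (τ : Fin c → A)
  (z : Fin N → L) (b : Fin r → Fin N), (∀ j ∈ J, j ∈ range b) →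
    (∀ i, z (b i) ∈ Ie A m s a (a (b i))) → Spn T D s a A m J z → (∀ i, τ i ∈ m) →
    Module.Finite (Algebra.adjoin ℂ (range τ)) A → (∃ n : ℕ, m ^ n ≤ Ideal.span (range τ)) →
    ∃ γ ∈ Algebra.adjoin ℂ (range fun i => (τ i : L)), Nz A m γ ∧ ∀ e, ∀ φ ∈ Sp s a e,
      ∃ n : ℕ, γ ^ n * φ ∈ Mo T D (fun i => (τ i : L)) (z ∘ b) (a ∘ b) e

/-- **NAKR** -/
def NAKR : Prop := SPN → NAK

/-- **RK**: the rank of the lattice of the principal combinations -/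
def RK : Prop := ∀ d l, ForP d l fun _ _ _ k N T D _ a _ _ J => ∀ (k₀ ρ : ℕ)
  (w : Fin k₀ → Fin k → ℤ) (b : Fin J.card → Fin N) (v : Fin ρ → Fin (k₀ + J.card) → ℤ),
    (∀ j ∈ J, j ∈ range b) → LinearIndependent ℤ v →
    (∀ i, ∃ θ, Pr T D (cv (Fin.append w (a ∘ b)) (v i)) θ) → ρ ≤ k₀ + l

/-- **RKR** -/
def RKR : Prop := LAM → RK

/-- **ICX**: the generators of the invariant sections: `τ`, `γ⁻¹`, the canonical sections and the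
units -/
def ICX : Prop := ∀ d l, ForP d l fun L _ _ k _ T D s a A m _ => ∀ (H : Subgroup (L ≃ₐ[ℂ] L))
  (c k₀ r ρ : ℕ) (τ : Fin c → L) (γ : L) (ζ : Fin k₀ → L) (w : Fin k₀ → Fin k → ℤ)
  (z : Fin r → L) (w' : Fin r → Fin k → ℤ), Gp T A m H → (∀ i, τ i ∈ A ∧ Fix H (τ i)) →
    γ ∈ A → γ ≠ 0 → Fix H γ → (∀ i, Inv T D H (w i) (ζ i)) →
    (∀ j, z j ∈ Sp s a (w' j) ∧ Inv T D H (w' j) (z j)) →
    (∀ e, ∀ φ ∈ Sp s a e, ∃ n : ℕ, γ ^ n * φ ∈ Mo T D τ z w' e) →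
    (∀ (n : ℕ) (v : Fin n → Fin (k₀ + r) → ℤ), LinearIndependent ℤ v →
      (∀ i, ∃ θ, Pr T D (cv (Fin.append w w') (v i)) θ) → n ≤ ρ) →
    ∃ (N' : ℕ) (s' : Fin N' → L) (a' : Fin N' → Fin (k₀ + r) → ℤ), N' ≤ c + r + ρ + 2 ∧
      Ic T (Ed D (Fin.append ζ z) (Fin.append w w')) H γ s' a'

/-- **DOM**: norms of sections -/
def DOM : Prop := ∀ d l, ForP d l fun L _ _ k _ T D _ a A m J => ∀ (H : Subgroup (L ≃ₐ[ℂ] L))
  (n : ℕ) (ζ : Fin n → L) (w : Fin n → Fin k → ℤ), Gp T A m H → (∀ i, Inv T D H (w i) (ζ i)) →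
    (∀ j ∈ J, a j ∈ range w) → Dm T (Ed D ζ w) H

/-- **DOMR** -/
def DOMR : Prop := LAM → DOM

/-- **TRN**: the transport to the fixed field -/
def TRN : Prop := ∀ (K L : Type) [Field K] [Algebra ℂ K] [Field L] [Algebra ℂ L] [Algebra K L]
  [IsScalarTower ℂ K L] (d k k' N l : ℕ) (T₀ : Set (Pl K)) (T : Set (Pl L))
  (G H : Subgroup (L ≃ₐ[ℂ] L)) (Z : Pl K → Fin k → ℤ) (E : Pl L → Fin (k + k') → ℤ) (γ : K)
  (s : Fin N → L) (a : Fin N → Fin (k + k') → ℤ), FF L d → Qt d T₀ T G → Finite G → H ≤ G →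
    (∀ σ ∈ H, ∀ P ∈ T, ∀ P', Cj σ P P' → E P' = E P) →
    (∀ P₀ ∈ T₀, ∀ P, Lies (algebraMap K L) P P₀ → ∀ i, E P (Fin.castAdd k' i) = Z P₀ i) →
    (∀ φ v, {P | P ∈ T ∧ P.ord φ + v ⬝ᵥ E P ≠ 0}.Finite) →
    Ic T E H (algebraMap K L γ) s a → Dm T E H → N ≤ k + k' + l →
    Out d l (H.relIndex G) T₀ {P ∈ T₀ | P.ord γ = 0} Z

/-- **STG**: the first stage -/
def STG : Prop := ∀ d l, ∃ J₀ : ℕ, ForP d l fun L _ _ _ _ T _ _ _ A m _ =>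
  ∀ (K : Type) [Field K] [Algebra ℂ K] [Algebra K L] [IsScalarTower ℂ K L] (T₀ : Set (Pl K))
    (G : Subgroup (L ≃ₐ[ℂ] L)) (k₀ : ℕ) (Z : Pl K → Fin k₀ → ℤ), Gp T A m G → Qt d T₀ T G →
    (∀ i, {P | P ∈ T₀ ∧ Z P i ≠ 0}.Finite) → ∃ γ : K, Nz A m (algebraMap K L γ) ∧
      Out d (d + l + 3) J₀ T₀ {P ∈ T₀ | P.ord γ = 0} Z

/-- **STGR** -/
def STGR : Prop := ACT → GAL → EIG → TAU → NAK → RK → ICX → DOM → TRN → STG

/-- **FC**: the second stage, from the extension back to the base -/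
def FC : Prop := ∀ (l J n q : ℕ) (ε : ℝ), 0 < q → 0 < ε → ∃ M : ℕ, 1 ≤ M ∧
  ∀ (K : Type) [Field K] [Algebra ℂ K] (u : Finset K) (Λ Γ Γ' : BD K) (k N : ℕ)
    (D : Pl K → Fin k → ℤ) (s : Fin N → K) (a : Fin N → Fin k → ℤ) (T₀ : Set (Pl K)),
    Dat n u Λ Γ Γ' → Cox (Tt n u Λ) D s a → (∃ h e, Eqv (Tt n u Λ) D (cn K (n + 1)) h e) →
    (∃ h e, Eqv (Tt n u Λ) D ((q : ℝ) • Γ) h e) → (∀ P ∈ Tt n u Λ, dsc (n + 1) Γ P ≤ 0) →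
    (∀ P, Ov u P → ε ≤ 1 + dsc (n + 1) Γ P) → NefO n K u (-Γ) → Tt n u Λ ⊆ T₀ →
    Out (n + 1) l J T₀ (Tt n u Λ) D → Cpl n M u Λ Γ

section schemes

open Vale.Agent.P289 (Pt)
open Vale.Agent.P283M.Stm Vale.Agent.P283M.Stm.Var
open Vale.Agent.P283M.Br (UnAt)
open Vale.Agent.P283R.Gl (TorY pq)
open Vale.Agent.P283R.To (mon)

/-- the prime divisors in `W` -/
def Pw {X : Var} (W : X.X.Opens) : Set (Pl X.K) := pq '' {E : X.PrimeDiv | E.1 ∈ W}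

/-- **TORF**: toric varieties give pointed data -/
def TORF : Prop := ∀ (Y : Var) (d : ℕ) (W : Y.X.Opens) (y : Fin d → Y.K) (S : Set (Pt Y.X)),
  FF Y.K d → TorY W y → S.Nonempty → (∀ x ∈ S, x ∈ W) →
    (∀ v ≠ 0, (∀ x ∈ W, RegAt (mon y v) x) → ∀ x ∈ S, ¬ RegAt (mon y (-v)) x) →
    ∃ (k N : ℕ) (D : Pl Y.K → Fin k → ℤ) (s : Fin N → Y.K) (a : Fin N → Fin k → ℤ)
      (A : Subalgebra ℂ Y.K) (m : Ideal A) (J : Finset (Fin N)),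
      Pd d (d + 1) (Pw W) D s a A m J ∧ (∀ g, g ∈ A ↔ ∀ x ∈ W, RegAt g x) ∧
        ∀ x ∈ S, ∀ g, Nz A m g ↔ g ∈ A ∧ UnAt g x

/-- **QUO**: finite quotients -/
def QUO : Prop := ∀ (X Y : Var) (d : ℕ) (π : Y.X ⟶ X.X) (ι : X.K →+* Y.K)
  (G : Subgroup (Y.K ≃ₐ[ℂ] Y.K)) (U : X.X.Opens), FF X.K d → IsFinite π → Surjective π →
    π ≫ X.str = Y.str → Et.Pe π ι → Finite G → (∀ g, Fix G g ↔ ∃ a, ι a = g) →
    (∀ E : Y.PrimeDiv, ∃ y : X.PrimeDiv, E.1.map π = y.1 ∧ ∀ a, ord (ι a) E = ord a y) →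
    letI := ι.toAlgebra
    IsScalarTower ℂ X.K Y.K ∧ FF Y.K d ∧ Qt d (Pw U) (Pw (π ⁻¹ᵁ U)) G ∧
      (∀ σ ∈ G, ∀ P ∈ Pw (π ⁻¹ᵁ U), ∀ P', Cj σ P P' → P' ∈ Pw (π ⁻¹ᵁ U)) ∧
      ∀ σ ∈ G, ∀ x : Pt Y.X, ∃ x' : Pt Y.X, x'.map π = x.map π ∧
        ∀ g, (RegAt g x' → RegAt (σ g) x) ∧ (UnAt g x' → UnAt (σ g) x)

end schemes

open Sl Sl.Var

/-- the class -/
def ONT : Prop := On fun d _ _ f ω B z =>
  FanoType f ω ∧ NefOver f (-logCan ω B) ∧ ToricQuotient f z d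

/-- **TOP** -/
def TOP : Prop := FC → STG → TORF → QUO → ONT

end Vale.Agent.P283R.Tq
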