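import Vale.Agent.P283R.Tq.St
import Vale.Agent.P283R.C3.On
import Vale.Agent.P283R.Cy.Tpb

/-!
# P283R, block TQ: the scheme side
-/

open Set CategoryTheory AlgebraicGeometry

noncomputable section

namespace Vale.Agent.P283R.Tq

namespace T61

open Vale.Agent.P289 (Pt St toRat DForm dimension)
open Vale.Agent.P287D Vale.Agent.P283M.Stm Vale.Agent.P283M.Stm.Var Vale.Agent.P297Z
open Vale.Agent.P283M Vale.Agent.P283M.Br Vale.Agent.P283R.Sch Vale.Agent.P283R.Cox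
open Vale.Agent.P283R.Gl (TorY pq pq_is pq_ord)
open Vale.Agent.P283R.To (mon)
open Vale.Agent.P283R.Lx (Nz)

variable {X Y Z : Var} {n : ℕ} {f : X.X ⟶ Z.X} {z : Pt Z.X} {V W : Z.X.Opens}

/-- the locus where a regular function is a unit -/
theorem nbh (hf : Contraction f) (hV : IsAffineOpen V) {γ : X.K} (hγ : ∀ x ∈ f ⁻¹ᵁ V, RegAt γ x)
    {x₀ : Pt X.X} (hx : x₀ ∈ f ⁻¹ᵁ V) (h0 : UnAt γ x₀) : ∃ W : Z.X.Opens, IsAffineOpen W ∧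
      x₀ ∈ f ⁻¹ᵁ W ∧ W ≤ V ∧ ∀ x ∈ f ⁻¹ᵁ V, x ∈ f ⁻¹ᵁ W ↔ UnAt γ x := by
  have : Nonempty ↑(f ⁻¹ᵁ V) := ⟨⟨x₀, hx⟩⟩
  have := hf.2.2.2 V
  obtain ⟨b, rfl⟩ := Am.exists_pl f V (g := γ) (Am.mem_reg.2 hγ)
  have k : ∀ x ∈ f ⁻¹ᵁ V, x ∈ f ⁻¹ᵁ Z.X.basicOpen b ↔ UnAt (Am.pl f V b) x := fun x hx =>
    (Am.un_pl (f := f) (V := V) hx b).symm
  exact ⟨_, hV.basicOpen b, (k _ hx).2 h0, Z.X.basicOpen_le _, k⟩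

theorem tt {u : Finset X.K} {Λ : BD X.K} (bs : Base f V z u)
    (on : ∀ (P : Pl X.K) (x : Pt X.X), x ∈ f ⁻¹ᵁ V → Dom P.ring x → (On n Λ P ↔ x.CodimOne)) :
    Cx.Tt n u Λ = Pw (f ⁻¹ᵁ V) := Set.ext fun R => by
  refine ⟨fun t => ?_, ?_⟩
  · obtain ⟨x, hx, dm⟩ := bs.ctr R.ring R.con t.1
    obtain ⟨E, rfl⟩ : ∃ E : X.PrimeDiv, E.1 = x := ⟨⟨x, (on R x hx dm).1 t.2⟩, rfl⟩
    exact ⟨E, hx, Pl.ext' (congrArg _ (P297Z.Pl.eq_of_le' (v := (pq E).toPlace)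
      (w := R.toPlace) fun g hg => (dm g ((pq_is E g).1 hg)).1))⟩
  · rintro ⟨E, c, rfl⟩
    exact ⟨fun b hb => ((pq_is E).dom b (bs.reg b hb _ c)).1, (on _ _ c (pq_is E).dom).2 E.2⟩

/-- the second stage on the scheme -/
theorem two {q M l J : ℕ} {ε : ℝ} (M1 : 1 ≤ M)
    (H : ∀ (K : Type) [Field K] [Algebra ℂ K] (u : Finset K) (Λ Γ Γ' : BD K) (k N : ℕ)
      (D : Pl K → Fin k → ℤ) (s : Fin N → K) (a : Fin N → Fin k → ℤ) (T₀ : Set (Pl K)),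
      Dat n u Λ Γ Γ' → Cx.Cox (Cx.Tt n u Λ) D s a →
      (∃ h e, Cx.Eqv (Cx.Tt n u Λ) D (cn K (n + 1)) h e) →
      (∃ h e, Cx.Eqv (Cx.Tt n u Λ) D ((q : ℝ) • Γ) h e) →
      (∀ P ∈ Cx.Tt n u Λ, dsc (n + 1) Γ P ≤ 0) → (∀ P, Ov u P → ε ≤ 1 + dsc (n + 1) Γ P) →
      NefO n K u (-Γ) → Cx.Tt n u Λ ⊆ T₀ → Out (n + 1) l J T₀ (Cx.Tt n u Λ) D → Cpl n M u Λ Γ)
    {ω : DForm ℂ X.K (n + 1)} {B : X.QDiv} (hdim : dimension X.str = (n + 1 : ℕ))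
    (hω : ω.Nonzero) (hB : Pair (ε ≤ ·) ⊤ ω B) (hq : ∀ E, ∃ m : ℤ, q * B E = m)
    (hf : Contraction f) (hF : FanoType f ω) (hn : NefOver f (-logCan ω B))
    (hz : IsClosed ({z} : Set (Pt Z.X))) {T₀ : Set (Pl X.K)}
    (h : ∀ D : Fin 2 → X.PrimeDiv →₀ ℤ, ∃ W : Z.X.Opens, IsAffineOpen W ∧ z ∈ W ∧
      Pw (f ⁻¹ᵁ W) ⊆ T₀ ∧ Out (n + 1) l J T₀ (Pw (f ⁻¹ᵁ W)) fun P i => Cox.up (D i) P) :
    HasKltComplement f ω B M z := by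
  classical
  have hK := ffd X _ hdim
  obtain ⟨j, j0, fr⟩ := frm X _ hK ω hω
  choose c hc using hq
  let D₀ : X.PrimeDiv →₀ ℤ := Finsupp.ofSupportFinite _ (P283R.Br.form_fin hK fr)
  let D₁ : X.PrimeDiv →₀ ℤ := Finsupp.ofSupportFinite c (B.support.finite_toSet.subset fun E e =>
    Finsupp.mem_support_iff.2 fun z => e (by simpa [z] using (hc E).symm))
  have d0 : ∀ E, D₀ E = formOrd ω (RingEquiv.refl X.K) E := fun _ => rfl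
  have d1 : ∀ E, D₁ E = c E := fun _ => rfl
  have o : ∀ E : X.PrimeDiv, ord 1 E = 0 := fun E => (pq_ord E 1).trans (Pl.ord_one _)
  obtain ⟨W, hW, zW, le, out⟩ := h ![D₀, D₁]
  have h2 : InSpan (f ⁻¹ᵁ W) ![D₀, D₁] (logCan ω 0) := ⟨![1, 0], 1, one_ne_zero, fun E _ => by
    rw [o, logCan]
    simp [d0]⟩
  have h3 : InSpan (f ⁻¹ᵁ W) ![D₀, D₁] fun E => q * B E := ⟨![0, 1], 1, one_ne_zero, fun E _ => by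
    rw [o]
    simpa [d1] using hc E⟩
  obtain ⟨u, bs⟩ := basV hf hz hW zW
  obtain ⟨Λ, Γ, Γ', dt, on, b, b', nf, e⟩ := dataW hK hω hB hf hF bs
  obtain ⟨N, h1⟩ := schU Cx.ut hdim hω hf hF hz hW zW ![D₀, D₁]
  obtain ⟨s, a, π, ci⟩ := cg_of bs on h1
  have s1 : Cox.Sp n u Λ _ (cn X.K (n + 1)) := sp_of bs on h2 j0 fun P E _ dm => by
    rw [← fr X _ E P (is_of_dom dm) (ord_eq dm), logCan]
    simp
  have s2 : Cox.Sp n u Λ _ ((q : ℝ) • -dsc (n + 1) Γ) :=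
    sp_of bs on h3 one_ne_zero fun P E c dm => by simp [b' P E c dm]
  have s3 : ∀ P, Ov u P → On n Λ P → dsc (n + 1) Γ P ≤ 0 :=
    (all_iff bs on (p := fun E => 0 ≤ B E) fun P E c dm => by
      rw [b' P E c dm, neg_nonpos, Rat.cast_nonneg]).1 fun E _ => hB.1 E trivial
  obtain ⟨s, a, π, h, s0⟩ := Cx.Gn.shift ci
  obtain ⟨h₁, e₁, e'⟩ := Cx.Ad.eqv s1
  obtain ⟨g₁, b₁, e''⟩ := Cx.Ad.eqv s2
  rw [← tt bs on] at le out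
  exact e M M1 (H X.K u Λ Γ Γ' _ _ _ s a T₀ dt (Cx.Gn.coxY Cx.big dt h s1 s0) ⟨_, _, e'⟩
    ⟨_, _, Cy.Tpb.eqv e' e''⟩ (fun P t => s3 P t.1 t.2) b (nf hn) le out)

/-- the first stage on the scheme -/
theorem one (tf : TORF) (qu : QUO) {d J : ℕ}
    (H : ForP d (d + 1) fun L _ _ _ _ T _ _ _ A m _ =>
      ∀ (K : Type) [Field K] [Algebra ℂ K] [Algebra K L] [IsScalarTower ℂ K L] (T₀ : Set (Pl K))
        (G : Subgroup (L ≃ₐ[ℂ] L)) (k₀ : ℕ) (Z : Pl K → Fin k₀ → ℤ), Gp T A m G → Qt d T₀ T G →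
        (∀ i, {P | P ∈ T₀ ∧ Z P i ≠ 0}.Finite) → ∃ γ : K, Nz A m (algebraMap K L γ) ∧
          Out d (d + (d + 1) + 3) J T₀ {P ∈ T₀ | P.ord γ = 0} Z)
    (hK : FF X.K d) (hf : Contraction f) (hV : IsAffineOpen V) (zV : z ∈ V) {π : Y.X ⟶ X.X}
    {ι : X.K →+* Y.K} {G : Subgroup (Y.K ≃ₐ[ℂ] Y.K)} (p1 : IsFinite π) (p2 : Surjective π)
    (p3 : π ≫ X.str = Y.str) (p4 : Et.Pe π ι) (p5 : Finite G) (p6 : ∀ g, Fix G g ↔ ∃ a, ι a = g)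
    (p7 : ∀ E : Y.PrimeDiv, ∃ y : X.PrimeDiv, E.1.map π = y.1 ∧ ∀ a, ord (ι a) E = ord a y)
    {y : Fin d → Y.K} (ty : TorY (π ⁻¹ᵁ (f ⁻¹ᵁ V)) y)
    (mo : ∀ v ≠ 0, (∀ x ∈ π ⁻¹ᵁ (f ⁻¹ᵁ V), RegAt (mon y v) x) → ∀ x : Pt Y.X,
      (x.map π).map f = z → ¬ RegAt (mon y (-v)) x) (D : Fin 2 → X.PrimeDiv →₀ ℤ) :
    ∃ W : Z.X.Opens, IsAffineOpen W ∧ z ∈ W ∧ Pw (f ⁻¹ᵁ W) ⊆ Pw (f ⁻¹ᵁ V) ∧
      Out d (d + (d + 1) + 3) J (Pw (f ⁻¹ᵁ V)) (Pw (f ⁻¹ᵁ W)) fun P i => Cox.up (D i) P := by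
  let _ := ι.toAlgebra
  obtain ⟨q1, hL, q3, q4, q5⟩ := qu X Y d π ι G (f ⁻¹ᵁ V) hK p1 p2 p3 p4 p5 p6 p7
  obtain ⟨x₁, rfl⟩ := hf.2.2.1.surj z
  obtain ⟨x₀, rfl⟩ := p2.surj x₁
  obtain ⟨k, N, E, s, a, A, m, I, pd, hA, hm⟩ := tf Y d _ y
    {x | (x.map π).map f = f (π x₀)} hL ty ⟨x₀, rfl⟩
    (fun x hx => show (x.map π).map f ∈ V from hx ▸ zV) mo
  obtain ⟨γ, hγ, out⟩ := H Y.K k N _ E s a A m I pd X.K (Pw (f ⁻¹ᵁ V)) G 2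
    (fun P i => Cox.up (D i) P) ⟨p5, q4, fun σ hσ g hg => by
      obtain ⟨x', e, r⟩ := q5 σ hσ x₀
      obtain ⟨g1, g2⟩ := (hm x' (congrArg (Pt.map f) e) g).1 hg
      refine (hm x₀ rfl _).2 ⟨(hA _).2 fun x hx => ?_, (r g).2 g2⟩
      obtain ⟨x'', e', r'⟩ := q5 σ hσ x
      exact (r' g).1 ((hA g).1 g1 x'' (show x''.map π ∈ f ⁻¹ᵁ V from e' ▸ hx))⟩ q3 fun i =>
    ((D i).support.finite_toSet.image pq).subset (by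
      rintro _ ⟨⟨F, -, rfl⟩, c⟩
      exact ⟨F, Finsupp.mem_support_iff.2 (up_eq _ (pq_is F).dom ▸ c), rfl⟩)
  obtain ⟨g1, g2⟩ := (hm x₀ rfl _).1 hγ
  have γ0 : γ ≠ 0 := fun e => g2.1 (by rw [e, map_zero])
  have rg : ∀ x ∈ f ⁻¹ᵁ V, RegAt γ x := fun x hx => har X γ x fun F c => by
    obtain ⟨P, l⟩ := Pb.up_alg hL (pq F)
    obtain ⟨F', c', rfl⟩ := (q3.lies P).2 ⟨_, ⟨F, c.mem_open (f ⁻¹ᵁ V).isOpen hx, rfl⟩, l⟩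
    rw [pq_ord]
    exact Pl.ord_nonneg_of_mem _ ((l γ).2 ((pq_is F' _).2 ((hA _).1 g1 _ c')))
  obtain ⟨W, hW, xW, le, hu⟩ := nbh hf hV rg (x₀ := π x₀) zV ((p4.un (rg _ zV)).1 g2)
  refine ⟨W, hW, xW, image_mono fun F c => le c, ?_⟩
  convert out using 1
  refine Set.ext fun P => ⟨?_, ?_⟩
  · rintro ⟨F, c, rfl⟩
    exact ⟨⟨F, le c, rfl⟩, (Lx.un_ord (pq_is F).dom γ0).1 ((hu _ (le c)).1 c)⟩
  · rintro ⟨⟨F, c, rfl⟩, e⟩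
    exact ⟨F, (hu _ c).2 ((Lx.un_ord (pq_is F).dom γ0).2 e), rfl⟩

end T61

open Sl Sl.Var in
/-- **TOP** -/
theorem top61 : TOP := by
  intro fc st tf qu d hd ε hε R hR
  obtain ⟨n, rfl⟩ : ∃ n, d = n + 1 := ⟨d - 1, by omega⟩
  obtain ⟨J, H⟩ := st (n + 1) (n + 1 + 1)
  obtain ⟨M, M1, H'⟩ := fc (n + 1 + (n + 1 + 1) + 3) J n (∏ r ∈ R, r.den) ε
    (Finset.prod_pos fun r _ => r.den_pos) hε
  refine ⟨M, M1, fun X Z f ω B z a b c e s u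
    ⟨u1, u2, Y, π, V, y, ⟨p1, p2, p3, ι, G, p4, ⟨p5, p6⟩, p7⟩, hV, zV, y1, y2, y3⟩ =>
    (has_iff f ω B M z).2 ?_⟩
  exact T61.two (X := X.o) (Z := Z.o) M1 H' a b ((pair_iff _ _ ω B).1 c) (C3.den e) s
    ((fanoType_iff f ω).1 u1) ((nefOver_iff f _).1 u2) u
    (T61.one (X := X.o) (Y := Y.o) (Z := Z.o) tf qu H (P283M.Br.ffd X.o _ a) s hV zV p1 p2 p3 p4 p5
      p6 p7 ⟨y1, fun x hx => let ⟨U, a, b, c, S, e, l⟩ := y2 x hx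
        ⟨U, a, b, c, S, e, fun g => Set.ext_iff.1 l g⟩⟩ y3)

end Vale.Agent.P283R.Tq
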