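import Vale.Agent.P283R.Tq.St

/-!
# P283R, block TQ: from the tier to the schemes
-/

open Set CategoryTheory AlgebraicGeometry

noncomputable section

namespace Vale.Agent.P283R.Tq

namespace T7

open Vale.Agent.P289 (Pt DForm dimension)
open Vale.Agent.P287D Vale.Agent.P283M.Stm Vale.Agent.P283M.Stm.Var Vale.Agent.P297Z
open Vale.Agent.P283M Vale.Agent.P283M.Br Vale.Agent.P283R.Sch Vale.Agent.P283R.Cox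
open Vale.Agent.P283R.Gl (TorY pq pq_is pq_ord)
open Vale.Agent.P283R.To (mon)
open Vale.Agent.P283R.Lx (Nz)

variable {X Y Z : Var} {n : ℕ} {f : X.X ⟶ Z.X} {z : Pt Z.X} {V : Z.X.Opens}

/-- the neighbourhood where a function does not vanish -/
theorem nb (hf : Contraction f) (hV : IsAffineOpen V) {γ : X.K} (hγ : ∀ x ∈ f ⁻¹ᵁ V, RegAt γ x)
    {x₀ : Pt X.X} (h₀ : x₀ ∈ f ⁻¹ᵁ V) (u : UnAt γ x₀) : ∃ W : Z.X.Opens, IsAffineOpen W ∧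
      x₀ ∈ f ⁻¹ᵁ W ∧ W ≤ V ∧ ∀ x ∈ f ⁻¹ᵁ V, x ∈ f ⁻¹ᵁ W ↔ UnAt γ x := by
  have : Nonempty ↑(f ⁻¹ᵁ V) := ⟨⟨x₀, h₀⟩⟩
  have := hf.2.2.2 V
  obtain ⟨b, rfl⟩ := Am.exists_pl f V (g := γ) (Am.mem_reg.2 fun x hx => (hγ x hx :))
  exact ⟨Z.X.basicOpen b, hV.basicOpen _, (Am.un_pl (f := f) (V := V) h₀ b).1 u,
    Z.X.basicOpen_le _, fun x hx => (Am.un_pl (f := f) (V := V) hx b).symm⟩

theorem tt {u : Finset X.K} {Λ : BD X.K} (bs : Base f V z u)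
    (on : ∀ (P : Pl X.K) (x : Pt X.X), x ∈ f ⁻¹ᵁ V → Dom P.ring x → (On n Λ P ↔ x.CodimOne)) :
    Cx.Tt n u Λ = Pw (f ⁻¹ᵁ V) := Set.ext fun R => by
  refine ⟨fun t => ?_, ?_⟩
  · obtain ⟨x, hx, dm⟩ := bs.ctr R.ring R.con t.1
    obtain ⟨E, rfl⟩ : ∃ E : X.PrimeDiv, E.1 = x := ⟨⟨x, (on R x hx dm).1 t.2⟩, rfl⟩
    exact ⟨E, hx, Pl.ext' (congrArg _ (P297Z.Pl.eq_of_le' (v := (pq E).toPlace)
      (w := R.toPlace) fun g hg => (dm g ((pq_is E g).1 hg)).1))⟩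
  · rintro ⟨E, c, rfl⟩
    exact ⟨fun b hb => ((pq_is E).dom b (bs.reg b hb _ c)).1, (on _ _ c (pq_is E).dom).2 E.2⟩

theorem core {q M l J : ℕ} {ε : ℝ} (M1 : 1 ≤ M)
    (H : ∀ (K : Type) [Field K] [Algebra ℂ K] (u : Finset K) (Λ Γ Γ' : BD K) (k N : ℕ)
      (D : Pl K → Fin k → ℤ) (s : Fin N → K) (a : Fin N → Fin k → ℤ) (T₀ : Set (Pl K)),
      Dat n u Λ Γ Γ' → Cx.Cox (Cx.Tt n u Λ) D s a →
      (∃ h e, Cx.Eqv (Cx.Tt n u Λ) D (cn K (n + 1)) h e) →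
      (∃ h e, Cx.Eqv (Cx.Tt n u Λ) D ((q : ℝ) • Γ) h e) →
      (∀ P ∈ Cx.Tt n u Λ, dsc (n + 1) Γ P ≤ 0) → (∀ P, Ov u P → ε ≤ 1 + dsc (n + 1) Γ P) →
      NefO n K u (-Γ) → Cx.Tt n u Λ ⊆ T₀ → Out (n + 1) l J T₀ (Cx.Tt n u Λ) D → Cpl n M u Λ Γ)
    {ω : DForm ℂ X.K (n + 1)} {B : X.QDiv} (hdim : dimension X.str = (n + 1 : ℕ))
    (hω : ω.Nonzero) (hB : Pair (ε ≤ ·) ⊤ ω B) (hq : ∀ E, ∃ m : ℤ, q * B E = m)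
    (hf : Contraction f) (hF : FanoType f ω) (hn : NefOver f (-logCan ω B))
    (hz : IsClosed ({z} : Set (Pt Z.X))) (hV : IsAffineOpen V) (zV : z ∈ V)
    (st : ∀ D : Pl X.K → Fin 2 → ℤ, (∀ i, {P | P ∈ Pw (f ⁻¹ᵁ V) ∧ D P i ≠ 0}.Finite) →
      ∃ γ : X.K, (∀ x ∈ f ⁻¹ᵁ V, RegAt γ x) ∧ (∀ x : Pt X.X, x.map f = z → UnAt γ x) ∧
        Out (n + 1) l J (Pw (f ⁻¹ᵁ V)) {P ∈ Pw (f ⁻¹ᵁ V) | P.ord γ = 0} D) :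
    HasKltComplement f ω B M z := by
  classical
  have hK := ffd X _ hdim
  obtain ⟨j, j0, fr⟩ := frm X _ hK ω hω
  choose c hc using hq
  let D₀ : X.PrimeDiv →₀ ℤ := Finsupp.ofSupportFinite _ (P283R.Br.form_fin hK fr)
  let D₁ : X.PrimeDiv →₀ ℤ := Finsupp.ofSupportFinite c (B.support.finite_toSet.subset fun E e =>
    Finsupp.mem_support_iff.2 fun z => e (by simpa [z] using (hc E).symm))
  let D : Fin 2 → X.PrimeDiv →₀ ℤ := ![D₀, D₁]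
  have o : ∀ E : X.PrimeDiv, ord 1 E = 0 := fun E => (pq_ord E 1).trans (Pl.ord_one _)
  have e : ∀ (x y : ℤ) E, ∑ i, ![x, y] i * D i E =
      x * formOrd ω (RingEquiv.refl X.K) E + y * c E := fun x y E => Fin.sum_univ_two _
  obtain ⟨γ, rg, un, out⟩ := st (fun P i => Cox.up (D i) P) fun i =>
    ((D i).support.finite_toSet.image pq).subset (by
      rintro _ ⟨⟨E, -, rfl⟩, w⟩
      exact ⟨E, Finsupp.mem_support_iff.2 ((up_eq _ (pq_is E).dom).symm.trans_ne w), rfl⟩)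
  obtain ⟨x₀, hx₀⟩ := hf.2.2.1.surj z
  have u₀ := un x₀ hx₀
  obtain ⟨W, hW, zW, le, hγ⟩ := nb hf hV rg (show f x₀ ∈ V from hx₀ ▸ zV) u₀
  replace zW : z ∈ W := hx₀ ▸ zW
  obtain ⟨u, bs⟩ := basV hf hz hW zW
  obtain ⟨Λ, Γ, Γ', dt, on, b, b', nf, fin⟩ := dataW hK hω hB hf hF bs
  obtain ⟨N, h1⟩ := schU Cx.ut hdim hω hf hF hz hW zW D
  obtain ⟨s, a, π, ci⟩ := cg_of bs on h1
  have s1 : Cox.Sp n u Λ _ (cn X.K (n + 1)) := sp_of bs on (D := D) (G := logCan ω 0)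
    ⟨![1, 0], 1, one_ne_zero, fun E _ => by rw [o, e, logCan]; simp⟩ j0 fun P E _ dm => by
      rw [← fr X _ E P (is_of_dom dm) (ord_eq dm), logCan]
      simp
  have s2 : Cox.Sp n u Λ _ ((q : ℝ) • -dsc (n + 1) Γ) :=
    sp_of bs on (D := D) (G := fun E => q * B E) ⟨![0, 1], 1, one_ne_zero, fun E _ => by
      rw [o, e]
      simpa using hc E⟩ one_ne_zero fun P E c dm => by simp [b' P E c dm]
  have s3 : ∀ P, Ov u P → On n Λ P → dsc (n + 1) Γ P ≤ 0 :=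
    (all_iff bs on (p := fun E => 0 ≤ B E) fun P E c dm => by
      rw [b' P E c dm, neg_nonpos, Rat.cast_nonneg]).1 fun E _ => hB.1 E trivial
  obtain ⟨s, a, π, h, s0⟩ := Cx.Gn.shift ci
  obtain ⟨h₁, e₁, e'⟩ := Cx.Ad.eqv s1
  obtain ⟨g₁, b₁, e''⟩ := Cx.Ad.eqv s2
  have T : Cx.Tt n u Λ = {P ∈ Pw (f ⁻¹ᵁ V) | P.ord γ = 0} := (tt bs on).trans (Set.ext fun P =>
    ⟨by rintro ⟨E, w, rfl⟩
        exact ⟨⟨E, le w, rfl⟩, (Lx.un_ord (pq_is E).dom u₀.1).1 ((hγ _ (le w)).1 w)⟩,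
     by rintro ⟨⟨E, w, rfl⟩, w'⟩
        exact ⟨E, (hγ _ w).2 ((Lx.un_ord (pq_is E).dom u₀.1).2 w'), rfl⟩⟩)
  exact fin M M1 (H X.K u Λ Γ Γ' _ _ _ s a _ dt (Cx.Gn.coxY Cx.big dt h s1 s0) ⟨_, _, e'⟩
    ⟨_, _, Cx.Tz.eqv e' e''⟩ (fun P t => s3 P t.1 t.2) b (nf hn) (T ▸ sep_subset _ _) (T ▸ out))

theorem stage {d l J : ℕ} (torf : TORF) (quo : QUO)
    (H : ForP d (d + 1) fun L _ _ _ _ T _ _ _ A m _ =>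
      ∀ (K : Type) [Field K] [Algebra ℂ K] [Algebra K L] [IsScalarTower ℂ K L] (T₀ : Set (Pl K))
      (G : Subgroup (L ≃ₐ[ℂ] L)) (k₀ : ℕ) (Z : Pl K → Fin k₀ → ℤ), Gp T A m G → Qt d T₀ T G →
      (∀ i, {P | P ∈ T₀ ∧ Z P i ≠ 0}.Finite) → ∃ γ : K, Nz A m (algebraMap K L γ) ∧
        Out d l J T₀ {P ∈ T₀ | P.ord γ = 0} Z)
    (hK : FF X.K d) (hf : Contraction f) (zV : z ∈ V) {π : Y.X ⟶ X.X} {ι : X.K →+* Y.K}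
    {G : Subgroup (Y.K ≃ₐ[ℂ] Y.K)} (p1 : IsFinite π) (p2 : Surjective π) (p3 : π ≫ X.str = Y.str)
    (p4 : Et.Pe π ι) (p5 : Finite G) (p6 : ∀ g, Fix G g ↔ ∃ a, ι a = g)
    (p7 : ∀ E : Y.PrimeDiv, ∃ y : X.PrimeDiv, E.1.map π = y.1 ∧ ∀ a, ord (ι a) E = ord a y)
    {y : Fin d → Y.K} (ty : TorY (π ⁻¹ᵁ f ⁻¹ᵁ V) y)
    (pt : ∀ v ≠ 0, (∀ x ∈ π ⁻¹ᵁ f ⁻¹ᵁ V, RegAt (mon y v) x) → ∀ x : Pt Y.X,
      (x.map π).map f = z → ¬ RegAt (mon y (-v)) x)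
    (D : Pl X.K → Fin 2 → ℤ) (fD : ∀ i, {P | P ∈ Pw (f ⁻¹ᵁ V) ∧ D P i ≠ 0}.Finite) :
    ∃ γ : X.K, (∀ x ∈ f ⁻¹ᵁ V, RegAt γ x) ∧ (∀ x : Pt X.X, x.map f = z → UnAt γ x) ∧
      Out d l J (Pw (f ⁻¹ᵁ V)) {P ∈ Pw (f ⁻¹ᵁ V) | P.ord γ = 0} D := by
  let _ := ι.toAlgebra
  obtain ⟨tw, hL, qt, stT, cj⟩ := quo X Y d π ι G (f ⁻¹ᵁ V) hK p1 p2 p3 p4 p5 p6 p7
  have sV : ∀ x : Pt Y.X, (x.map π).map f = z → x ∈ π ⁻¹ᵁ f ⁻¹ᵁ V := fun x e =>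
    show (x.map π).map f ∈ V from e ▸ zV
  obtain ⟨x₀, hx₀⟩ : ∃ x : Pt Y.X, (x.map π).map f = z := by
    obtain ⟨x, hx⟩ := hf.2.2.1.surj z
    obtain ⟨x', rfl⟩ := p2.surj x
    exact ⟨x', hx⟩
  obtain ⟨k, N, D', s, a, A, m, I, pd, hA, hm⟩ := torf Y d _ y {x | (x.map π).map f = z} hL ty
    ⟨x₀, hx₀⟩ sV pt
  obtain ⟨γ, nz, out⟩ := H Y.K k N _ D' s a A m I pd X.K _ G 2 D ⟨p5, stT, fun σ hσ g hg => by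
    obtain ⟨x', e, w⟩ := cj σ hσ x₀
    obtain ⟨g1, g2⟩ := (hm x' (show (x'.map π).map f = z from e ▸ hx₀) g).1 hg
    refine (hm x₀ hx₀ _).2 ⟨(hA _).2 fun x hx => ?_, (w g).2 g2⟩
    obtain ⟨x'', e', w'⟩ := cj σ hσ x
    exact (w' g).1 ((hA g).1 g1 x'' (show x''.map π ∈ f ⁻¹ᵁ V from e' ▸ hx))⟩ qt fD
  have rg : ∀ x ∈ f ⁻¹ᵁ V, RegAt γ x := fun x hx => har X γ x fun E sp => by
    obtain ⟨P, lP⟩ := pb_up d d X.K Y.K ι hK hL (p4.cst p3) (pq E)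
    obtain ⟨E', w, rfl⟩ := (qt.lies P).2 ⟨_, ⟨E, sp.mem_open (f ⁻¹ᵁ V).isOpen hx, rfl⟩, lP⟩
    rw [pq_ord]
    exact Pl.ord_nonneg_of_mem _ ((lP γ).2 ((pq_is E').dom _ ((hA _).1 nz.1 _ w)).1)
  refine ⟨γ, rg, fun x hx => ?_, out⟩
  obtain ⟨x', rfl⟩ := p2.surj x
  exact (p4.un (rg _ (sV x' hx))).1 ((hm x' hx _).1 nz).2

end T7

open Sl Sl.Var in
/-- **TOP** -/
theorem top7 : TOP := by
  intro fc stg torf quo d hd ε hε R hR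
  obtain ⟨n, rfl⟩ : ∃ n, d = n + 1 := ⟨d - 1, by omega⟩
  obtain ⟨J, st⟩ := stg (n + 1) (n + 1 + 1)
  obtain ⟨M, M1, H⟩ := fc _ J n (∏ r ∈ R, r.den) ε (Finset.prod_pos fun r _ => r.den_pos) hε
  refine ⟨M, M1, fun X Z f ω B z a b c e s t
    ⟨u1, u2, Y, π, V, y, ⟨p1, p2, p3, ι, G, p4, ⟨p5, p6⟩, p7⟩, hV, zV, h1, h2, h3⟩ =>
    (has_iff f ω B M z).2 ?_⟩
  refine T7.core (X := X.o) (Z := Z.o) M1 H a b ((pair_iff _ _ ω B).1 c) (fun E : X.PrimeDiv => ?_) s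
    ((fanoType_iff f ω).1 u1) ((nefOver_iff f _).1 u2) t hV zV
    (T7.stage (X := X.o) (Y := Y.o) (Z := Z.o) torf quo st (P283M.Br.ffd X.o _ a) s zV p1 p2 p3 p4
      p5 p6 p7 ⟨h1, fun x hx =>
        let ⟨U, a, b, c, S, e, l⟩ := h2 x hx; ⟨U, a, b, c, S, e, fun g => Set.ext_iff.1 l g⟩⟩
      fun v v0 w => h3 v v0 w)
  show ∃ m : ℤ, _ * B.coeff E = m
  by_cases z : B.coeff E = 0
  · exact ⟨0, by simp [z]⟩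
  · obtain ⟨w, hw⟩ := Finset.dvd_prod_of_mem Rat.den (e E z)
    refine ⟨w * (B.coeff E).num, ?_⟩
    rw [hw]
    push_cast
    rw [mul_comm (_ : ℚ) (w : ℚ), mul_assoc, Rat.den_mul_eq_num]

end Vale.Agent.P283R.Tq
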